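import Crest.Agent.R239.Lin

/-! More linear algebra for row 239: projections, contractions. -/

set_option autoImplicit false

open Matrix Finset

namespace Crest.Agent.R239

variable {n : Type*} [Fintype n] [DecidableEq n]

theorem fr_proj_diag (μ : n → ℝ) {P : Matrix n n ℝ} (hs : Pᵀ = P) (hi : P * P = P) :
    fr (P * diagonal μ * P) = ∑ a, ∑ b, μ a * μ b * P a b ^ 2 := by
  rw [fr_eq_trace]
  have : P * diagonal μ * P * (P * diagonal μ * P)ᵀ = P * (diagonal μ * P * diagonal μ * P) := by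
    simp only [transpose_mul, hs, diagonal_transpose, Matrix.mul_assoc]
    rw [← Matrix.mul_assoc P P, hi]
  rw [this, trace_mul_comm]
  simp only [Matrix.mul_assoc]
  rw [hi, ← Matrix.mul_assoc]
  simp only [trace, diag_apply]
  refine Finset.sum_congr rfl fun a _ => ?_
  rw [mul_apply]
  refine Finset.sum_congr rfl fun b _ => ?_
  have hab : P b a = P a b := congrFun (congrFun hs a) b
  rw [diagonal_mul, diagonal_mul, hab]; ring

/-- The key compression inequality. -/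
theorem min_sq_le (μ : n → ℝ) (hμ : ∀ a, 0 ≤ μ a) (τ : ℝ) (hτ : 0 ≤ τ) {P : Matrix n n ℝ}
    (hs : Pᵀ = P) (hi : P * P = P) :
    ∑ a, min (μ a) τ ^ 2 ≤ fr (P * diagonal μ * P) + τ ^ 2 * (Fintype.card n - trace P) := by
  rw [fr_proj_diag μ hs hi]
  set m : n → ℝ := fun a => min (μ a) τ with hm
  have hm0 : ∀ a, 0 ≤ m a := fun a => le_min (hμ a) hτ
  have hm1 : ∀ a, m a ≤ μ a := fun a => min_le_left _ _
  have hm2 : ∀ a, m a ≤ τ := fun a => min_le_right _ _
  set Q : Matrix n n ℝ := 1 - P with hQ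
  have hQs : ∀ a b, Q b a = Q a b := by
    intro a b
    have hab : P b a = P a b := congrFun (congrFun hs a) b
    simp [hQ, one_apply, hab, eq_comm]
  have hQi : Q * Q = Q := by
    simp only [hQ, Matrix.sub_mul, Matrix.mul_sub, Matrix.one_mul, Matrix.mul_one, hi]; simp
  have hQd : ∀ a, Q a a = ∑ b, Q a b ^ 2 := by
    intro a
    conv_lhs => rw [← hQi]
    rw [mul_apply]
    exact Finset.sum_congr rfl fun b _ => by rw [hQs a b]; ring
  have htr : (Fintype.card n : ℝ) - trace P = ∑ a, ∑ b, Q a b ^ 2 := by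
    simp only [← hQd]
    have : trace Q = Fintype.card n - trace P := by simp [hQ]
    rw [← this]; rfl
  have h1 : ∑ a, ∑ b, m a * m b * P a b ^ 2 ≤ ∑ a, ∑ b, μ a * μ b * P a b ^ 2 :=
    Finset.sum_le_sum fun a _ => Finset.sum_le_sum fun b _ =>
      mul_le_mul_of_nonneg_right (mul_le_mul (hm1 a) (hm1 b) (hm0 b) (hμ a)) (sq_nonneg _)
  have h2 : ∀ a, ∑ b, m a * m b * P a b ^ 2 =
      m a ^ 2 - 2 * (∑ b, m a ^ 2 * Q a b ^ 2) + ∑ b, m a * m b * Q a b ^ 2 := by
    intro a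
    rw [← Finset.mul_sum, ← hQd a]
    have : ∀ b, m a * m b * P a b ^ 2 =
        (if a = b then m a ^ 2 - 2 * (m a ^ 2 * Q a a) else 0) + m a * m b * Q a b ^ 2 := by
      intro b
      by_cases h : a = b
      · subst h; simp [hQ]; ring
      · simp [hQ, h, one_apply]
    simp only [this, Finset.sum_add_distrib, Finset.sum_ite_eq, Finset.mem_univ, if_true]
  have h3 : ∑ a, ∑ b, m a ^ 2 * Q a b ^ 2 = ∑ a, ∑ b, m b ^ 2 * Q a b ^ 2 := by
    rw [Finset.sum_comm]
    exact Finset.sum_congr rfl fun a _ => Finset.sum_congr rfl fun b _ => by rw [hQs]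
  have h4 : ∑ a, ∑ b, (m a ^ 2 * Q a b ^ 2 + m b ^ 2 * Q a b ^ 2 - m a * m b * Q a b ^ 2) ≤
      ∑ a, ∑ b, τ ^ 2 * Q a b ^ 2 := by
    refine Finset.sum_le_sum fun a _ => Finset.sum_le_sum fun b _ => ?_
    have : m a ^ 2 + m b ^ 2 - m a * m b ≤ τ ^ 2 := by
      rcases le_total (m a) (m b) with h | h
      · nlinarith [hm0 a, hm0 b, hm2 a, hm2 b]
      · nlinarith [hm0 a, hm0 b, hm2 a, hm2 b]
    nlinarith [sq_nonneg (Q a b)]
  simp only [Finset.sum_add_distrib, Finset.sum_sub_distrib, ← Finset.mul_sum] at h4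
  simp only [h2, Finset.sum_add_distrib, Finset.sum_sub_distrib, ← Finset.mul_sum] at h1
  simp only [← Finset.mul_sum] at h3
  rw [htr]
  change ∑ a, m a ^ 2 ≤ _
  linarith

theorem trace_vv_mul (z : n → ℝ) (M : Matrix n n ℝ) :
    trace (vecMulVec z z * M) = z ⬝ᵥ (M *ᵥ z) := by
  simp only [trace, diag_apply, mul_apply, vecMulVec_apply, dotProduct, mulVec, Finset.mul_sum]
  rw [Finset.sum_comm]
  exact Finset.sum_congr rfl fun a _ => Finset.sum_congr rfl fun b _ => by ring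

theorem vv_mulVec (z y : n → ℝ) : vecMulVec z z *ᵥ y = (z ⬝ᵥ y) • z := by
  ext i
  simp only [mulVec, vecMulVec_apply, dotProduct, Pi.smul_apply, smul_eq_mul, Finset.sum_mul]
  exact Finset.sum_congr rfl fun b _ => by ring

theorem mul_vv (M : Matrix n n ℝ) (y z : n → ℝ) : M * vecMulVec y z = vecMulVec (M *ᵥ y) z := by
  ext i j
  simp only [mul_apply, vecMulVec_apply, mulVec, dotProduct, Finset.sum_mul]
  exact Finset.sum_congr rfl fun b _ => by ring

theorem vv_mul (M : Matrix n n ℝ) (y z : n → ℝ) : vecMulVec y z * M = vecMulVec y (Mᵀ *ᵥ z) := by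
  ext i j
  simp only [mul_apply, vecMulVec_apply, mulVec, dotProduct, Finset.mul_sum, transpose_apply]
  exact Finset.sum_congr rfl fun b _ => by ring

/-- Removing one direction from a projection. -/
theorem exists_remove {P : Matrix n n ℝ} (hs : Pᵀ = P) (hi : P * P = P) (z : n → ℝ)
    (hz : P *ᵥ z = z) (hz0 : 0 < sq z) :
    ∃ P' : Matrix n n ℝ, P'ᵀ = P' ∧ P' * P' = P' ∧ P * P' = P' ∧ trace P' = trace P - 1 ∧
      P' *ᵥ z = 0 ∧ ∀ G : Matrix n n ℝ, Gᵀ = G →
        fr (P' * G * P') ≤ fr (P * G * P) - (z ⬝ᵥ (G *ᵥ z) / sq z) ^ 2 := by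
  set c : ℝ := (sq z)⁻¹ with hc
  have hc1 : c * (z ⬝ᵥ z) = 1 := by rw [← sq_eq]; exact inv_mul_cancel₀ hz0.ne'
  set Z : Matrix n n ℝ := c • vecMulVec z z with hZ
  have hZs : Zᵀ = Z := by simp [hZ, transpose_vecMulVec]
  have hZz : Z *ᵥ z = z := by
    rw [hZ, smul_mulVec, vv_mulVec, smul_smul, hc1, one_smul]
  have hPZ : P * Z = Z := by rw [hZ, Matrix.mul_smul, mul_vv, hz]
  have hZP : Z * P = Z := by rw [hZ, Matrix.smul_mul, vv_mul, hs, hz]
  have hZZ : Z * Z = Z := by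
    conv_lhs => rw [hZ, Matrix.mul_smul, ← hZ, mul_vv, hZz]
  have htrZ : ∀ M : Matrix n n ℝ, trace (Z * M) = c * (z ⬝ᵥ (M *ᵥ z)) := by
    intro M; rw [hZ, Matrix.smul_mul, trace_smul, trace_vv_mul, smul_eq_mul]
  refine ⟨P - Z, by simp [hs, hZs], ?_, ?_, ?_, ?_, ?_⟩
  · simp only [Matrix.sub_mul, Matrix.mul_sub, hi, hPZ, hZP, hZZ]; simp
  · simp only [Matrix.mul_sub, hi, hPZ]
  · have := htrZ 1
    rw [Matrix.mul_one, one_mulVec, hc1] at this
    rw [trace_sub, this]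
  · rw [sub_mulVec, hz, hZz, sub_self]
  · intro G hG
    set C := P * G * P with hC
    have hCs : Cᵀ = C := by simp [hC, hs, hG, Matrix.mul_assoc]
    have hPC : P * C = C := by rw [hC, ← Matrix.mul_assoc, ← Matrix.mul_assoc, hi]
    have hCP : C * P = C := by rw [hC, Matrix.mul_assoc, hi]
    have e1 : (P - Z) * G * (P - Z) = (P - Z) * C * (P - Z) := by
      have a1 : (P - Z) * P = P - Z := by simp only [Matrix.sub_mul, hi, hZP]
      have a2 : P * (P - Z) = P - Z := by simp only [Matrix.mul_sub, hi, hPZ]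
      conv_lhs => rw [← a1]
      conv_lhs => enter [2]; rw [a1, ← a2]
      simp only [hC, Matrix.mul_assoc]
    have e2 : fr ((P - Z) * C * (P - Z)) =
        fr C - 2 * (c * sq (C *ᵥ z)) + (c * (z ⬝ᵥ (C *ᵥ z))) ^ 2 := by
      have a3 : (P - Z) * (P - Z) = P - Z := by
        simp only [Matrix.sub_mul, Matrix.mul_sub, hi, hPZ, hZP, hZZ]; simp
      have a4 : (P - Z)ᵀ = P - Z := by simp [hs, hZs]
      rw [fr_eq_trace, fr_eq_trace, transpose_mul, transpose_mul, a4, hCs]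
      have : (P - Z) * C * (P - Z) * ((P - Z) * (C * (P - Z))) =
          (P - Z) * (C * (P - Z) * C * (P - Z)) := by
        simp only [Matrix.mul_assoc]
        rw [← Matrix.mul_assoc (P - Z) (P - Z), a3]
      rw [this, trace_mul_comm, Matrix.mul_assoc _ (P - Z) (P - Z), a3]
      have b1 : C * (P - Z) = C - C * Z := by rw [Matrix.mul_sub, hCP]
      rw [Matrix.mul_assoc (C * (P - Z)), b1]
      simp only [Matrix.sub_mul, Matrix.mul_sub, trace_sub]
      have t1 : trace (C * (C * Z)) = c * sq (C *ᵥ z) := by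
        rw [← Matrix.mul_assoc, trace_mul_comm, htrZ, sq_mulVec, hCs]
      have t2 : trace (C * Z * C) = c * sq (C *ᵥ z) := by
        rw [Matrix.mul_assoc, trace_mul_comm, Matrix.mul_assoc, htrZ, sq_mulVec, hCs]
      have t3 : trace (C * Z * (C * Z)) = (c * (z ⬝ᵥ (C *ᵥ z))) ^ 2 := by
        rw [Matrix.mul_assoc, trace_mul_comm, Matrix.mul_assoc, htrZ, ← mulVec_mulVec,
          ← mulVec_mulVec, hZ, smul_mulVec, vv_mulVec, smul_smul, mulVec_smul, dotProduct_smul,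
          smul_eq_mul]
        ring
      rw [t1, t2, t3]; ring
    have e3 : z ⬝ᵥ (C *ᵥ z) = z ⬝ᵥ (G *ᵥ z) := by
      rw [hC, ← mulVec_mulVec, ← mulVec_mulVec, hz, dot_mulVec_comm, hs, hz]
    have e4 : (c * (z ⬝ᵥ (C *ᵥ z))) ^ 2 ≤ c * sq (C *ᵥ z) := by
      have := dot_sq_le z (C *ᵥ z)
      have hc0 : 0 < c := inv_pos.mpr hz0
      have hc2 : c * sq z = 1 := inv_mul_cancel₀ hz0.ne'
      calc (c * (z ⬝ᵥ (C *ᵥ z))) ^ 2 = c ^ 2 * (z ⬝ᵥ (C *ᵥ z)) ^ 2 := by ring
        _ ≤ c ^ 2 * (sq z * sq (C *ᵥ z)) := by gcongr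
        _ = c * (c * sq z) * sq (C *ᵥ z) := by ring
        _ = _ := by rw [hc2, mul_one]
    rw [e1, e2, div_eq_inv_mul, ← hc, ← e3]
    linarith

end Crest.Agent.R239
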