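import Crest.Agent.R239.Stmts
import Crest.Agent.R239.Lin2

set_option autoImplicit false

open MeasureTheory Matrix Finset
open scoped ENNReal

namespace Crest.Agent.R239

namespace As

lemma exists_eta {q s : ℝ} (hq : 0 < q) (hq1 : q ≤ 1) (hs1 : s ≤ 1) :
    ∃ η : ℝ, 0 ≤ η ∧ η ≤ q ∧ 2 * η - η ^ 2 * s = q := by
  have h1 : 0 ≤ 1 - q * s := by nlinarith
  have h2 := Real.sq_sqrt h1
  have h3 := Real.sqrt_nonneg (1 - q * s)
  set ρ := Real.sqrt (1 - q * s)
  refine ⟨q / (1 + ρ), by positivity, div_le_self hq.le (by linarith), ?_⟩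
  field_simp
  nlinarith

lemma sq_smul {m : Type} [Fintype m] (c : ℝ) (x : m → ℝ) : sq (c • x) = c ^ 2 * sq x := by
  simp [sq, mul_pow, mul_sum]

lemma sq_convex {m : Type} [Fintype m] (x y : m → ℝ) {a b : ℝ} (ha : 0 ≤ a) (hb : 0 ≤ b)
    (hab : a + b = 1) : sq (a • x + b • y) ≤ a * sq x + b * sq y := by
  simp only [sq, mul_sum, ← sum_add_distrib, Pi.add_apply, Pi.smul_apply, smul_eq_mul]
  refine sum_le_sum fun i _ => ?_
  obtain rfl : b = 1 - a := by linarith
  nlinarith [mul_nonneg (mul_nonneg ha hb) (sq_nonneg (x i - y i))]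

variable {d N : ℕ}

/-- the lossless system -/
noncomputable def ZZ (T : Fin N → Matrix (Fin d) (Fin d) ℝ) (w : Fin N → Fin d → ℝ) :
    ℕ → Matrix (Fin d) (Fin (N + d)) ℝ
  | 0 => of fun i c => if c = Fin.natAdd N i then 1 else 0
  | j + 1 => if h : j < N then T ⟨j, h⟩ * ZZ T w j +
      vecMulVec (w ⟨j, h⟩) (Pi.single (Fin.castAdd d ⟨j, h⟩) (1 : ℝ)) else ZZ T w j

variable (T : Fin N → Matrix (Fin d) (Fin d) ℝ) (w : Fin N → Fin d → ℝ)

lemma ZZ_succ (k : Fin N) : ZZ T w (k + 1) =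
    T k * ZZ T w k + vecMulVec (w k) (Pi.single (Fin.castAdd d k) (1 : ℝ)) := by
  simp [ZZ]

lemma ZZ_succ_mulVec (k : Fin N) (x : Fin (N + d) → ℝ) : ZZ T w (k + 1) *ᵥ x =
    T k *ᵥ (ZZ T w k *ᵥ x) + x (Fin.castAdd d k) • w k := by
  rw [ZZ_succ, add_mulVec, mulVec_mulVec, vecMulVec_mulVec]
  simp

lemma ZZ_zero_col (k : Fin N) (i : Fin d) : ZZ T w 0 i (Fin.castAdd d k) = 0 := by
  have : Fin.castAdd d k ≠ Fin.natAdd N i := fun h => by
    have := congrArg Fin.val h
    simp at this; omega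
  simp [ZZ, this]

lemma ZZ_col (j : ℕ) (k : Fin N) (h : j ≤ k) :
    ZZ T w j *ᵥ (Pi.single (Fin.castAdd d k) (1 : ℝ)) = 0 := by
  induction j with
  | zero => ext i; simp [ZZ_zero_col]
  | succ j ih =>
    have := ZZ_succ_mulVec T w ⟨j, by omega⟩ (Pi.single (Fin.castAdd d k) (1 : ℝ))
    rw [ih (by omega), Pi.single_eq_of_ne (fun e => by
      have := congrArg Fin.val e
      simp at this; omega)] at this
    simpa using this

lemma ZZ_orth (h : ∀ k, T k * (T k)ᵀ + vecMulVec (w k) (w k) = 1) (j : ℕ) (hj : j ≤ N) :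
    ZZ T w j * (ZZ T w j)ᵀ = 1 := by
  induction j with
  | zero =>
    ext i i'
    simp [ZZ, mul_apply, one_apply, eq_comm]
  | succ j ih =>
    have e := ZZ_succ T w ⟨j, by omega⟩
    have c := ZZ_col T w j ⟨j, by omega⟩ le_rfl
    simp only at e
    rw [e, transpose_add, transpose_mul, transpose_vecMulVec, Matrix.add_mul, Matrix.mul_add,
      Matrix.mul_add, Matrix.mul_assoc, ← Matrix.mul_assoc (ZZ T w j), ih (by omega), Matrix.one_mul,
      mul_vecMulVec, ← mulVec_mulVec, c, vecMulVec_mul, ← vecMul_vecMul,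
      vecMul_transpose (ZZ T w j), c,
      vecMulVec_mul_vecMulVec, ← h ⟨j, by omega⟩]
    simp

end As

open As

theorem main_of (hD : DensStmt) (hK : KLStmt) (hM : MinimaxStmt) (hF : FlagStmt) : MainStmt := by
  obtain ⟨δ, hδ, ε, hε, hD⟩ := hD
  obtain ⟨C, hC, hF⟩ := hF
  obtain ⟨B, hB1, hB2, hB3⟩ : ∃ B : ℝ, 1 ≤ B ∧ 1 ≤ δ * B ∧ C / B ≤ ε / 2 := by
    refine ⟨1 + 1 / δ + 2 * C / ε, ?_, ?_, ?_⟩
    · have : 0 ≤ 1 / δ + 2 * C / ε := by positivity
      linarith
    · have : δ * (1 + 1 / δ + 2 * C / ε) = 1 + (δ + δ * (2 * C / ε)) := by field_simp; ring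
      have : 0 ≤ δ + δ * (2 * C / ε) := by positivity
      linarith
    · rw [div_le_iff₀ (by positivity)]
      have : ε / 2 * (1 + 1 / δ + 2 * C / ε) = C + ε / 2 * (1 + 1 / δ) := by field_simp; ring
      have : 0 ≤ ε / 2 * (1 + 1 / δ) := by positivity
      linarith
  obtain ⟨q, hq, q1, q2, q3⟩ : ∃ q : ℝ, 0 < q ∧ q ≤ δ / 16 ∧ q ≤ ε / 32 ∧ q ≤ 1 / 16 :=
    ⟨min (δ / 16) (min (ε / 32) (1 / 16)), by positivity, min_le_left _ _,
      (min_le_right _ _).trans (min_le_left _ _), (min_le_right _ _).trans (min_le_right _ _)⟩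
  have hB0 : 0 < B := by linarith
  refine ⟨Real.sqrt (4 * B * C / q), fun d N v hv => ?_⟩
  rcases Nat.eq_zero_or_pos d with rfl | hd
  · exact ⟨fun _ => 1, fun _ => Or.inl rfl, fun k _ => by
      rw [Subsingleton.elim (∑ i ∈ _, _) 0]; simp⟩
  rcases Nat.eq_zero_or_pos N with rfl | hN
  · exact ⟨fun _ => 1, fun _ => Or.inl rfl, fun k _ => by simp; positivity⟩
  let u : Fin N → Fin d → ℝ := fun j => (v j).ofLp
  have hu : ∀ j, sq (u j) ≤ 1 := fun j => by
    have := EuclideanSpace.real_norm_sq_eq (v j)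
    change ∑ i, v j i ^ 2 ≤ 1
    rw [← this]; exact pow_le_one₀ (norm_nonneg _) (hv j)
  choose η η0 η1 η2 using fun j => exists_eta hq (by linarith) (hu j)
  set s := Real.sqrt q with hs
  have s0 : 0 < s := Real.sqrt_pos.2 hq
  have s2 : s ^ 2 = q := Real.sq_sqrt hq.le
  let T : Fin N → Matrix (Fin d) (Fin d) ℝ := fun j => 1 - η j • vecMulVec (u j) (u j)
  let w : Fin N → Fin d → ℝ := fun j => s • u j
  let e : Fin N → Fin (N + d) := Fin.castAdd d
  have hT : ∀ j x, T j *ᵥ x = x - (η j * (u j ⬝ᵥ x)) • u j := fun j x => by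
    simp only [T, sub_mulVec, one_mulVec, smul_mulVec, vv_mulVec, smul_smul]
  have hTs : ∀ j x, sq (T j *ᵥ x) = sq x - q * (u j ⬝ᵥ x) ^ 2 := fun j x => by
    rw [hT, ← η2 j]
    simp only [sq_eq, sub_dotProduct, dotProduct_sub, smul_dotProduct, dotProduct_smul, smul_eq_mul,
      dotProduct_comm x (u j)]
    ring
  have hTw : ∀ k, T k * (T k)ᵀ + vecMulVec (w k) (w k) = 1 := fun k => by
    have e1 : vecMulVec (w k) (w k) = (2 * η k - η k ^ 2 * sq (u k)) • vecMulVec (u k) (u k) := by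
      rw [η2, ← s2]; ext i j; simp [w, vecMulVec_apply]; ring
    simp only [T, transpose_sub, transpose_one, transpose_smul, transpose_vecMulVec, Matrix.sub_mul,
      Matrix.mul_sub, Matrix.one_mul, Matrix.mul_one, Matrix.smul_mul, Matrix.mul_smul,
      vecMulVec_mul_vecMulVec, e1, sq_eq, vecMulVec_smul]
    module
  set Z := ZZ T w with hZ
  let a : Fin N → Fin (N + d) → ℝ := fun j => (-(η j / s)) • ((Z j)ᵀ *ᵥ u j)
  have ha : ∀ j x, a j ⬝ᵥ x = -(η j / s) * (u j ⬝ᵥ (Z j *ᵥ x)) := fun j x => by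
    simp only [a, smul_dotProduct, smul_eq_mul, dot_mulVec_comm]
  have hηs : ∀ j, (η j / s) ^ 2 ≤ q := fun j => by
    rw [div_pow, s2, div_le_iff₀ hq]; nlinarith [η0 j, η1 j]
  have hfa : ∀ j, sq (a j) ≤ q := fun j => by
    simp only [a]
    rw [sq_smul, sq_mulVec, transpose_transpose, ZZ_orth T w hTw j j.2.le, one_mulVec, ← sq_eq,
      neg_sq]
    nlinarith [hηs j, hu j, sq_nonneg' (u j), sq_nonneg (η j / s)]
  let K : Set (Fin (N + d) → ℝ) :=
    {x | (∀ j, |a j ⬝ᵥ x| ≤ 1 / 2) ∧ ∀ m ≤ N, sq (Z m *ᵥ x) ≤ 4 * B * C * d}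
  obtain ⟨P, p1, p2, p3, p4, p5⟩ := hM N hN (fun k => (4 : ℝ) • Pi.single (e k) (1 : ℝ)) K
    fun σ σ0 σ1 => by
      obtain ⟨A, _, M, r, r0, r1, r2, r3⟩ := hF d N (N + d) e σ Z T w σ0 σ1 (Fin.castAdd_injective _ _)
        (ZZ_orth T w hTw 0 (Nat.zero_le _)) (ZZ_zero_col T w) (ZZ_succ T w) hTw fun k => by
          simp only [w]; rw [sq_smul, s2]; nlinarith [hu k]
      let R : Fin N → Matrix (Fin d) (Fin (N + d)) ℝ := fun j =>
        of fun i c => if i = ⟨0, hd⟩ then a j c else 0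
      have hR1 : ∀ j, fr (R j) = sq (a j) := fun j => by
        simp [R, fr, sq]
      have hR2 : ∀ j x, sq (R j *ᵥ x) = (a j ⬝ᵥ x) ^ 2 := fun j x => by
        simp only [sq]
        rw [sum_eq_single ⟨0, hd⟩ (fun i _ h => by simp [R, mulVec, dotProduct, h]) (by simp)]
        simp [R, mulVec, dotProduct]
      have hcost : ∀ m ≤ N, ∑ j ∈ univ.filter (fun j : Fin N => (j : ℕ) < m),
          q * ∑ k, σ k * (u j ⬝ᵥ (Z j *ᵥ Pi.single (e k) 1)) ^ 2 +
          ∑ k, σ k * sq (Z m *ᵥ Pi.single (e k) 1) ≤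
          q * ∑ j ∈ univ.filter (fun j : Fin N => (j : ℕ) < m), σ j := by
        intro m hm
        induction m with
        | zero => simp [hZ, e, ZZ_col T w 0 _ (Nat.zero_le _), sq]
        | succ m ih =>
          have e1 : univ.filter (fun j : Fin N => (j : ℕ) < m + 1) =
              insert ⟨m, hm⟩ (univ.filter (fun j : Fin N => (j : ℕ) < m)) := by
            ext j; simp [Fin.ext_iff]; omega
          have e2 : ∀ k, σ k * sq (Z (m + 1) *ᵥ Pi.single (e k) 1) ≤
              σ k * sq (Z m *ᵥ Pi.single (e k) 1) -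
              q * (σ k * (u ⟨m, hm⟩ ⬝ᵥ (Z m *ᵥ Pi.single (e k) 1)) ^ 2) +
              if k = ⟨m, hm⟩ then q * σ k else 0 := fun k => by
            have := ZZ_succ_mulVec T w ⟨m, hm⟩ (Pi.single (e k) 1)
            simp only [← hZ] at this
            rw [this]
            split_ifs with h
            · subst h
              have c := ZZ_col T w m ⟨m, hm⟩ le_rfl
              simp only [← hZ] at c
              simp only [e, c, mulVec_zero, Pi.single_eq_same, one_smul, zero_add, w, sq_smul, s2]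
              have := mul_le_mul_of_nonneg_left (hu ⟨m, hm⟩) (mul_nonneg hq.le (σ0 ⟨m, hm⟩))
              simp [sq] at this ⊢
              nlinarith
            · rw [Pi.single_eq_of_ne (fun g => h (Fin.castAdd_injective _ _ g).symm), zero_smul,
                add_zero, hTs]
              linarith
          have e3 := sum_le_sum fun k (_ : k ∈ univ) => e2 k
          rw [sum_add_distrib, sum_sub_distrib, ← mul_sum, sum_ite_eq'] at e3
          rw [e1, sum_insert (by simp), sum_insert (by simp)]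
          have := ih (by omega)
          simp only [mem_univ, if_true] at e3
          simp only [mul_add]
          linarith
      have hc2 : ∑ j : Fin N, q * ∑ k, σ k * (u j ⬝ᵥ (Z j *ᵥ Pi.single (e k) 1)) ^ 2 ≤ q := by
        have := hcost N le_rfl
        simp only [Fin.is_lt, filter_true, σ1, mul_one] at this
        have : 0 ≤ ∑ k, σ k * sq (Z N *ᵥ Pi.single (e k) 1) :=
          sum_nonneg fun k _ => mul_nonneg (σ0 k) (sq_nonneg' _)
        linarith
      have hBs := Real.sq_sqrt hB0.le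
      obtain ⟨P, p1, p2, p3, p4, p5⟩ := hD (N + d) d N e σ σ0 σ1 (A ⊕ Fin N) (Sum.elim M R)
        (Sum.elim (fun α => Real.sqrt B * r α) fun _ => 1 / 4) (by
          rintro (α | j)
          · exact mul_pos (Real.sqrt_pos.2 hB0) (r0 α)
          · simp) (by
          rintro (α | j)
          · simp only [Sum.elim_inl, mul_pow, hBs]
            nlinarith [r1 α, sq_nonneg (r α)]
          · simp only [Sum.elim_inr, hR1]; linarith [hfa j]) (by
          rw [Fintype.sum_sum_type]
          simp only [Sum.elim_inl, Sum.elim_inr, mul_pow, hBs]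
          have c1 : ∑ α, (∑ k, σ k * ∑ i, M α i (e k) ^ 2) / (B * r α ^ 2) *
              (fr (M α) / (B * r α ^ 2)) ^ 5 ≤ C / B := by
            rw [le_div_iff₀ hB0, sum_mul]
            refine le_trans (sum_le_sum fun α _ => ?_) r2
            have := r0 α
            have h0 : 0 ≤ ∑ k, σ k * ∑ i, M α i (e k) ^ 2 :=
              sum_nonneg fun k _ => mul_nonneg (σ0 k) (sum_nonneg fun i _ => sq_nonneg _)
            have := fr_nonneg (M α)
            rw [mul_right_comm]
            refine mul_le_mul (le_of_eq (by field_simp)) ?_ (by positivity) (by positivity)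
            gcongr
            nlinarith [sq_nonneg (r α)]
          have c2 : ∑ j, (∑ k, σ k * ∑ i, R j i (e k) ^ 2) / (1 / 4) ^ 2 *
              (fr (R j) / (1 / 4) ^ 2) ^ 5 ≤ 16 * q := by
            refine le_trans (sum_le_sum fun j _ => ?_)
              ((mul_sum _ _ _).symm.le.trans (mul_le_mul_of_nonneg_left hc2 (by norm_num)))
            have g1 : (fr (R j) / (1 / 4) ^ 2) ^ 5 ≤ 1 := pow_le_one₀
              (by have := fr_nonneg (R j); positivity) (by rw [hR1, div_le_one (by norm_num)]; linarith [hfa j])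
            have g2 : ∑ k, σ k * ∑ i, R j i (e k) ^ 2 ≤
                q * ∑ k, σ k * (u j ⬝ᵥ (Z j *ᵥ Pi.single (e k) 1)) ^ 2 := by
              rw [mul_sum]
              refine sum_le_sum fun k _ => ?_
              have g3 : ∑ i, R j i (e k) ^ 2 = (a j ⬝ᵥ Pi.single (e k) 1) ^ 2 := by simp [R]
              rw [g3, ha, mul_pow, neg_sq, mul_left_comm]
              exact mul_le_mul_of_nonneg_right (hηs j) (mul_nonneg (σ0 k) (sq_nonneg _))
            have h0 : 0 ≤ ∑ k, σ k * ∑ i, R j i (e k) ^ 2 :=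
              sum_nonneg fun k _ => mul_nonneg (σ0 k) (sum_nonneg fun i _ => sq_nonneg _)
            refine (mul_le_of_le_one_right (by positivity) g1).trans ?_
            rw [div_le_iff₀ (by norm_num)]
            linarith
          linarith)
      refine ⟨P, p1, p2, fun x hx => ⟨fun j => ?_, fun m hm => ?_⟩, p4, p5⟩
      · have := p3 x hx (Sum.inr j)
        simp only [Sum.elim_inr, hR2] at this
        exact abs_le_of_sq_le_sq (by linarith) (by norm_num)
      · have h2 : ((2 * Real.sqrt B)⁻¹) ^ 2 * (4 * B) = 1 := by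
          rw [inv_pow, mul_pow, hBs]; field_simp; norm_num
        have := r3 ((2 * Real.sqrt B)⁻¹ • x) (fun α => by
          have := p3 x hx (Sum.inl α)
          simp only [Sum.elim_inl, mul_pow, hBs] at this
          rw [mulVec_smul, sq_smul]
          nlinarith [mul_le_mul_of_nonneg_left this (sq_nonneg (2 * Real.sqrt B)⁻¹)]) m hm
        rw [mulVec_smul, sq_smul] at this
        have h3 := mul_le_mul_of_nonneg_left this (show 0 ≤ 4 * B by positivity)
        rw [← mul_assoc, mul_comm (4 * B), h2] at h3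
        linarith
  obtain ⟨θ, hθ, hsg⟩ := hK N (fun k => Pi.single (e k) (1 : ℝ)) a K (by
      rintro x ⟨x1, x2⟩ y ⟨y1, y2⟩ b c hb hc hbc
      refine ⟨fun j => ?_, fun m hm => ?_⟩
      · have := x1 j; have := y1 j
        simp only [dotProduct_add, dotProduct_smul, smul_eq_mul, abs_le] at *
        constructor <;> nlinarith
      · rw [mulVec_add, mulVec_smul, mulVec_smul]
        refine (sq_convex _ _ hb hc hbc).trans ?_
        have := add_le_add (mul_le_mul_of_nonneg_left (x2 m hm) hb)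
          (mul_le_mul_of_nonneg_left (y2 m hm) hc)
        rwa [← add_mul, hbc, one_mul] at this)
    (fun x hx => ⟨fun j => by simpa using hx.1 j, fun m hm => by
      simpa [mulVec_neg, sq] using hx.2 m hm⟩) P p1 p2 p3 p4 p5 (fun k x hx => hx.1 k)
    fun k j h => by rw [ha, ZZ_col T w k j h]; simp
  set x := ∑ k, θ k • (Pi.single (e k) (1 : ℝ) : Fin (N + d) → ℝ) with hx
  have hxe : ∀ k, x (e k) = θ k := fun k => by
    simp [hx, Finset.sum_apply, Pi.single_apply, e]
  have hsg' : ∀ k, ∃ z : ℤ, (z = 1 ∨ z = -1) ∧ θ k + a k ⬝ᵥ x = z := fun k =>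
    (hsg k).elim (fun h => ⟨1, Or.inl rfl, by simpa using h⟩) fun h => ⟨-1, Or.inr rfl, by simpa using h⟩
  choose z z1 z2 using hsg'
  have key : ∀ m ≤ N, Z m *ᵥ x = s • ∑ j ∈ univ.filter (fun j : Fin N => (j : ℕ) < m), (z j : ℝ) • u j := by
    intro m hm
    induction m with
    | zero => simp [hx, mulVec_sum, mulVec_smul, hZ, e, ZZ_col T w 0 _ (Nat.zero_le _)]
    | succ m ih =>
      have e1 : univ.filter (fun j : Fin N => (j : ℕ) < m + 1) =
          insert ⟨m, hm⟩ (univ.filter (fun j : Fin N => (j : ℕ) < m)) := by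
        ext j; simp [Fin.ext_iff]; omega
      have := ZZ_succ_mulVec T w ⟨m, hm⟩ x
      simp only [← hZ] at this
      rw [this, e1, sum_insert (by simp), smul_add, ← ih (by omega), hT, ← z2, ha, hxe]
      simp only [w, smul_smul]
      have : s * (θ ⟨m, hm⟩ + -(η ⟨m, hm⟩ / s) * (u ⟨m, hm⟩ ⬝ᵥ Z m *ᵥ x)) =
          θ ⟨m, hm⟩ * s - η ⟨m, hm⟩ * (u ⟨m, hm⟩ ⬝ᵥ Z m *ᵥ x) := by field_simp; ring
      rw [this]; module
  refine ⟨z, z1, fun k hk => ?_⟩
  have h1 := hθ.2 k hk
  rw [key k hk, sq_smul, s2] at h1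
  rw [← Real.sqrt_mul (by positivity)]
  refine Real.le_sqrt_of_sq_le ?_
  rw [EuclideanSpace.real_norm_sq_eq, div_mul_eq_mul_div, le_div_iff₀ hq, mul_comm]
  refine le_trans (le_of_eq ?_) h1
  simp [sq, u, Finset.sum_apply]

end Crest.Agent.R239
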