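import Crest.Agent.R239.Defs

/-! Linear algebra lemmas for row 239. -/

set_option autoImplicit false

open Matrix Finset

namespace Crest.Agent.R239

section basic
variable {m n : Type*} [Fintype m] [Fintype n]

theorem sq_eq (x : m → ℝ) : sq x = x ⬝ᵥ x := by
  simp [sq, dotProduct, pow_two]

theorem sq_nonneg' (x : m → ℝ) : 0 ≤ sq x := Finset.sum_nonneg fun _ _ => sq_nonneg _

theorem fr_nonneg (M : Matrix m n ℝ) : 0 ≤ fr M :=
  Finset.sum_nonneg fun _ _ => Finset.sum_nonneg fun _ _ => sq_nonneg _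

theorem fr_eq_rows (M : Matrix m n ℝ) : fr M = ∑ i, sq (M i) := rfl

theorem fr_transpose (M : Matrix m n ℝ) : fr Mᵀ = fr M := by
  simp only [fr, transpose_apply]; exact Finset.sum_comm

theorem fr_eq_trace (M : Matrix m n ℝ) : fr M = trace (M * Mᵀ) := by
  simp [fr, trace, mul_apply, pow_two]

theorem dot_sq_le (x y : m → ℝ) : (x ⬝ᵥ y) ^ 2 ≤ sq x * sq y := by
  simpa [sq, dotProduct] using Finset.sum_mul_sq_le_sq_mul_sq Finset.univ x y

theorem two_dot_le (x y : m → ℝ) : 2 * (x ⬝ᵥ y) ≤ sq x + sq y := by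
  simp only [sq, dotProduct, Finset.mul_sum, ← Finset.sum_add_distrib]
  exact Finset.sum_le_sum fun i _ => by nlinarith [sq_nonneg (x i - y i)]

theorem sq_mulVec (M : Matrix m n ℝ) (x : n → ℝ) : sq (M *ᵥ x) = x ⬝ᵥ ((Mᵀ * M) *ᵥ x) := by
  rw [sq_eq, ← mulVec_mulVec, dotProduct_mulVec x, vecMul_transpose]

theorem sq_mulVec_le (M : Matrix m n ℝ) (x : n → ℝ) : sq (M *ᵥ x) ≤ fr M * sq x := by
  rw [fr_eq_rows, Finset.sum_mul]
  exact Finset.sum_le_sum fun i _ => dot_sq_le (M i) x

theorem dot_mulVec_comm (M : Matrix m n ℝ) (x : m → ℝ) (y : n → ℝ) :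
    x ⬝ᵥ (M *ᵥ y) = (Mᵀ *ᵥ x) ⬝ᵥ y := by
  rw [dotProduct_mulVec, mulVec_transpose]

end basic

section orth
variable {n : Type*} [Fintype n] [DecidableEq n]

theorem sq_orth {O : Matrix n n ℝ} (h : O * Oᵀ = 1) (x : n → ℝ) : sq (O *ᵥ x) = sq x := by
  rw [sq_mulVec, mul_eq_one_comm.mp h, one_mulVec, sq_eq]

theorem sq_orth' {O : Matrix n n ℝ} (h : O * Oᵀ = 1) (x : n → ℝ) : sq (Oᵀ *ᵥ x) = sq x := by
  rw [sq_mulVec, transpose_transpose, h, one_mulVec, sq_eq]

theorem fr_conj {O : Matrix n n ℝ} (h : O * Oᵀ = 1) (M : Matrix n n ℝ) :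
    fr (O * M * Oᵀ) = fr M := by
  have h' : Oᵀ * O = 1 := mul_eq_one_comm.mp h
  rw [fr_eq_trace, fr_eq_trace]
  have : O * M * Oᵀ * (O * M * Oᵀ)ᵀ = O * (M * Mᵀ) * Oᵀ := by
    simp only [transpose_mul, transpose_transpose, Matrix.mul_assoc]
    rw [← Matrix.mul_assoc Oᵀ O, h', Matrix.one_mul]
  rw [this, trace_mul_comm, ← Matrix.mul_assoc, h', Matrix.one_mul]

theorem orth_of_basis (b : OrthonormalBasis n ℝ (EuclideanSpace ℝ n)) :
    (Matrix.of fun i j => b i j) * (Matrix.of fun i j => b i j)ᵀ = 1 := by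
  ext i j
  have := orthonormal_iff_ite.mp b.orthonormal i j
  rw [PiLp.inner_apply] at this
  simp only [mul_apply, of_apply, transpose_apply, one_apply]
  rw [← this]
  exact Finset.sum_congr rfl fun k _ => by simp [mul_comm]

end orth

/-- Block QR factorisation with respect to a level function. -/
theorem exists_qr {d : ℕ} (T : Matrix (Fin d) (Fin d) ℝ) (lev : Fin d → ℕ) :
    ∃ O : Matrix (Fin d) (Fin d) ℝ, O * Oᵀ = 1 ∧ ∀ a b, lev b < lev a → (O * T) a b = 0 := by
  let s := Tuple.sort lev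
  have hs : Monotone (lev ∘ s) := Tuple.monotone_sort lev
  let f : Fin d → EuclideanSpace ℝ (Fin d) := fun i => WithLp.toLp 2 fun k => T k (s i)
  have hd : Module.finrank ℝ (EuclideanSpace ℝ (Fin d)) = Fintype.card (Fin d) := by simp
  let b := InnerProductSpace.gramSchmidtOrthonormalBasis hd f
  let b' := b.reindex s
  refine ⟨Matrix.of fun i j => b' i j, orth_of_basis b', fun a c hac => ?_⟩
  have hlt : s.symm c < s.symm a := by
    by_contra hge
    have := hs (not_lt.mp hge)
    simp only [Function.comp, Equiv.apply_symm_apply] at this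
    omega
  have := InnerProductSpace.gramSchmidtOrthonormalBasis_inv_triangular hd f hlt
  rw [PiLp.inner_apply] at this
  simp only [mul_apply, of_apply, b', OrthonormalBasis.reindex_apply]
  rw [← this]
  exact Finset.sum_congr rfl fun k _ => by simp [f, b, mul_comm]

/-- Diagonalise the principal block on `S`, leaving the other coordinates alone. -/
theorem exists_blockdiag {n : Type*} [Fintype n] [DecidableEq n] (G : Matrix n n ℝ)
    (hG : Gᵀ = G) (p : n → Prop) [DecidablePred p] :
    ∃ V : Matrix n n ℝ, V * Vᵀ = 1 ∧ (∀ a b, (¬ p a ∨ ¬ p b) → V a b = if a = b then 1 else 0) ∧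
      ∀ a b, p a → p b → a ≠ b → (V * G * Vᵀ) a b = 0 := by
  let G' : Matrix {a // p a} {a // p a} ℝ := G.submatrix Subtype.val Subtype.val
  have hG' : G'.IsHermitian := by
    ext i j
    simp only [G', conjTranspose_apply, submatrix_apply, star_trivial]
    exact congrFun (congrFun hG i) j
  let b := hG'.eigenvectorBasis
  let W : Matrix {a // p a} {a // p a} ℝ := Matrix.of fun i j => b i j
  have hW : W * Wᵀ = 1 := orth_of_basis b
  have hWG : ∀ i j, i ≠ j → (W * G' * Wᵀ) i j = 0 := by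
    intro i j hij
    have h1 : (W * G' * Wᵀ) i j = W i ⬝ᵥ (G' *ᵥ W j) := by
      rw [Matrix.mul_assoc]
      simp [mul_apply, dotProduct, mulVec]
    have h2 : G' *ᵥ W j = hG'.eigenvalues j • W j := hG'.mulVec_eigenvectorBasis j
    have h3 : W i ⬝ᵥ W j = 0 := by
      have := congrFun (congrFun hW i) j
      simpa [mul_apply, one_apply, hij, dotProduct] using this
    rw [h1, h2, dotProduct_smul, h3, smul_zero]
  let V : Matrix n n ℝ := fun a c =>
    if h : p a ∧ p c then W ⟨a, h.1⟩ ⟨c, h.2⟩ else if a = c then 1 else 0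
  have hVrow : ∀ (a : {a // p a}) (g : n → ℝ),
      ∑ c, V a c * g c = ∑ c : {a // p a}, W a c * g c := by
    intro a g
    rw [← Fintype.sum_subtype_add_sum_subtype p]
    have h1 : ∑ c : {a // ¬ p a}, V a c * g c = 0 := by
      refine Finset.sum_eq_zero fun c _ => ?_
      have hne : (a : n) ≠ c := fun h => c.2 (h ▸ a.2)
      simp [V, c.2, hne]
    rw [h1, add_zero]
    exact Finset.sum_congr rfl fun c _ => by simp [V, a.2, c.2]
  have hVout : ∀ a b, (¬ p a ∨ ¬ p b) → V a b = if a = b then 1 else 0 := by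
    intro a c h
    have : ¬ (p a ∧ p c) := by tauto
    simp only [V, dif_neg this]
  refine ⟨V, ?_, hVout, ?_⟩
  · ext a c
    simp only [mul_apply, transpose_apply]
    by_cases ha : p a
    · by_cases hc : p c
      · rw [hVrow ⟨a, ha⟩ (fun k => V c k)]
        have := congrFun (congrFun hW ⟨a, ha⟩) ⟨c, hc⟩
        simp only [mul_apply, transpose_apply, one_apply, Subtype.mk.injEq] at this
        rw [one_apply, ← this]
        exact Finset.sum_congr rfl fun k _ => by simp [V, hc, k.2]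
      · have hne : a ≠ c := fun h => hc (h ▸ ha)
        rw [one_apply_ne hne]
        refine Finset.sum_eq_zero fun k _ => ?_
        rw [hVout c k (Or.inl hc)]
        by_cases hck : c = k
        · subst hck
          rw [hVout a c (Or.inr hc)]; simp [hne]
        · simp [hck]
    · have : ∀ k, V a k = if a = k then 1 else 0 := fun k => hVout a k (Or.inl ha)
      simp only [this, ite_mul, one_mul, zero_mul, Finset.sum_ite_eq, Finset.mem_univ, if_true]
      rw [hVout c a (Or.inr ha), one_apply]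
      simp [eq_comm]
  · intro a c ha hc hne
    have hne' : (⟨a, ha⟩ : {a // p a}) ≠ ⟨c, hc⟩ := fun h => hne (congrArg Subtype.val h)
    rw [← hWG _ _ hne']
    simp only [mul_apply, transpose_apply]
    have e1 : ∑ j, (∑ k, V a k * G k j) * V c j = ∑ j, V c j * (∑ k, V a k * G k j) :=
      Finset.sum_congr rfl fun j _ => mul_comm _ _
    rw [e1, hVrow ⟨c, hc⟩ (fun j => ∑ k, V a k * G k j)]
    refine Finset.sum_congr rfl fun j _ => ?_
    rw [hVrow ⟨a, ha⟩ (fun k => G k j), mul_comm]
    simp [G']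

end Crest.Agent.R239
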