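import Crest.Agent.R239.Stmts
import Crest.Agent.R239.Lin

set_option autoImplicit false

open Matrix Finset

namespace Crest.Agent.R239

namespace Ce

lemma qq_half {x : ℝ} (hx : 0 ≤ x) : 7 * Real.sqrt (Real.sqrt (x / 2)) ≤ 6 * Real.sqrt (Real.sqrt x) := by
  have h1 : Real.sqrt (x / 2) ≤ (6 / 7) ^ 2 * Real.sqrt x := by
    rw [Real.sqrt_le_left (by positivity), mul_pow, Real.sq_sqrt hx]; nlinarith
  have h2 : Real.sqrt (Real.sqrt (x / 2)) ≤ 6 / 7 * Real.sqrt (Real.sqrt x) := by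
    rw [Real.sqrt_le_left (by positivity), mul_pow, Real.sq_sqrt (Real.sqrt_nonneg _)]; exact h1
  linarith

lemma chain (τ : ℕ → ℝ) (k : ℕ) : ∀ (S : Finset ℕ), S.card ≤ k → ∀ b0 ∈ S, ∀ Δ : ℝ,
    (∀ a ∈ S, τ b0 ≤ τ a ∧ τ a ≤ τ b0 + Δ) →
    ∃ E : Finset (ℕ × ℕ), (∀ p ∈ E, p.1 ∈ S ∧ p.2 ∈ S ∧ τ p.2 < τ p.1) ∧
      ∑ p ∈ E, (τ p.1 - τ p.2) ^ 2 ≤ 2 * Δ ^ 2 ∧
      ∀ (D : ℕ → ℕ → ℝ) (A : ℝ), 0 ≤ A → (∀ a b c, D a c ≤ D a b + D b c) →
        (∀ a ∈ S, ∀ b ∈ S, τ a = τ b → D a b ≤ 0) →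
        (∀ p ∈ E, D p.1 p.2 ≤ A * Real.sqrt (Real.sqrt (τ p.1 - τ p.2))) →
        ∀ a ∈ S, D a b0 ≤ 7 * A * Real.sqrt (Real.sqrt Δ) := by
  induction k with
  | zero => intro S hS b0 hb; rw [Nat.le_zero, card_eq_zero] at hS; simp [hS] at hb
  | succ k ih =>
    intro S hS b0 hb Δ h
    obtain ⟨c, hc, hmax⟩ := exists_max_image S τ ⟨b0, hb⟩
    set Δ' := τ c - τ b0 with hΔ'
    have d0 : 0 ≤ Δ' := sub_nonneg.2 (h c hc).1
    have d1 : Δ' ≤ Δ := by linarith [(h c hc).2]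
    rcases d0.eq_or_lt with e | e
    · refine ⟨∅, by simp, by simp; positivity, fun D A hA _ h0 _ a ha => ?_⟩
      exact (h0 a ha b0 hb (by linarith [(h a ha).1, hmax a ha])).trans (by positivity)
    let S1 := S.filter fun a => τ a ≤ τ b0 + Δ' / 2
    let S2 := S.filter fun a => ¬ τ a ≤ τ b0 + Δ' / 2
    have c2 : c ∈ S2 := mem_filter.2 ⟨hc, by linarith⟩
    have b1 : b0 ∈ S1 := mem_filter.2 ⟨hb, by linarith⟩
    have hcard : S1.card + S2.card = S.card := card_filter_add_card_filter_not _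
    have := card_pos.2 ⟨c, c2⟩
    have := card_pos.2 ⟨b0, b1⟩
    obtain ⟨b, hb2, hmin⟩ := exists_min_image S2 τ ⟨c, c2⟩
    have hb3 := mem_filter.1 hb2
    obtain ⟨E1, e1, e2, e3⟩ := ih S1 (by omega) b0 b1 (Δ' / 2) fun a ha =>
      ⟨(h a (mem_filter.1 ha).1).1, (mem_filter.1 ha).2⟩
    obtain ⟨E2, f1, f2, f3⟩ := ih S2 (by omega) b hb2 (Δ' / 2) fun a ha =>
      ⟨hmin a ha, by linarith [hmax a (mem_filter.1 ha).1, hb3.2]⟩
    have g1 : τ b - τ b0 ≤ Δ' := by linarith [hmax b hb3.1]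
    have g2 : 0 < τ b - τ b0 := by linarith [hb3.2]
    refine ⟨insert (b, b0) (E1 ∪ E2), fun p hp => ?_, ?_, fun D A hA tri h0 hE a ha => ?_⟩
    · rcases mem_insert.1 hp with rfl | hp
      · exact ⟨hb3.1, hb, by linarith⟩
      · rcases mem_union.1 hp with hp | hp
        · exact ⟨(mem_filter.1 (e1 p hp).1).1, (mem_filter.1 (e1 p hp).2.1).1, (e1 p hp).2.2⟩
        · exact ⟨(mem_filter.1 (f1 p hp).1).1, (mem_filter.1 (f1 p hp).2.1).1, (f1 p hp).2.2⟩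
    · have u1 := sum_union_inter (s₁ := E1) (s₂ := E2) (f := fun p => (τ p.1 - τ p.2) ^ 2)
      have u2 : 0 ≤ ∑ p ∈ E1 ∩ E2, (τ p.1 - τ p.2) ^ 2 := sum_nonneg fun _ _ => sq_nonneg _
      have u3 : ∑ p ∈ insert (b, b0) (E1 ∪ E2), (τ p.1 - τ p.2) ^ 2 ≤
          (τ b - τ b0) ^ 2 + ∑ p ∈ E1 ∪ E2, (τ p.1 - τ p.2) ^ 2 := by
        by_cases hm : (b, b0) ∈ E1 ∪ E2
        · rw [insert_eq_of_mem hm]; linarith [sq_nonneg (τ b - τ b0)]
        · rw [sum_insert hm]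
      have u4 : (τ b - τ b0) ^ 2 ≤ Δ' ^ 2 := by gcongr
      have u5 : Δ' ^ 2 ≤ Δ ^ 2 := by gcongr
      linarith
    · have k1 := qq_half d0
      have k2 : Real.sqrt (Real.sqrt Δ') ≤ Real.sqrt (Real.sqrt Δ) := by gcongr
      have k3 : 0 ≤ Real.sqrt (Real.sqrt Δ') := Real.sqrt_nonneg _
      by_cases hl : τ a ≤ τ b0 + Δ' / 2
      · have := e3 D A hA tri (fun x hx y hy => h0 x (mem_filter.1 hx).1 y (mem_filter.1 hy).1)
          (fun p hp => hE p (mem_insert_of_mem (mem_union_left _ hp))) a (mem_filter.2 ⟨ha, hl⟩)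
        nlinarith
      · have := f3 D A hA tri (fun x hx y hy => h0 x (mem_filter.1 hx).1 y (mem_filter.1 hy).1)
          (fun p hp => hE p (mem_insert_of_mem (mem_union_right _ hp))) a (mem_filter.2 ⟨ha, hl⟩)
        have k4 := hE (b, b0) (mem_insert_self _ _)
        have k5 : Real.sqrt (Real.sqrt (τ b - τ b0)) ≤ Real.sqrt (Real.sqrt Δ') := by gcongr
        have := tri a b b0
        nlinarith

lemma nr_add_le {m : Type} [Fintype m] (x y : m → ℝ) :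
    Real.sqrt (sq (x + y)) ≤ Real.sqrt (sq x) + Real.sqrt (sq y) := by
  have h1 : x ⬝ᵥ y ≤ Real.sqrt (sq x) * Real.sqrt (sq y) := by
    rw [← Real.sqrt_mul (sq_nonneg' x)]; exact Real.le_sqrt_of_sq_le (dot_sq_le x y)
  rw [Real.sqrt_le_left (by positivity), add_sq, Real.sq_sqrt (sq_nonneg' x),
    Real.sq_sqrt (sq_nonneg' y)]
  simp only [sq_eq, add_dotProduct, dotProduct_add, dotProduct_comm y x] at h1 ⊢
  linarith

variable {d n : ℕ}

/-- keep the rows in `R` -/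
def rs (R : Finset (Fin d)) (M : Matrix (Fin d) (Fin n) ℝ) : Matrix (Fin d) (Fin n) ℝ :=
  of fun r c => if r ∈ R then M r c else 0

lemma fr_rs (R : Finset (Fin d)) (M : Matrix (Fin d) (Fin n) ℝ) : fr (rs R M) = ∑ r ∈ R, sq (M r) := by
  simp only [fr, rs, of_apply, sq]
  rw [← sum_subset (subset_univ R) fun r _ h => by simp [h]]
  exact sum_congr rfl fun r h => by simp [h]

lemma sq_rs (R : Finset (Fin d)) (M : Matrix (Fin d) (Fin n) ℝ) (θ : Fin n → ℝ) :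
    sq (rs R M *ᵥ θ) = ∑ r ∈ R, (M *ᵥ θ) r ^ 2 := by
  simp only [sq]
  rw [← sum_subset (subset_univ R) fun r _ h => by simp [h, rs, mulVec, dotProduct]]
  exact sum_congr rfl fun r h => by simp [h, rs, mulVec, dotProduct]

lemma tr_rs {N' : ℕ} (R : Finset (Fin d)) (M : Matrix (Fin d) (Fin n) ℝ) (σ : Fin N' → ℝ)
    (e : Fin N' → Fin n) :
    ∑ k, σ k * ∑ i, rs R M i (e k) ^ 2 = ∑ r ∈ R, ∑ k, σ k * M r (e k) ^ 2 := by
  simp only [mul_sum]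
  rw [sum_comm, ← sum_subset (subset_univ R) fun r _ h => by simp [h, rs]]
  exact sum_congr rfl fun r h => by simp [h, rs]

lemma rs_add (R : Finset (Fin d)) (M M' : Matrix (Fin d) (Fin n) ℝ) :
    rs R (M + M') = rs R M + rs R M' := by
  ext r c; by_cases h : r ∈ R <;> simp [rs, h]

lemma geo (c L : ℕ) : ∑ i ∈ Icc c L, (1 / 2 : ℝ) ^ i ≤ 2 * (1 / 2) ^ c := by
  have := geom_sum_Ico_le_of_lt_one (x := (1 / 2 : ℝ)) (m := c) (n := L + 1) (by norm_num) (by norm_num)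
  rw [← Ico_add_one_right_eq_Icc]
  refine this.trans (le_of_eq ?_)
  ring

end Ce

open Ce

theorem cert : CertStmt := by
  classical
  refine ⟨128, by norm_num, ?_⟩
  intro d n N N' Lv e σ Y lev casc B σ0 c0 hL h1 h2 h3 h4 h5 h6
  let S : ℕ → ℕ → Finset ℕ := fun a i =>
    (Icc a N).filter fun m => ∀ t, a < t → t ≤ m → i < casc t
  let R : ℕ → ℕ → Finset (Fin d) := fun a i => univ.filter fun r => lev a r = i
  let τ : ℕ → ℕ → ℕ → ℝ := fun a i m => ∑ r ∈ R a i, (1 - sq (Y m r))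
  have hS : ∀ {a i m}, m ∈ S a i ↔ (a ≤ m ∧ m ≤ N) ∧ ∀ t, a < t → t ≤ m → i < casc t := by
    simp [S]
  have hR : ∀ {a i m}, m ∈ S a i → R m i = R a i := by
    intro a i m hm
    obtain ⟨⟨g1, g2⟩, g3⟩ := hS.1 hm
    clear hm
    induction m, g1 using Nat.le_induction with
    | base => rfl
    | succ m g1 ih =>
      rw [← ih (fun t a b => g3 t a (Nat.le_succ_of_le b)) (Nat.le_of_succ_le g2)]
      exact filter_congr fun r _ => h1 m (by omega) r i (g3 _ (by omega) le_rfl)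
  have hfr : ∀ {a i m m'}, m ∈ S a i → m' ∈ S a i → m' ≤ m →
      fr (rs (R a i) (Y m - Y m')) = τ a i m - τ a i m' := by
    intro a i m m' hm hm' h
    rw [fr_rs, ← sum_sub_distrib]
    refine sum_congr rfl fun r hr => ?_
    rw [← hR hm'] at hr
    have := h2 m' m h (hS.1 hm).1.2 r fun t t1 t2 => by
      rw [(mem_filter.1 hr).2]; exact (hS.1 hm).2 t (by have := (hS.1 hm').1.1; omega) t2
    change sq (Y m r - Y m' r) = _
    linarith
  have hfr' : ∀ {a i m m'}, m ∈ S a i → m' ∈ S a i → τ a i m' ≤ τ a i m →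
      fr (rs (R a i) (Y m - Y m')) = τ a i m - τ a i m' := by
    intro a i m m' hm hm' h
    rcases le_total m' m with g | g
    · exact hfr hm hm' g
    · have e1 := hfr hm' hm g
      have e2 : fr (rs (R a i) (Y m - Y m')) = fr (rs (R a i) (Y m' - Y m)) := by
        simp only [fr_rs, sq, Matrix.sub_apply]
        exact sum_congr rfl fun _ _ => sum_congr rfl fun _ _ => by ring
      linarith [fr_nonneg (rs (R a i) (Y m' - Y m))]
  have hτ : ∀ {a i m}, m ∈ S a i → 0 ≤ τ a i m ∧ τ a i m ≤ 1 / 2 := fun {a i m} hm =>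
    ⟨sum_nonneg fun r _ => sub_nonneg.2 (h3 m (hS.1 hm).1.2 r), by
      simp only [τ, ← hR hm]; exact h4 m (hS.1 hm).1.2 i⟩
  have htr : ∀ {a i m}, m ∈ S a i → ∀ r ∈ R a i, ∑ k, σ k * Y m r (e k) ^ 2 ≤ 2 * (1 / 2) ^ i := by
    intro a i m hm r hr
    rw [← hR hm] at hr
    rw [← (mem_filter.1 hr).2]; exact h5 m (hS.1 hm).1.2 r
  have haS : ∀ {a} i, a ≤ N → a ∈ S a i := fun i h => hS.2 ⟨⟨le_rfl, h⟩, fun t a b => by omega⟩
  have hch : ∀ a i, ∃ E : Finset (ℕ × ℕ), a ≤ N → _ := fun a i => by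
    by_cases h : a ≤ N
    · obtain ⟨E, hE⟩ := chain (τ a i) _ (S a i) le_rfl a (haS i h) (1 / 2) fun m hm =>
        ⟨by linarith [hfr hm (haS i h) (hS.1 hm).1.1, fr_nonneg (rs (R a i) (Y m - Y a))],
          by linarith [(hτ hm).2, (hτ (haS i h)).1]⟩
      exact ⟨E, fun _ => hE⟩
    · exact ⟨∅, fun g => absurd g h⟩
  choose E hE using hch
  let I : Finset (Σ _ : ℕ, ℕ) := (range (N + 1)).sigma fun a => Icc (casc a) Lv
  have hI : ∀ p ∈ I, p.1 ≤ N := fun p hp => Nat.lt_succ_iff.1 (mem_range.1 (mem_sigma.1 hp).1)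
  let J : Finset (Σ _ : (Σ _ : ℕ, ℕ), ℕ × ℕ) := I.sigma fun p => E p.1 p.2
  let ν : ℕ → ℕ → ℝ := fun a i => (R a i).card + 1
  have ν1 : ∀ a i, 1 ≤ ν a i := fun a i => by simp [ν]
  have hJ : ∀ q ∈ J, q.2.1 ∈ S q.1.1 q.1.2 ∧ q.2.2 ∈ S q.1.1 q.1.2 ∧
      τ q.1.1 q.1.2 q.2.2 < τ q.1.1 q.1.2 q.2.1 := fun q hq =>
    (hE _ _ (hI _ (mem_sigma.1 hq).1)).1 _ (mem_sigma.1 hq).2
  let M1 : (Σ _ : ℕ, ℕ) → Matrix (Fin d) (Fin n) ℝ := fun p => rs (R p.1 p.2) (Y p.1)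
  let M2 : (Σ _ : (Σ _ : ℕ, ℕ), ℕ × ℕ) → Matrix (Fin d) (Fin n) ℝ := fun q =>
    rs (R q.1.1 q.1.2) (Y q.2.1 - Y q.2.2)
  let ρ1 : (Σ _ : ℕ, ℕ) → ℝ := fun p => ν p.1 p.2
  let ρ2 : (Σ _ : (Σ _ : ℕ, ℕ), ℕ × ℕ) → ℝ := fun q =>
    ν q.1.1 q.1.2 * Real.sqrt (τ q.1.1 q.1.2 q.2.1 - τ q.1.1 q.1.2 q.2.2)
  have p1 : ∀ p, 0 < ρ1 p := fun p => lt_of_lt_of_le one_pos (ν1 _ _)
  have p2 : ∀ q ∈ J, 0 < ρ2 q := fun q hq =>
    mul_pos (p1 q.1) (Real.sqrt_pos.2 (sub_pos.2 (hJ q hq).2.2))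
  have f1 : ∀ p ∈ I, fr (M1 p) ≤ ρ1 p := fun p hp => by
    simp only [M1, fr_rs, ρ1, ν]
    have := sum_le_card_nsmul (R p.1 p.2) (fun r => sq (Y p.1 r)) 1 fun r _ => h3 _ (hI p hp) r
    simp at this; linarith
  have f2 : ∀ q ∈ J, fr (M2 q) / ρ2 q ≤ Real.sqrt (τ q.1.1 q.1.2 q.2.1 - τ q.1.1 q.1.2 q.2.2) :=
    fun q hq => by
      obtain ⟨g1, g2, g3⟩ := hJ q hq
      rw [div_le_iff₀ (p2 q hq)]
      simp only [M2, ρ2, hfr' g1 g2 g3.le]
      have := Real.mul_self_sqrt (sub_nonneg.2 g3.le)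
      nlinarith [ν1 q.1.1 q.1.2]
  have f3 : ∀ q ∈ J, Real.sqrt (τ q.1.1 q.1.2 q.2.1 - τ q.1.1 q.1.2 q.2.2) ≤ 1 := fun q hq => by
    obtain ⟨g1, g2, g3⟩ := hJ q hq
    exact Real.sqrt_le_one.2 (by linarith [(hτ g1).2, (hτ g2).1])
  refine ⟨I ⊕ J, inferInstance, Sum.elim (fun p => M1 p) (fun q => M2 q),
    Sum.elim (fun p => Real.sqrt (ρ1 p)) (fun q => Real.sqrt (ρ2 q)), ?_, ?_, ?_, ?_⟩
  · rintro (p | q)
    · exact Real.sqrt_pos.2 (p1 p)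
    · exact Real.sqrt_pos.2 (p2 q q.2)
  · rintro (p | q)
    · simp only [Sum.elim_inl, Real.sq_sqrt (p1 p).le]; exact f1 p p.2
    · simp only [Sum.elim_inr, Real.sq_sqrt (p2 q q.2).le]
      exact (div_le_one (p2 q q.2)).1 ((f2 q q.2).trans (f3 q q.2))
  · rw [Fintype.sum_sum_type]
    simp only [Sum.elim_inl, Sum.elim_inr]
    have c1 : ∀ p : I, (∑ k, σ k * ∑ i, M1 p i (e k) ^ 2) / Real.sqrt (ρ1 p) ^ 2 *
        (fr (M1 p) / Real.sqrt (ρ1 p) ^ 2) ^ 5 ≤ 2 * (1 / 2) ^ p.1.2 := fun p => by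
      have := p1 p
      have := fr_nonneg (M1 p)
      rw [Real.sq_sqrt (p1 p).le, ← mul_one (2 * _)]
      refine mul_le_mul ?_ (pow_le_one₀ (by positivity) ((div_le_one (p1 p)).2 (f1 p p.2)))
        (by positivity) (by positivity)
      rw [div_le_iff₀ (p1 p), tr_rs]
      have := sum_le_card_nsmul _ _ _ (htr (haS p.1.2 (hI p p.2)))
      simp only [nsmul_eq_mul, ρ1, ν] at this ⊢
      have : (0 : ℝ) ≤ 2 * (1 / 2) ^ p.1.2 := by positivity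
      nlinarith
    have c2 : ∀ q : J, (∑ k, σ k * ∑ i, M2 q i (e k) ^ 2) / Real.sqrt (ρ2 q) ^ 2 *
        (fr (M2 q) / Real.sqrt (ρ2 q) ^ 2) ^ 5 ≤
        8 * (1 / 2) ^ q.1.1.2 * (τ q.1.1.1 q.1.1.2 q.1.2.1 - τ q.1.1.1 q.1.1.2 q.1.2.2) ^ 2 := by
      rintro ⟨q, hq⟩
      obtain ⟨g1, g2, g3⟩ := hJ q hq
      have := p2 q hq
      have := fr_nonneg (M2 q)
      have hs := Real.sqrt_pos.2 (sub_pos.2 g3)
      have hs2 := Real.sq_sqrt (sub_nonneg.2 g3.le)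
      simp only [Real.sq_sqrt (p2 q hq).le]
      rw [← hs2]
      set s := Real.sqrt (τ q.1.1 q.1.2 q.2.1 - τ q.1.1 q.1.2 q.2.2) with hsd
      rw [show 8 * (1 / 2 : ℝ) ^ q.1.2 * (s ^ 2) ^ 2 = 8 * (1 / 2) ^ q.1.2 / s * s ^ 5 by field_simp]
      refine mul_le_mul ?_ (pow_le_pow_left₀ (by positivity) (f2 q hq) 5) (by positivity)
        (by positivity)
      rw [div_le_iff₀ (p2 q hq), tr_rs]
      have k1 := sum_le_card_nsmul (R q.1.1 q.1.2)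
        (fun r => ∑ k, σ k * (Y q.2.1 - Y q.2.2) r (e k) ^ 2) (8 * (1 / 2) ^ q.1.2) fun r hr => by
          have a1 := htr g1 r hr
          have a2 := htr g2 r hr
          have a3 : ∑ k, σ k * (Y q.2.1 - Y q.2.2) r (e k) ^ 2 ≤
              ∑ k, (2 * (σ k * Y q.2.1 r (e k) ^ 2) + 2 * (σ k * Y q.2.2 r (e k) ^ 2)) :=
            sum_le_sum fun k _ => by
              rw [Matrix.sub_apply]
              nlinarith [mul_nonneg (σ0 k) (sq_nonneg (Y q.2.1 r (e k) + Y q.2.2 r (e k)))]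
          rw [sum_add_distrib, ← mul_sum, ← mul_sum] at a3
          linarith
      have k2 : 8 * (1 / 2 : ℝ) ^ q.1.2 / s * ρ2 q = ν q.1.1 q.1.2 * (8 * (1 / 2) ^ q.1.2) := by
        simp only [ρ2, ← hsd]; field_simp
      rw [k2]
      simp only [nsmul_eq_mul, ν] at k1 ⊢
      have : (0 : ℝ) ≤ 8 * (1 / 2) ^ q.1.2 := by positivity
      nlinarith
    refine (add_le_add (sum_le_sum fun p _ => c1 p) (sum_le_sum fun q _ => c2 q)).trans ?_
    rw [sum_coe_sort I (fun p => 2 * (1 / 2 : ℝ) ^ p.2), sum_coe_sort J (fun q =>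
      8 * (1 / 2 : ℝ) ^ q.1.2 * (τ q.1.1 q.1.2 q.2.1 - τ q.1.1 q.1.2 q.2.2) ^ 2), sum_sigma I,
      ← sum_add_distrib]
    have c3 : ∀ p ∈ I, 2 * (1 / 2 : ℝ) ^ p.2 + ∑ s ∈ E p.1 p.2, 8 * (1 / 2 : ℝ) ^ p.2 *
        (τ p.1 p.2 s.1 - τ p.1 p.2 s.2) ^ 2 ≤ 6 * (1 / 2) ^ p.2 := fun p hp => by
      have := mul_le_mul_of_nonneg_left (hE _ p.2 (hI p hp)).2.1
        (show (0 : ℝ) ≤ 8 * (1 / 2) ^ p.2 by positivity)
      rw [← mul_sum]; linarith
    refine (sum_le_sum c3).trans ?_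
    rw [← mul_sum, sum_sigma]
    have c4 := (sum_le_sum fun a (_ : a ∈ range (N + 1)) => geo (casc a) Lv)
    rw [← mul_sum] at c4
    have : 0 ≤ B := le_trans (sum_nonneg fun _ _ => by positivity) h6
    linarith
  · intro θ hθ m hm
    have key : ∀ i ∈ range (Lv + 1), ∑ r ∈ R m i, (Y m *ᵥ θ) r ^ 2 ≤ 128 * ((R m i).card : ℝ) := by
      intro i hi
      rcases (R m i).eq_empty_or_nonempty with h | h
      · simp [h]
      have hc : (1 : ℝ) ≤ (R m i).card := by exact_mod_cast card_pos.2 h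
      set a := Nat.findGreatest (fun t => casc t ≤ i) m with ha
      have a1 : a ≤ m := Nat.findGreatest_le m
      have a2 : casc a ≤ i := Nat.findGreatest_spec (P := fun t => casc t ≤ i) (Nat.zero_le m) (by omega)
      have a3 : m ∈ S a i := hS.2 ⟨⟨a1, hm⟩, fun t t1 t2 =>
        not_le.1 (Nat.findGreatest_is_greatest (P := fun t => casc t ≤ i) t1 t2)⟩
      have a4 : (⟨a, i⟩ : Σ _ : ℕ, ℕ) ∈ I := mem_sigma.2 ⟨mem_range.2 (by simp; omega),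
        mem_Icc.2 ⟨a2, Nat.lt_succ_iff.1 (mem_range.1 hi)⟩⟩
      have b1 := hθ (Sum.inl ⟨_, a4⟩)
      simp only [Sum.elim_inl, M1, ρ1] at b1
      have b2 := (hE a i (by omega)).2.2 (fun x y => Real.sqrt (sq (rs (R a i) (Y x - Y y) *ᵥ θ)))
        (Real.sqrt (ν a i)) (Real.sqrt_nonneg _) (fun x y z => by
          rw [← sub_add_sub_cancel (Y x) (Y y) (Y z), rs_add, add_mulVec]; exact nr_add_le _ _)
        (fun x hx y hy h => by
          have := sq_mulVec_le (rs (R a i) (Y x - Y y)) θ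
          rw [hfr' hx hy h.ge, h, sub_self, zero_mul] at this
          exact (Real.sqrt_eq_zero'.2 this).le)
        (fun p hp => by
          have hq : (⟨⟨a, i⟩, p⟩ : Σ _ : (Σ _ : ℕ, ℕ), ℕ × ℕ) ∈ J := mem_sigma.2 ⟨a4, hp⟩
          have := hθ (Sum.inr ⟨_, hq⟩)
          rw [← Real.sqrt_mul (by linarith [ν1 a i])]
          exact Real.sqrt_le_iff.2 ⟨Real.sqrt_nonneg _, this⟩) m a3
      have b3 : Real.sqrt (Real.sqrt (1 / 2)) ≤ 1 := by
        rw [Real.sqrt_le_one, Real.sqrt_le_one]; norm_num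
      have b4 := nr_add_le (rs (R a i) (Y m - Y a) *ᵥ θ) (rs (R a i) (Y a) *ᵥ θ)
      rw [← add_mulVec, ← rs_add, sub_add_cancel] at b4
      have b5 := Real.sqrt_le_iff.2 ⟨Real.sqrt_nonneg _, b1⟩
      have b6 : Real.sqrt (sq (rs (R a i) (Y m) *ᵥ θ)) ≤ 8 * Real.sqrt (ν a i) := by
        nlinarith [Real.sqrt_nonneg (ν a i)]
      rw [Real.sqrt_le_left (by positivity), mul_pow, Real.sq_sqrt (by linarith [ν1 a i]), sq_rs] at b6
      simp only [ν, ← hR a3] at b6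
      linarith
    have k2 := sum_le_sum key
    rw [sum_fiberwise_of_maps_to (g := lev m) (fun r _ => mem_range.2 (Nat.lt_succ_of_le (hL m hm r))),
      ← mul_sum, ← Nat.cast_sum, ← card_eq_sum_card_fiberwise (f := lev m)
        (fun r _ => mem_coe.2 (mem_range.2 (Nat.lt_succ_of_le (hL m hm r))))] at k2
    simpa [sq] using k2

end Crest.Agent.R239
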