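import Mathlib

/-! Basic definitions for row 239 (prefix discrepancy `O(√d)`). -/

set_option autoImplicit false

open MeasureTheory
open scoped ENNReal

namespace Crest.Agent.R239

/-- Overlap of the two translates `P (· + u)` and `P (· - u)`. -/
noncomputable def ovl {n : ℕ} (P : (Fin n → ℝ) → ℝ≥0∞) (u : Fin n → ℝ) : ℝ≥0∞ :=
  ∫⁻ x, min (P (x + u)) (P (x - u))

/-- Squared Frobenius norm. -/
def fr {m n : Type*} [Fintype m] [Fintype n] (M : Matrix m n ℝ) : ℝ := ∑ i, ∑ j, M i j ^ 2

/-- Squared Euclidean norm of a vector. -/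
def sq {m : Type*} [Fintype m] (x : m → ℝ) : ℝ := ∑ i, x i ^ 2

end Crest.Agent.R239
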