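import Crest.Agent.R239.DensA

/-! A symmetric density supported in the intersection of the bodies with large overlaps. -/

set_option autoImplicit false

open MeasureTheory Matrix
open scoped ENNReal

namespace Crest.Agent.R239

namespace Dn

variable {n d : ℕ} {A : Type}

/-- product of squared cut-offs -/
noncomputable def HP (s : Finset A) (M : A → Matrix (Fin d) (Fin n) ℝ) (x : Fin n → ℝ) : ℝ :=
  ∏ a ∈ s, hh (YY (M a) x) ^ 2

lemma wt_HP (s : Finset A) (M : A → Matrix (Fin d) (Fin n) ℝ) : Wt (HP s M) where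
  cont := continuous_finsetProd _ fun a _ => (continuous_hh.comp (continuous_YY (M a))).pow 2
  nonneg x := Finset.prod_nonneg fun _ _ => sq_nonneg _
  le_one x := Finset.prod_le_one (fun _ _ => sq_nonneg _) fun _ _ =>
    pow_le_one₀ (hh_nonneg _) (hh_le_one _)
  even x := by simp [HP, YY_neg, hh_neg]
  mid a b := by
    unfold HP
    rw [← Finset.prod_mul_distrib, ← Finset.prod_pow]
    refine Finset.prod_le_prod (fun _ _ => by positivity) fun c _ => ?_
    rw [← mul_pow, YY_smul, YY_add]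
    exact pow_le_pow_left₀ (mul_nonneg (hh_nonneg _) (hh_nonneg _)) (hh_mid _ _) 2

lemma fr_nonneg (M : Matrix (Fin d) (Fin n) ℝ) : 0 ≤ fr M :=
  Finset.sum_nonneg fun _ _ => Finset.sum_nonneg fun _ _ => sq_nonneg _

variable [Fintype A]

/-- the square root of the unnormalised density -/
noncomputable def ph (M : A → Matrix (Fin d) (Fin n) ℝ) (x : Fin n → ℝ) : ℝ :=
  Real.exp (-sq x / 65536) * ∏ a, hh (YY (M a) x)

lemma ph_nonneg (M : A → Matrix (Fin d) (Fin n) ℝ) (x : Fin n → ℝ) : 0 ≤ ph M x :=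
  mul_nonneg (Real.exp_pos _).le (Finset.prod_nonneg fun _ _ => hh_nonneg _)

lemma ph_sq (M : A → Matrix (Fin d) (Fin n) ℝ) (x : Fin n → ℝ) :
    ph M x ^ 2 = GG x * HP Finset.univ M x := by
  rw [ph, mul_pow, ← Finset.prod_pow, ← Real.exp_nat_mul, GG, HP]
  congr 2
  push_cast; ring

lemma continuous_ph (M : A → Matrix (Fin d) (Fin n) ℝ) : Continuous (ph M) := by
  refine Continuous.mul ?_
    (continuous_finsetProd _ fun a _ => continuous_hh.comp (continuous_YY (M a)))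
  unfold sq; fun_prop

lemma integrable_ph_sq (M : A → Matrix (Fin d) (Fin n) ℝ) : Integrable fun x => ph M x ^ 2 := by
  simp_rw [ph_sq]; exact (wt_HP _ M).integrable0

lemma ph_shift (M : A → Matrix (Fin d) (Fin n) ℝ) (x v : Fin n → ℝ) :
    ph M (x + v) * ph M (x - v) = GG x * Real.exp (-sq v / 32768) *
      ∏ a, (hh (YY (M a) x + YY (M a) v) * hh (YY (M a) x - YY (M a) v)) := by
  have h1 : sq (x + v) + sq (x - v) = 2 * sq x + 2 * sq v := by
    unfold sq
    rw [Finset.mul_sum, Finset.mul_sum, ← Finset.sum_add_distrib, ← Finset.sum_add_distrib]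
    refine Finset.sum_congr rfl fun i _ => ?_
    simp only [Pi.sub_apply, Pi.add_apply]; ring
  unfold ph GG
  rw [mul_mul_mul_comm, ← Finset.prod_mul_distrib, ← Real.exp_add, ← Real.exp_add]
  simp only [YY_add, YY_sub]
  congr 2
  linarith

lemma Z_pos (M : A → Matrix (Fin d) (Fin n) ℝ) : 0 < ∫ x, ph M x ^ 2 := by
  refine integral_pos_of_integrable_nonneg_nonzero (x := 0) ((continuous_ph M).pow 2)
    (integrable_ph_sq M) (fun x => sq_nonneg _) ?_
  have : ∀ a, hh (YY (M a) 0) = 1 := fun a => hh_of_le (by simp [YY])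
  simp [ph, this]

lemma erase_le [DecidableEq A] (M : A → Matrix (Fin d) (Fin n) ℝ) (a : A)
    (hM : fr (M a) ≤ 1 / 524288) :
    ∫ x, GG x * HP (Finset.univ.erase a) M x ≤ 2 * ∫ x, ph M x ^ 2 := by
  have hW := wt_HP (Finset.univ.erase a) M
  obtain ⟨h1, h2⟩ := moment_bound hW (M a)
  have h3 : ∫ x, (GG x * HP (Finset.univ.erase a) M x -
      ‖YY (M a) x‖ ^ 10 * (GG x * HP (Finset.univ.erase a) M x)) ≤ ∫ x, ph M x ^ 2 := by
    refine integral_mono (hW.integrable0.sub h1) (integrable_ph_sq M) fun x => ?_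
    have h4 : HP Finset.univ M x = hh (YY (M a) x) ^ 2 * HP (Finset.univ.erase a) M x :=
      (Finset.mul_prod_erase _ (fun a => hh (YY (M a) x) ^ 2) (Finset.mem_univ a)).symm
    simp only [ph_sq, h4]
    have h5 := mul_le_mul_of_nonneg_right (hh_sq_ge (YY (M a) x))
      (mul_nonneg (GG_pos x).le (hW.nonneg x))
    linarith
  rw [integral_sub hW.integrable0 h1] at h3
  have h6 : 0 ≤ ∫ x, GG x * HP (Finset.univ.erase a) M x :=
    integral_nonneg fun x => mul_nonneg (GG_pos x).le (hW.nonneg x)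
  have h7 : 14515200 * (16384 * fr (M a)) ^ 5 ≤ 1 / 2 := by
    have h8 : (16384 * fr (M a)) ^ 5 ≤ (1 / 32) ^ 5 :=
      pow_le_pow_left₀ (mul_nonneg (by norm_num) (fr_nonneg _)) (by linarith) 5
    linarith
  nlinarith

lemma integrable_aff (M : A → Matrix (Fin d) (Fin n) ℝ) (v : Fin n → ℝ) :
    Integrable fun x => ph M (x + v) * ph M (x - v) := by
  refine (((integrable_ph_sq M).comp_add_right v).add
    ((integrable_ph_sq M).comp_sub_right v)).mono'
    (((continuous_ph M).comp (by fun_prop)).mul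
      ((continuous_ph M).comp (by fun_prop))).aestronglyMeasurable (ae_of_all _ fun x => ?_)
  rw [Real.norm_eq_abs, abs_of_nonneg (mul_nonneg (ph_nonneg _ _) (ph_nonneg _ _))]
  simp only [Pi.add_apply]
  nlinarith [sq_nonneg (ph M (x + v) - ph M (x - v)), sq_nonneg (ph M (x + v)),
    sq_nonneg (ph M (x - v))]

/-- the constant -/
noncomputable def CC : ℝ := 6 * 1024 * 16 * 14515200 * 16384 ^ 5 * 2

lemma aff_ge (M : A → Matrix (Fin d) (Fin n) ℝ) (hM : ∀ a, fr (M a) ≤ 1 / 524288) (j : Fin n) :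
    (∫ x, ph M x ^ 2) - ∫ x, ph M (x + (4 : ℝ) • Pi.single j 1) * ph M (x - (4 : ℝ) • Pi.single j 1)
      ≤ (1 / 2048 + CC * ∑ a, (∑ i, M a i j ^ 2) * fr (M a) ^ 5) * ∫ x, ph M x ^ 2 := by
  classical
  set v : Fin n → ℝ := (4 : ℝ) • Pi.single j 1 with hv
  have hsv : sq v = 16 := by
    unfold sq
    rw [Finset.sum_eq_single j]
    · simp [hv]; norm_num
    · intro i _ hi; simp [hv, hi]
    · simp
  have hYv : ∀ a, ‖YY (M a) v‖ ^ 2 = 16 * ∑ i, M a i j ^ 2 := by
    intro a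
    rw [norm_YY_sq, hv, mulVec_smul, mulVec_single_one, sq, Finset.mul_sum]
    refine Finset.sum_congr rfl fun i _ => ?_
    simp; ring
  have hYv' : ∀ a, ‖YY (M a) v‖ ≤ 1 / 2 := by
    intro a
    have h1 : ∑ i, M a i j ^ 2 ≤ fr (M a) := Finset.sum_le_sum fun i _ =>
      Finset.single_le_sum (f := fun j => M a i j ^ 2) (fun _ _ => sq_nonneg _) (Finset.mem_univ j)
    have h2 : ‖YY (M a) v‖ ^ 2 ≤ (1 / 2) ^ 2 := by rw [hYv]; linarith [hM a]
    exact (pow_le_pow_iff_left₀ (norm_nonneg _) (by norm_num) two_ne_zero).mp h2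
  have hmb := fun a => moment_bound (wt_HP (Finset.univ.erase a) M) (M a)
  have hi : ∀ a, Integrable fun x => (6 * 1024 * 16 * ∑ i, M a i j ^ 2) *
      (‖YY (M a) x‖ ^ 10 * (GG x * HP (Finset.univ.erase a) M x)) := fun a => (hmb a).1.const_mul _
  have h1 : ∫ x, (ph M x ^ 2 - ph M (x + v) * ph M (x - v)) ≤
      ∫ x, (1 / 2048 * ph M x ^ 2 + ∑ a, (6 * 1024 * 16 * ∑ i, M a i j ^ 2) *
        (‖YY (M a) x‖ ^ 10 * (GG x * HP (Finset.univ.erase a) M x))) := by
    refine integral_mono ((integrable_ph_sq M).sub (integrable_aff M v))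
      (((integrable_ph_sq M).const_mul _).add (integrable_finsetSum _ fun a _ => hi a)) fun x => ?_
    simp only [ph_sq, ph_shift, hsv]
    have h2 := prod_sub_prod_le Finset.univ (fun a => hh (YY (M a) x) ^ 2)
      (fun a => hh (YY (M a) x + YY (M a) v) * hh (YY (M a) x - YY (M a) v))
      (fun a => mul_nonneg (hh_nonneg _) (hh_nonneg _)) (fun a => hh_shift_le _ _)
    have h3 : ∑ a, (hh (YY (M a) x) ^ 2 -
        hh (YY (M a) x + YY (M a) v) * hh (YY (M a) x - YY (M a) v)) *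
          ∏ b ∈ Finset.univ.erase a, hh (YY (M b) x) ^ 2 ≤
        ∑ a, (6 * 1024 * 16 * ∑ i, M a i j ^ 2) *
          (‖YY (M a) x‖ ^ 10 * HP (Finset.univ.erase a) M x) := by
      refine Finset.sum_le_sum fun a _ => ?_
      have h4 := hh_shift_ge' (YY (M a) x) (YY (M a) v) (hYv' a)
      rw [hYv] at h4
      refine (mul_le_mul_of_nonneg_right h4 ((wt_HP _ M).nonneg x)).trans (le_of_eq ?_)
      ring
    have h5 : ∏ a, (hh (YY (M a) x + YY (M a) v) * hh (YY (M a) x - YY (M a) v)) ≤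
        HP Finset.univ M x :=
      Finset.prod_le_prod (fun a _ => mul_nonneg (hh_nonneg _) (hh_nonneg _))
        fun a _ => hh_shift_le _ _
    have h6 : 0 ≤ ∏ a, (hh (YY (M a) x + YY (M a) v) * hh (YY (M a) x - YY (M a) v)) :=
      Finset.prod_nonneg fun a _ => mul_nonneg (hh_nonneg _) (hh_nonneg _)
    have h7 : 1 - 1 / 2048 ≤ Real.exp (-16 / 32768) := by
      linarith [Real.add_one_le_exp (-16 / 32768)]
    have h8 : ∑ a, (6 * 1024 * 16 * ∑ i, M a i j ^ 2) *
        (‖YY (M a) x‖ ^ 10 * (GG x * HP (Finset.univ.erase a) M x)) =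
        GG x * ∑ a, (6 * 1024 * 16 * ∑ i, M a i j ^ 2) *
          (‖YY (M a) x‖ ^ 10 * HP (Finset.univ.erase a) M x) := by
      rw [Finset.mul_sum]
      exact Finset.sum_congr rfl fun a _ => by ring
    rw [h8]
    have h9 : HP Finset.univ M x - Real.exp (-16 / 32768) *
        ∏ a, (hh (YY (M a) x + YY (M a) v) * hh (YY (M a) x - YY (M a) v)) ≤
        1 / 2048 * HP Finset.univ M x + ∑ a, (6 * 1024 * 16 * ∑ i, M a i j ^ 2) *
          (‖YY (M a) x‖ ^ 10 * HP (Finset.univ.erase a) M x) := by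
      have h10 := mul_le_mul_of_nonneg_right h7 h6
      have h11 := h2.trans h3
      change HP Finset.univ M x - _ ≤ _ at h11
      have h12 : ∀ H U T S : ℝ, U ≤ H → H - U ≤ S → (1 - 1 / 2048) * U ≤ T →
          H - T ≤ 1 / 2048 * H + S := fun H U T S a b c => by linarith
      exact h12 _ _ _ _ h5 h11 h10
    have := mul_le_mul_of_nonneg_left h9 (GG_pos x).le
    linarith
  rw [integral_sub (integrable_ph_sq M) (integrable_aff M v),
    integral_add ((integrable_ph_sq M).const_mul _) (integrable_finsetSum _ fun a _ => hi a),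
    integral_const_mul, integral_finsetSum _ fun a _ => hi a] at h1
  refine h1.trans ?_
  rw [add_mul, Finset.mul_sum, Finset.sum_mul]
  refine add_le_add le_rfl (Finset.sum_le_sum fun a _ => ?_)
  rw [integral_const_mul]
  have h2 := (hmb a).2.trans (mul_le_mul_of_nonneg_left (erase_le M a (hM a))
    (mul_nonneg (by norm_num) (pow_nonneg (mul_nonneg (by norm_num) (fr_nonneg _)) 5)))
  refine (mul_le_mul_of_nonneg_left h2 (by positivity)).trans (le_of_eq ?_)
  unfold CC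
  ring

lemma min_ge (p q : ℝ) :
    16 * (p * q) - (15 / 2 + 1 / 64) * (p ^ 2 + q ^ 2) ≤ min (p ^ 2) (q ^ 2) := by
  refine le_min ?_ ?_
  · nlinarith [sq_nonneg (p - q), sq_nonneg (33 * p - 31 * q), sq_nonneg (17 * p - 16 * q)]
  · nlinarith [sq_nonneg (p - q), sq_nonneg (33 * q - 31 * p), sq_nonneg (17 * q - 16 * p)]

lemma integrable_min (M : A → Matrix (Fin d) (Fin n) ℝ) (v : Fin n → ℝ) :
    Integrable fun x => min (ph M (x + v) ^ 2) (ph M (x - v) ^ 2) :=
  ((integrable_ph_sq M).comp_add_right v).inf ((integrable_ph_sq M).comp_sub_right v)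

lemma ovl_ge (M : A → Matrix (Fin d) (Fin n) ℝ) (v : Fin n → ℝ) :
    16 * (∫ x, ph M (x + v) * ph M (x - v)) - (15 + 1 / 32) * ∫ x, ph M x ^ 2 ≤
      ∫ x, min (ph M (x + v) ^ 2) (ph M (x - v) ^ 2) := by
  have h1 := (integrable_ph_sq M).comp_add_right v
  have h2 := (integrable_ph_sq M).comp_sub_right v
  have h3 : ∫ x, (16 * (ph M (x + v) * ph M (x - v)) -
      (15 / 2 + 1 / 64) * (ph M (x + v) ^ 2 + ph M (x - v) ^ 2)) ≤
      ∫ x, min (ph M (x + v) ^ 2) (ph M (x - v) ^ 2) :=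
    integral_mono (((integrable_aff M v).const_mul _).sub ((h1.add h2).const_mul _))
      (integrable_min M v) fun x => min_ge _ _
  rw [integral_sub ((integrable_aff M v).const_mul _) (by exact (h1.add h2).const_mul _),
    integral_const_mul, integral_const_mul, integral_add h1 h2,
    integral_add_right_eq_self (fun x => ph M x ^ 2) v,
    integral_sub_right_eq_self (fun x => ph M x ^ 2) v] at h3
  linarith

theorem core (M : A → Matrix (Fin d) (Fin n) ℝ) (hM : ∀ a, fr (M a) ≤ 1 / 524288) :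
    ∃ P : (Fin n → ℝ) → ℝ≥0∞, Measurable P ∧ (∀ x, P (-x) = P x) ∧
      (∀ x, P x ≠ 0 → ∀ a, sq (M a *ᵥ x) ≤ 4) ∧ ∫⁻ x, P x = 1 ∧
      ∀ j, 1 - (ovl P ((4 : ℝ) • Pi.single j (1 : ℝ))).toReal ≤
        1 / 128 + 1 / 32 + 16 * CC * ∑ a, (∑ i, M a i j ^ 2) * fr (M a) ^ 5 := by
  have hZ := Z_pos M
  set Z := ∫ x, ph M x ^ 2 with hZd
  refine ⟨fun x => ENNReal.ofReal (ph M x ^ 2 / Z), ?_, ?_, ?_, ?_, ?_⟩
  · exact (((continuous_ph M).pow 2).div_const Z).measurable.ennreal_ofReal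
  · intro x
    simp only [ph_sq, GG_neg, (wt_HP Finset.univ M).even]
  · intro x hx a
    have h1 : hh (YY (M a) x) ≠ 0 := by
      intro h
      apply hx
      have : ph M x = 0 := by
        rw [ph, Finset.prod_eq_zero (Finset.mem_univ a) h, mul_zero]
      simp [this]
    rw [← norm_YY_sq]
    have := pow_le_pow_left₀ (norm_nonneg _) (norm_le_of_hh_ne h1) 2
    linarith
  · rw [← ofReal_integral_eq_lintegral_ofReal ((integrable_ph_sq M).div_const Z)
      (ae_of_all _ fun x => by positivity), integral_div, div_self hZ.ne', ENNReal.ofReal_one]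
  · intro j
    have h1 := aff_ge M hM j
    have h2 := ovl_ge M ((4 : ℝ) • Pi.single j 1)
    set v : Fin n → ℝ := (4 : ℝ) • Pi.single j 1
    have h3 : (ovl (fun x => ENNReal.ofReal (ph M x ^ 2 / Z)) v).toReal =
        (∫ x, min (ph M (x + v) ^ 2) (ph M (x - v) ^ 2)) / Z := by
      unfold ovl
      simp_rw [← ENNReal.ofReal_min, min_div_div_right hZ.le]
      rw [← ofReal_integral_eq_lintegral_ofReal ((integrable_min M v).div_const Z)
        (ae_of_all _ fun x => by positivity), integral_div, ENNReal.toReal_ofReal]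
      exact div_nonneg (integral_nonneg fun x => by positivity) hZ.le
    rw [h3, sub_le_comm, le_div_iff₀ hZ]
    linarith

end Dn

open Dn in
theorem dens : ∃ δ : ℝ, 0 < δ ∧ ∃ ε : ℝ, 0 < ε ∧
    ∀ (n d N : ℕ) (e : Fin N → Fin n) (σ : Fin N → ℝ), (∀ k, 0 ≤ σ k) → ∑ k, σ k = 1 →
    ∀ (A : Type) [Fintype A] (M : A → Matrix (Fin d) (Fin n) ℝ) (r : A → ℝ),
      (∀ α, 0 < r α) → (∀ α, fr (M α) ≤ δ * r α ^ 2) →
      ∑ α, (∑ k, σ k * ∑ i, M α i (e k) ^ 2) / r α ^ 2 * (fr (M α) / r α ^ 2) ^ 5 ≤ ε →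
      ∃ P : (Fin n → ℝ) → ℝ≥0∞, Measurable P ∧ (∀ x, P (-x) = P x) ∧
        (∀ x, P x ≠ 0 → ∀ α, sq (M α *ᵥ x) ≤ 4 * r α ^ 2) ∧ ∫⁻ x, P x = 1 ∧
        ∑ k, σ k * (1 - (ovl P ((4 : ℝ) • Pi.single (e k) (1 : ℝ))).toReal) ≤ 1 / 16 := by
  have hC : 0 < CC := by unfold CC; positivity
  refine ⟨1 / 524288, by norm_num, 1 / (1024 * CC), by positivity, ?_⟩
  intro n d N e σ hσ hσ1 A _ M r hr hM hε
  have hfr : ∀ α, fr ((r α)⁻¹ • M α) = fr (M α) / r α ^ 2 := by
    intro α
    simp only [fr, Matrix.smul_apply, smul_eq_mul, mul_pow, inv_pow, Finset.sum_div]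
    exact Finset.sum_congr rfl fun i _ => Finset.sum_congr rfl fun j _ => by ring
  obtain ⟨P, h1, h2, h3, h4, h5⟩ := core (fun α => (r α)⁻¹ • M α) (fun α => by
    rw [hfr, div_le_iff₀ (pow_pos (hr α) 2)]; exact hM α)
  refine ⟨P, h1, h2, fun x hx α => ?_, h4, ?_⟩
  · have h6 := h3 x hx α
    have h7 : sq (((r α)⁻¹ • M α) *ᵥ x) = sq (M α *ᵥ x) / r α ^ 2 := by
      simp only [sq, smul_mulVec, Pi.smul_apply, smul_eq_mul, mul_pow, inv_pow, Finset.sum_div]
      exact Finset.sum_congr rfl fun i _ => by ring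
    rwa [h7, div_le_iff₀ (pow_pos (hr α) 2)] at h6
  · refine (Finset.sum_le_sum fun k _ => mul_le_mul_of_nonneg_left (h5 (e k)) (hσ k)).trans ?_
    have h6 : ∑ k, σ k * ∑ α, (∑ i, ((r α)⁻¹ • M α) i (e k) ^ 2) * fr ((r α)⁻¹ • M α) ^ 5 =
        ∑ α, (∑ k, σ k * ∑ i, M α i (e k) ^ 2) / r α ^ 2 * (fr (M α) / r α ^ 2) ^ 5 := by
      simp_rw [Finset.mul_sum (s := Finset.univ (α := A))]
      rw [Finset.sum_comm]
      refine Finset.sum_congr rfl fun α _ => ?_
      rw [Finset.sum_div, Finset.sum_mul, hfr]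
      refine Finset.sum_congr rfl fun k _ => ?_
      simp only [Matrix.smul_apply, smul_eq_mul, mul_pow, inv_pow, ← Finset.mul_sum]
      ring
    simp only [mul_add, Finset.sum_add_distrib, ← Finset.sum_mul, hσ1, mul_left_comm (σ _)]
    rw [← Finset.mul_sum, h6]
    have h7 := mul_le_mul_of_nonneg_left hε (show 0 ≤ 16 * CC by positivity)
    have h8 : 16 * CC * (1 / (1024 * CC)) = 1 / 64 := by field_simp; norm_num
    linarith

end Crest.Agent.R239
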