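import Crest.Agent.R239.Defs
import Crest.Agent.PL.Basic

/-! The cut-off function and the Gaussian comparison (Anderson) inequality for `dens`. -/

set_option autoImplicit false

open MeasureTheory Matrix
open scoped ENNReal

namespace Crest.Agent.R239.Dn

section cutoff
variable {E : Type*} [NormedAddCommGroup E] [InnerProductSpace ℝ E]

/-- distance to the unit ball -/
noncomputable def rho (y : E) : ℝ := max (‖y‖ - 1) 0

/-- the cut-off -/
noncomputable def hh (y : E) : ℝ := max (1 - rho y ^ 2) 0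

omit [InnerProductSpace ℝ E] in
lemma rho_nonneg (y : E) : 0 ≤ rho y := le_max_right _ _

omit [InnerProductSpace ℝ E] in
lemma hh_nonneg (y : E) : 0 ≤ hh y := le_max_right _ _

omit [InnerProductSpace ℝ E] in
lemma hh_le_one (y : E) : hh y ≤ 1 := max_le (by nlinarith [sq_nonneg (rho y)]) zero_le_one

omit [InnerProductSpace ℝ E] in
lemma hh_neg (y : E) : hh (-y) = hh y := by simp [hh, rho]

omit [InnerProductSpace ℝ E] in
lemma continuous_hh : Continuous (hh : E → ℝ) := by unfold hh rho; fun_prop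

omit [InnerProductSpace ℝ E] in
lemma hh_of_le {y : E} (h : ‖y‖ ≤ 1) : hh y = 1 := by
  simp [hh, rho, max_eq_right (sub_nonpos.mpr h)]

omit [InnerProductSpace ℝ E] in
lemma norm_le_of_hh_ne {y : E} (h : hh y ≠ 0) : ‖y‖ ≤ 2 := by
  by_contra h'
  apply h
  have h1 : 1 ≤ rho y := le_max_of_le_left (by linarith [not_le.mp h'])
  exact max_eq_right (by nlinarith)

omit [InnerProductSpace ℝ E] in
lemma rho_le {y p : E} (hp : ‖p‖ ≤ 1) : rho y ≤ ‖y - p‖ :=
  max_le (by linarith [norm_sub_norm_le y p]) (norm_nonneg _)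

omit [InnerProductSpace ℝ E] in
lemma rho_lip (a b : E) : |rho a - rho b| ≤ ‖a - b‖ := by
  refine (abs_max_sub_max_le_abs _ _ _).trans ?_
  rw [sub_sub_sub_cancel_right]
  exact abs_norm_sub_norm_le a b

lemma exists_proj (y : E) : ∃ p : E, ‖p‖ ≤ 1 ∧ ‖y - p‖ = rho y := by
  rcases le_total ‖y‖ 1 with h | h
  · exact ⟨y, h, by simp [rho, h]⟩
  · have h0 : 0 < ‖y‖ := by linarith
    refine ⟨‖y‖⁻¹ • y, ?_, ?_⟩
    · rw [norm_smul, norm_inv, norm_norm, inv_mul_cancel₀ h0.ne']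
    · have : y - ‖y‖⁻¹ • y = (1 - ‖y‖⁻¹) • y := by rw [sub_smul, one_smul]
      rw [this, norm_smul, Real.norm_eq_abs, abs_of_nonneg (sub_nonneg.mpr (inv_le_one_of_one_le₀ h)),
        rho, max_eq_left (sub_nonneg.mpr h), sub_mul, inv_mul_cancel₀ h0.ne', one_mul]

lemma rho_semi (y v : E) : rho (y + v) ^ 2 + rho (y - v) ^ 2 ≤ 2 * rho y ^ 2 + 2 * ‖v‖ ^ 2 := by
  obtain ⟨p, hp, he⟩ := exists_proj y
  have h1 := pow_le_pow_left₀ (rho_nonneg _) (rho_le (y := y + v) hp) 2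
  have h2 := pow_le_pow_left₀ (rho_nonneg _) (rho_le (y := y - v) hp) 2
  have h3 := parallelogram_law_with_norm ℝ (y - p) v
  rw [show y + v - p = y - p + v by abel] at h1
  rw [show y - v - p = y - p - v by abel] at h2
  rw [he] at h3
  linarith

lemma rho_mid (a b : E) : rho ((1 / 2 : ℝ) • (a + b)) ≤ (rho a + rho b) / 2 := by
  have h1 : ‖(1 / 2 : ℝ) • (a + b)‖ ≤ (‖a‖ + ‖b‖) / 2 := by
    rw [norm_smul, Real.norm_eq_abs, abs_of_nonneg (by norm_num)]
    linarith [norm_add_le a b]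
  have h2 : ‖a‖ - 1 ≤ rho a := le_max_left _ _
  have h3 : ‖b‖ - 1 ≤ rho b := le_max_left _ _
  exact max_le (by linarith) (by linarith [rho_nonneg a, rho_nonneg b])

lemma hh_mid (a b : E) : hh a * hh b ≤ hh ((1 / 2 : ℝ) • (a + b)) ^ 2 := by
  have h1 := rho_mid a b
  have h2 := pow_le_pow_left₀ (rho_nonneg _) h1 2
  have h3 : 1 - rho ((1 / 2 : ℝ) • (a + b)) ^ 2 ≤ hh ((1 / 2 : ℝ) • (a + b)) := le_max_left _ _
  rcases le_total (1 - rho a ^ 2) 0 with ha | ha
  · rw [show hh a = 0 from max_eq_right ha, zero_mul]; positivity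
  rcases le_total (1 - rho b ^ 2) 0 with hb | hb
  · rw [show hh b = 0 from max_eq_right hb, mul_zero]; positivity
  rw [show hh a = 1 - rho a ^ 2 from max_eq_left ha, show hh b = 1 - rho b ^ 2 from max_eq_left hb]
  have h4 : ((1 - rho a ^ 2) + (1 - rho b ^ 2)) / 2 ≤ hh ((1 / 2 : ℝ) • (a + b)) := by
    nlinarith [sq_nonneg (rho a - rho b)]
  have h5 := pow_le_pow_left₀ (by positivity) h4 2
  nlinarith [sq_nonneg (rho a ^ 2 - rho b ^ 2)]

lemma hh_shift_le (y v : E) : hh (y + v) * hh (y - v) ≤ hh y ^ 2 := by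
  have := hh_mid (y + v) (y - v)
  rwa [show (1 / 2 : ℝ) • (y + v + (y - v)) = y by module] at this

lemma hh_shift_ge (y v : E) : hh y ^ 2 - hh (y + v) * hh (y - v) ≤ 6 * ‖v‖ ^ 2 := by
  have h1 := rho_semi y v
  have h2 := rho_lip (y + v) y
  have h3 := rho_lip (y - v) y
  rw [add_sub_cancel_left] at h2
  rw [sub_sub_cancel_left, norm_neg] at h3
  have hp := mul_nonneg (hh_nonneg (y + v)) (hh_nonneg (y - v))
  have h0 := rho_nonneg y
  have h0' := rho_nonneg (y + v)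
  have h0'' := rho_nonneg (y - v)
  have hs := norm_nonneg v
  set r0 := rho y
  set r1 := rho (y + v)
  set r2 := rho (y - v)
  set s := ‖v‖
  obtain ⟨h2a, h2b⟩ := abs_le.mp h2
  obtain ⟨h3a, h3b⟩ := abs_le.mp h3
  rcases le_total 1 r0 with hr | hr
  · rw [show hh y = 0 from max_eq_right (by nlinarith)]
    nlinarith
  have e0 : hh y = 1 - r0 ^ 2 := max_eq_left (by nlinarith)
  have key : 1 - r0 ≤ s → hh y ^ 2 ≤ 6 * s ^ 2 := by
    intro h
    have h5 : hh y ≤ 2 * s := by rw [e0]; nlinarith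
    have := pow_le_pow_left₀ (hh_nonneg y) h5 2
    nlinarith
  rcases le_total 1 r1 with hr1 | hr1
  · linarith [key (by linarith)]
  rcases le_total 1 r2 with hr2 | hr2
  · linarith [key (by linarith)]
  have e1 : hh (y + v) = 1 - r1 ^ 2 := max_eq_left (by nlinarith)
  have e2 : hh (y - v) = 1 - r2 ^ 2 := max_eq_left (by nlinarith)
  rw [e0, e1, e2]
  have ha : |r1 ^ 2 - r0 ^ 2| ≤ 2 * s := by
    rw [show r1 ^ 2 - r0 ^ 2 = (r1 + r0) * (r1 - r0) by ring, abs_mul, abs_of_nonneg (by linarith)]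
    exact mul_le_mul (by linarith) h2 (abs_nonneg _) (by norm_num)
  have hb : |r2 ^ 2 - r0 ^ 2| ≤ 2 * s := by
    rw [show r2 ^ 2 - r0 ^ 2 = (r2 + r0) * (r2 - r0) by ring, abs_mul, abs_of_nonneg (by linarith)]
    exact mul_le_mul (by linarith) h3 (abs_nonneg _) (by norm_num)
  have hab : |(r1 ^ 2 - r0 ^ 2) * (r2 ^ 2 - r0 ^ 2)| ≤ (2 * s) * (2 * s) := by
    rw [abs_mul]; exact mul_le_mul ha hb (abs_nonneg _) (by positivity)
  have hc : (1 - r0 ^ 2) * ((r1 ^ 2 - r0 ^ 2) + (r2 ^ 2 - r0 ^ 2)) ≤ 2 * s ^ 2 := by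
    have h6 : 0 ≤ 1 - r0 ^ 2 := by nlinarith
    have h7 : (1 - r0 ^ 2) * ((r1 ^ 2 - r0 ^ 2) + (r2 ^ 2 - r0 ^ 2)) ≤ (1 - r0 ^ 2) * (2 * s ^ 2) :=
      mul_le_mul_of_nonneg_left (by linarith) h6
    nlinarith [sq_nonneg r0, sq_nonneg s, mul_nonneg (sq_nonneg r0) (sq_nonneg s)]
  nlinarith [(abs_le.mp hab).1]

lemma hh_shift_ge' (y v : E) (hv : ‖v‖ ≤ 1 / 2) :
    hh y ^ 2 - hh (y + v) * hh (y - v) ≤ 6 * 1024 * ‖v‖ ^ 2 * ‖y‖ ^ 10 := by
  rcases le_total ‖y‖ (1 / 2) with h | h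
  · rw [hh_of_le (y := y) (by linarith), hh_of_le (by linarith [norm_add_le y v]),
      hh_of_le (by linarith [norm_sub_le y v])]
    norm_num; positivity
  · refine (hh_shift_ge y v).trans ?_
    have h1 : (1 / 2 : ℝ) ^ 10 ≤ ‖y‖ ^ 10 := pow_le_pow_left₀ (by norm_num) h 10
    nlinarith [sq_nonneg ‖v‖]

omit [InnerProductSpace ℝ E] in
lemma hh_sq_ge (y : E) : 1 - ‖y‖ ^ 10 ≤ hh y ^ 2 := by
  rcases le_total ‖y‖ 1 with h | h
  · rw [hh_of_le h]; norm_num
  · have := one_le_pow₀ (n := 10) h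
    nlinarith [sq_nonneg (hh y)]

end cutoff

lemma prod_sub_prod_le {A : Type} [DecidableEq A] (s : Finset A) (x y : A → ℝ)
    (hy : ∀ a, 0 ≤ y a) (hxy : ∀ a, y a ≤ x a) :
    ∏ a ∈ s, x a - ∏ a ∈ s, y a ≤ ∑ a ∈ s, (x a - y a) * ∏ b ∈ s.erase a, x b := by
  induction s using Finset.induction_on with
  | empty => simp
  | insert i s hi ih =>
    rw [Finset.prod_insert hi, Finset.prod_insert hi, Finset.sum_insert hi, Finset.erase_insert hi]
    have h1 : ∑ a ∈ s, (x a - y a) * ∏ b ∈ (insert i s).erase a, x b =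
        x i * ∑ a ∈ s, (x a - y a) * ∏ b ∈ s.erase a, x b := by
      rw [Finset.mul_sum]
      refine Finset.sum_congr rfl fun a ha => ?_
      have hne : i ≠ a := fun h => hi (h ▸ ha)
      rw [Finset.erase_insert_of_ne hne,
        Finset.prod_insert (fun h => hi (Finset.mem_of_mem_erase h))]
      ring
    rw [h1]
    have h2 : ∏ a ∈ s, y a ≤ ∏ a ∈ s, x a := Finset.prod_le_prod (fun a _ => hy a) fun a _ => hxy a
    have h3 := mul_le_mul_of_nonneg_left ih ((hy i).trans (hxy i))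
    have h4 := mul_le_mul_of_nonneg_left h2 (sub_nonneg.mpr (hxy i))
    nlinarith

variable {n : ℕ}

/-- the squared Gaussian factor, `S = 128` -/
noncomputable def GG (x : Fin n → ℝ) : ℝ := Real.exp (-sq x / 32768)

lemma GG_pos (x : Fin n → ℝ) : 0 < GG x := Real.exp_pos _

lemma continuous_GG : Continuous (GG : (Fin n → ℝ) → ℝ) := by unfold GG sq; fun_prop

lemma GG_neg (x : Fin n → ℝ) : GG (-x) = GG x := by simp [GG, sq]

lemma integrable_GG : Integrable (GG : (Fin n → ℝ) → ℝ) := by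
  have h := Integrable.fintype_prod (ι := Fin n) (μ := fun _ => (volume : Measure ℝ))
    (f := fun _ (t : ℝ) => Real.exp (-(1 / 32768) * t ^ 2))
    (fun _ => integrable_exp_neg_mul_sq (by norm_num))
  rw [← volume_pi] at h
  refine h.congr (Filter.Eventually.of_forall fun x => ?_)
  simp only [GG, sq]
  rw [← Real.exp_sum, ← Finset.mul_sum]
  congr 1; ring

lemma GG_mid (a b : Fin n → ℝ) : GG a * GG b ≤ GG ((1 / 2 : ℝ) • (a + b)) ^ 2 := by
  unfold GG
  rw [← Real.exp_add, ← Real.exp_nat_mul, Real.exp_le_exp]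
  have : 2 * sq ((1 / 2 : ℝ) • (a + b)) ≤ sq a + sq b := by
    unfold sq
    rw [Finset.mul_sum, ← Finset.sum_add_distrib]
    refine Finset.sum_le_sum fun i _ => ?_
    simp only [Pi.smul_apply, Pi.add_apply, smul_eq_mul]
    nlinarith [sq_nonneg (a i - b i)]
  push_cast
  linarith

/-- the class of admissible weights -/
structure Wt (H : (Fin n → ℝ) → ℝ) : Prop where
  cont : Continuous H
  nonneg : ∀ x, 0 ≤ H x
  le_one : ∀ x, H x ≤ 1
  even : ∀ x, H (-x) = H x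
  mid : ∀ a b, H a * H b ≤ H ((1 / 2 : ℝ) • (a + b)) ^ 2

lemma Wt.integrable {H : (Fin n → ℝ) → ℝ} (hH : Wt H) (c : Fin n → ℝ) :
    Integrable fun x => GG (x - c) * H x := by
  refine (integrable_GG.comp_sub_right c).mono'
    ((continuous_GG.comp (by fun_prop)).mul hH.cont).aestronglyMeasurable
    (Filter.Eventually.of_forall fun x => ?_)
  rw [Real.norm_eq_abs, abs_of_nonneg (mul_nonneg (GG_pos _).le (hH.nonneg x))]
  exact mul_le_of_le_one_right (GG_pos _).le (hH.le_one x)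

lemma Wt.integrable0 {H : (Fin n → ℝ) → ℝ} (hH : Wt H) : Integrable fun x => GG x * H x := by
  simpa using hH.integrable 0

lemma Wt.anderson {H : (Fin n → ℝ) → ℝ} (hH : Wt H) (c : Fin n → ℝ) :
    ∫ x, GG (x - c) * H x ≤ ∫ x, GG x * H x := by
  have hm : ∀ c : Fin n → ℝ, Measurable fun x => ENNReal.ofReal (GG (x - c) * H x) := fun c =>
    ((continuous_GG.comp (by fun_prop)).mul hH.cont).measurable.ennreal_ofReal
  have hn : ∀ c : Fin n → ℝ, ∀ x, 0 ≤ GG (x - c) * H x := fun c x =>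
    mul_nonneg (GG_pos _).le (hH.nonneg x)
  have h1 := PL.hasPL_pi n _ _ _ (hm c) (hm (-c)) (hm 0) (fun x y => by
    rw [← ENNReal.ofReal_mul (hn c x), ← ENNReal.ofReal_pow (hn 0 _)]
    refine ENNReal.ofReal_le_ofReal ?_
    have h2 := GG_mid (x - c) (y - -c)
    rw [show x - c + (y - -c) = x + y by abel] at h2
    rw [sub_zero, mul_pow, mul_mul_mul_comm]
    exact mul_le_mul h2 (hH.mid x y) (mul_nonneg (hH.nonneg _) (hH.nonneg _)) (by positivity))
  rw [← ofReal_integral_eq_lintegral_ofReal (hH.integrable c) (ae_of_all _ (hn c)),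
    ← ofReal_integral_eq_lintegral_ofReal (hH.integrable (-c)) (ae_of_all _ (hn (-c))),
    ← ofReal_integral_eq_lintegral_ofReal (hH.integrable 0) (ae_of_all _ (hn 0))] at h1
  have h3 : ∫ x, GG (x - -c) * H x = ∫ x, GG (x - c) * H x := by
    rw [← integral_neg_eq_self]
    refine integral_congr_ae (ae_of_all _ fun x => ?_)
    simp only
    rw [hH.even, ← GG_neg]
    congr 2; abel
  have h4 : 0 ≤ ∫ x, GG (x - c) * H x := integral_nonneg (hn c)
  have h5 : 0 ≤ ∫ x, GG (x - 0) * H x := integral_nonneg (hn 0)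
  rw [h3, ← ENNReal.ofReal_mul h4, ← ENNReal.ofReal_pow h5,
    ENNReal.ofReal_le_ofReal_iff (by positivity), ← pow_two] at h1
  have := (pow_le_pow_iff_left₀ h4 h5 two_ne_zero).mp h1
  simpa using this

lemma exp_mul_GG (u x : Fin n → ℝ) (hu : sq u ≤ 1) :
    Real.exp (u ⬝ᵥ x / 128) * GG x ≤ 2 * GG (x - (128 : ℝ) • u) := by
  have h1 : sq (x - (128 : ℝ) • u) = sq x - 256 * (u ⬝ᵥ x) + 16384 * sq u := by
    unfold sq dotProduct
    rw [Finset.mul_sum, Finset.mul_sum, ← Finset.sum_sub_distrib, ← Finset.sum_add_distrib]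
    refine Finset.sum_congr rfl fun i _ => ?_
    simp only [Pi.sub_apply, Pi.smul_apply, smul_eq_mul]; ring
  have h2 : Real.exp (1 / 2) ≤ 2 := by
    have h3 : Real.exp (1 / 2) ^ 2 ≤ 2 ^ 2 := by
      rw [← Real.exp_nat_mul]
      norm_num
      linarith [Real.exp_one_lt_d9]
    exact (pow_le_pow_iff_left₀ (Real.exp_pos _).le (by norm_num) two_ne_zero).mp h3
  refine le_trans ?_ (mul_le_mul_of_nonneg_right h2 (GG_pos _).le)
  unfold GG
  rw [← Real.exp_add, ← Real.exp_add, Real.exp_le_exp, h1]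
  linarith

lemma pow_ten_le (t : ℝ) : t ^ 10 ≤ 3628800 * (Real.exp t + Real.exp (-t)) := by
  have h1 := Real.pow_div_factorial_le_exp |t| (abs_nonneg t) 10
  rw [Even.pow_abs (by decide), div_le_iff₀ (by positivity)] at h1
  have h2 : Real.exp |t| ≤ Real.exp t + Real.exp (-t) := by
    rcases abs_cases t with h | h <;> rw [h.1] <;> linarith [Real.exp_pos t, Real.exp_pos (-t)]
  norm_num [Nat.factorial] at h1
  linarith

lemma dir_le {H : (Fin n → ℝ) → ℝ} (hH : Wt H) (u x : Fin n → ℝ) (hu : sq u ≤ 1) :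
    (u ⬝ᵥ x / 128) ^ 10 * (GG x * H x) ≤
      7257600 * (GG (x - (128 : ℝ) • u) * H x + GG (x - (128 : ℝ) • (-u)) * H x) := by
  have h1 := exp_mul_GG u x hu
  have h2 := exp_mul_GG (-u) x (by simpa [sq] using hu)
  rw [neg_dotProduct, neg_div] at h2
  have h3 := mul_le_mul_of_nonneg_right (pow_ten_le (u ⬝ᵥ x / 128))
    (mul_nonneg (GG_pos x).le (hH.nonneg x))
  have h4 := mul_le_mul_of_nonneg_right h1 (hH.nonneg x)
  have h5 := mul_le_mul_of_nonneg_right h2 (hH.nonneg x)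
  nlinarith

lemma jensen5 {ι : Type} [Fintype ι] (c z : ι → ℝ) (hc : ∀ i, 0 ≤ c i) (hz : ∀ i, 0 ≤ z i) :
    (∑ i, c i * z i) ^ 5 ≤ (∑ i, c i) ^ 4 * ∑ i, c i * z i ^ 5 := by
  rcases (Finset.sum_nonneg fun i (_ : i ∈ Finset.univ) => hc i).eq_or_lt with h | h
  · have h0 : ∀ i, c i = 0 := fun i =>
      (Finset.sum_eq_zero_iff_of_nonneg fun i _ => hc i).mp h.symm i (Finset.mem_univ i)
    simp [h0]
  · have h1 := Real.pow_arith_mean_le_arith_mean_pow Finset.univ (fun i => c i / ∑ j, c j) z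
      (fun i _ => div_nonneg (hc i) h.le) (by rw [← Finset.sum_div, div_self h.ne'])
      (fun i _ => hz i) 5
    simp only [div_mul_eq_mul_div, ← Finset.sum_div, div_pow] at h1
    rw [div_le_div_iff₀ (by positivity) h] at h1
    refine le_of_mul_le_mul_right (h1.trans (le_of_eq ?_)) h
    ring

variable {d : ℕ}

/-- the image vector in Euclidean space -/
noncomputable def YY (M : Matrix (Fin d) (Fin n) ℝ) (x : Fin n → ℝ) : EuclideanSpace ℝ (Fin d) :=
  WithLp.toLp 2 (M *ᵥ x)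

lemma norm_YY_sq (M : Matrix (Fin d) (Fin n) ℝ) (x : Fin n → ℝ) : ‖YY M x‖ ^ 2 = sq (M *ᵥ x) := by
  rw [EuclideanSpace.real_norm_sq_eq]; rfl

lemma continuous_YY (M : Matrix (Fin d) (Fin n) ℝ) : Continuous (YY M) := by
  unfold YY; fun_prop

lemma YY_add (M : Matrix (Fin d) (Fin n) ℝ) (x y : Fin n → ℝ) : YY M (x + y) = YY M x + YY M y := by
  simp [YY, mulVec_add]

lemma YY_sub (M : Matrix (Fin d) (Fin n) ℝ) (x y : Fin n → ℝ) : YY M (x - y) = YY M x - YY M y := by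
  simp [YY, mulVec_sub]

lemma YY_neg (M : Matrix (Fin d) (Fin n) ℝ) (x : Fin n → ℝ) : YY M (-x) = -YY M x := by
  simp [YY, mulVec_neg]

lemma YY_smul (M : Matrix (Fin d) (Fin n) ℝ) (c : ℝ) (x : Fin n → ℝ) :
    YY M (c • x) = c • YY M x := by
  simp [YY, mulVec_smul]

lemma sq_nonneg' {m : Type*} [Fintype m] (x : m → ℝ) : 0 ≤ sq x :=
  Finset.sum_nonneg fun _ _ => sq_nonneg _

lemma moment_bound {H : (Fin n → ℝ) → ℝ} (hH : Wt H) (M : Matrix (Fin d) (Fin n) ℝ) :
    Integrable (fun x => ‖YY M x‖ ^ 10 * (GG x * H x)) ∧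
    ∫ x, ‖YY M x‖ ^ 10 * (GG x * H x) ≤ 14515200 * (16384 * fr M) ^ 5 * ∫ x, GG x * H x := by
  set u : Fin d → Fin n → ℝ := fun i => (Real.sqrt (sq (M i)))⁻¹ • M i with hu
  have hu1 : ∀ i, sq (u i) ≤ 1 := by
    intro i
    have : sq (u i) = (sq (M i))⁻¹ * sq (M i) := by
      conv_rhs => rw [← Real.sq_sqrt (sq_nonneg' (M i)), ← inv_pow]
      rw [Real.sq_sqrt (sq_nonneg' (M i))]
      simp only [hu, sq, Pi.smul_apply, smul_eq_mul, mul_pow, Finset.mul_sum]
    rw [this]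
    exact inv_mul_le_one
  have hrow : ∀ x i, (M *ᵥ x) i ^ 2 = (16384 * sq (M i)) * (u i ⬝ᵥ x / 128) ^ 2 := by
    intro x i
    rcases (sq_nonneg' (M i)).eq_or_lt with h | h
    · have h0 : ∀ j, M i j = 0 := fun j => pow_eq_zero_iff two_ne_zero |>.mp
        ((Finset.sum_eq_zero_iff_of_nonneg fun j _ => sq_nonneg (M i j)).mp h.symm j
          (Finset.mem_univ j))
      simp [mulVec, dotProduct, h0, ← h]
    · simp only [hu, smul_dotProduct, smul_eq_mul, div_pow, mul_pow, inv_pow,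
        Real.sq_sqrt h.le]
      change (M i ⬝ᵥ x) ^ 2 = _
      field_simp
      norm_num
  have hfr : ∑ i, 16384 * sq (M i) = 16384 * fr M := by rw [← Finset.mul_sum]; rfl
  have hfr0 : 0 ≤ 16384 * fr M := by
    rw [← hfr]; exact Finset.sum_nonneg fun i _ => mul_nonneg (by norm_num) (sq_nonneg' _)
  set B : (Fin n → ℝ) → ℝ := fun x => (16384 * fr M) ^ 4 * ∑ i, (16384 * sq (M i)) *
    (7257600 * (GG (x - (128 : ℝ) • u i) * H x + GG (x - (128 : ℝ) • (-u i)) * H x)) with hB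
  have hpt : ∀ x, ‖YY M x‖ ^ 10 * (GG x * H x) ≤ B x := by
    intro x
    have h1 := jensen5 (fun i => 16384 * sq (M i)) (fun i => (u i ⬝ᵥ x / 128) ^ 2)
      (fun i => mul_nonneg (by norm_num) (sq_nonneg' _)) (fun i => sq_nonneg _)
    have h2 : ‖YY M x‖ ^ 10 = (∑ i, (16384 * sq (M i)) * (u i ⬝ᵥ x / 128) ^ 2) ^ 5 := by
      rw [show 10 = 2 * 5 from rfl, pow_mul, norm_YY_sq]
      simp only [← hrow]; rfl
    rw [h2]
    refine (mul_le_mul_of_nonneg_right h1 (mul_nonneg (GG_pos x).le (hH.nonneg x))).trans ?_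
    rw [hfr, mul_assoc, Finset.sum_mul]
    refine mul_le_mul_of_nonneg_left (Finset.sum_le_sum fun i _ => ?_) (by positivity)
    rw [mul_assoc, ← pow_mul]
    exact mul_le_mul_of_nonneg_left (dir_le hH _ x (hu1 i))
      (mul_nonneg (by norm_num) (sq_nonneg' _))
  have hi : ∀ i, Integrable fun x => (16384 * sq (M i)) *
      (7257600 * (GG (x - (128 : ℝ) • u i) * H x + GG (x - (128 : ℝ) • (-u i)) * H x)) := fun i =>
    (((hH.integrable _).add (hH.integrable _)).const_mul _).const_mul _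
  have hBi : Integrable B := (integrable_finsetSum _ fun i _ => hi i).const_mul _
  have hn : ∀ x, 0 ≤ ‖YY M x‖ ^ 10 * (GG x * H x) := fun x =>
    mul_nonneg (by positivity) (mul_nonneg (GG_pos x).le (hH.nonneg x))
  have hint : Integrable (fun x => ‖YY M x‖ ^ 10 * (GG x * H x)) := by
    refine hBi.mono' (((continuous_YY M).norm.pow 10).mul
      (continuous_GG.mul hH.cont)).aestronglyMeasurable (ae_of_all _ fun x => ?_)
    rw [Real.norm_eq_abs, abs_of_nonneg (hn x)]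
    exact hpt x
  refine ⟨hint, (integral_mono hint hBi hpt).trans ?_⟩
  rw [hB, integral_const_mul, integral_finsetSum _ fun i _ => hi i]
  have h3 : ∀ i, ∫ x, (16384 * sq (M i)) *
      (7257600 * (GG (x - (128 : ℝ) • u i) * H x + GG (x - (128 : ℝ) • (-u i)) * H x)) ≤
      (16384 * sq (M i)) * (14515200 * ∫ x, GG x * H x) := by
    intro i
    rw [integral_const_mul, integral_const_mul, integral_add (hH.integrable _) (hH.integrable _)]
    refine mul_le_mul_of_nonneg_left ?_ (mul_nonneg (by norm_num) (sq_nonneg' _))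
    linarith [hH.anderson ((128 : ℝ) • u i), hH.anderson ((128 : ℝ) • (-u i))]
  refine (mul_le_mul_of_nonneg_left (Finset.sum_le_sum fun i _ => h3 i) (by positivity)).trans
    (le_of_eq ?_)
  rw [← Finset.sum_mul, hfr]; ring

end Crest.Agent.R239.Dn
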