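import Crest.Agent.R239.Defs

/-! Interface statements for row 239 (prefix discrepancy `O(√d)`). -/

set_option autoImplicit false

open MeasureTheory Matrix
open scoped ENNReal

namespace Crest.Agent.R239

/-- A density with small average translate-defect, supported in a list of ellipsoidal slabs. -/
def DensStmt : Prop := ∃ δ : ℝ, 0 < δ ∧ ∃ ε : ℝ, 0 < ε ∧
    ∀ (n d N : ℕ) (e : Fin N → Fin n) (σ : Fin N → ℝ), (∀ k, 0 ≤ σ k) → ∑ k, σ k = 1 →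
    ∀ (A : Type) [Fintype A] (M : A → Matrix (Fin d) (Fin n) ℝ) (r : A → ℝ),
      (∀ α, 0 < r α) → (∀ α, fr (M α) ≤ δ * r α ^ 2) →
      ∑ α, (∑ k, σ k * ∑ i, M α i (e k) ^ 2) / r α ^ 2 * (fr (M α) / r α ^ 2) ^ 5 ≤ ε →
      ∃ P : (Fin n → ℝ) → ℝ≥0∞, Measurable P ∧ (∀ x, P (-x) = P x) ∧
        (∀ x, P x ≠ 0 → ∀ α, sq (M α *ᵥ x) ≤ 4 * r α ^ 2) ∧ ∫⁻ x, P x = 1 ∧
        ∑ k, σ k * (1 - (ovl P ((4 : ℝ) • Pi.single (e k) (1 : ℝ))).toReal) ≤ 1 / 16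

/-- Rounding lemma (lattice splitting). -/
def KLStmt : Prop := ∀ {n : ℕ} (N : ℕ) (U a : Fin N → Fin n → ℝ) (K : Set (Fin n → ℝ)),
    Convex ℝ K → (∀ x ∈ K, -x ∈ K) → ∀ (P : (Fin n → ℝ) → ℝ≥0∞), Measurable P →
    (∀ x, P (-x) = P x) → (∀ x, P x ≠ 0 → x ∈ K) → ∫⁻ x, P x = 1 →
    (∀ k, (7 / 8 : ℝ) ≤ (ovl P ((4 : ℝ) • U k)).toReal) →
    (∀ k, ∀ x ∈ K, |a k ⬝ᵥ x| ≤ 1 / 2) → (∀ k j, k ≤ j → a k ⬝ᵥ U j = 0) →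
    ∃ θ : Fin N → ℝ, (∑ k, θ k • U k) ∈ K ∧
      ∀ k, θ k + a k ⬝ᵥ (∑ j, θ j • U j) = 1 ∨ θ k + a k ⬝ᵥ (∑ j, θ j • U j) = -1

/-- Minimax: from "good on average for every weight" to "good for every direction". -/
def MinimaxStmt : Prop := ∀ {n : ℕ} (N : ℕ), 0 < N → ∀ (u : Fin N → Fin n → ℝ)
    (K : Set (Fin n → ℝ)),
    (∀ σ : Fin N → ℝ, (∀ k, 0 ≤ σ k) → ∑ k, σ k = 1 →
      ∃ P : (Fin n → ℝ) → ℝ≥0∞, Measurable P ∧ (∀ x, P (-x) = P x) ∧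
        (∀ x, P x ≠ 0 → x ∈ K) ∧ ∫⁻ x, P x = 1 ∧
        ∑ k, σ k * (1 - (ovl P (u k)).toReal) ≤ 1 / 16) →
    ∃ P : (Fin n → ℝ) → ℝ≥0∞, Measurable P ∧ (∀ x, P (-x) = P x) ∧
        (∀ x, P x ≠ 0 → x ∈ K) ∧ ∫⁻ x, P x = 1 ∧ ∀ k, (7 / 8 : ℝ) ≤ (ovl P (u k)).toReal

/-- Chaining certificate for co-moving bands. -/
def CertStmt : Prop := ∃ C : ℝ, 0 < C ∧
    ∀ (d n N N' Lv : ℕ) (e : Fin N' → Fin n) (σ : Fin N' → ℝ) (Y : ℕ → Matrix (Fin d) (Fin n) ℝ)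
      (lev : ℕ → Fin d → ℕ) (casc : ℕ → ℕ) (B : ℝ),
      (∀ k, 0 ≤ σ k) → casc 0 = 0 → (∀ m ≤ N, ∀ r, lev m r ≤ Lv) →
      (∀ m < N, ∀ r i, i < casc (m + 1) → (lev (m + 1) r = i ↔ lev m r = i)) →
      (∀ a m, a ≤ m → m ≤ N → ∀ r, (∀ t, a < t → t ≤ m → lev a r < casc t) →
        sq (Y m r - Y a r) = sq (Y a r) - sq (Y m r)) →
      (∀ m ≤ N, ∀ r, sq (Y m r) ≤ 1) →
      (∀ m ≤ N, ∀ i, ∑ r ∈ Finset.univ.filter (fun r => lev m r = i), (1 - sq (Y m r)) ≤ 1 / 2) →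
      (∀ m ≤ N, ∀ r, ∑ k, σ k * Y m r (e k) ^ 2 ≤ 2 * (1 / 2 : ℝ) ^ lev m r) →
      ∑ m ∈ Finset.range (N + 1), (1 / 2 : ℝ) ^ casc m ≤ B →
      ∃ (A : Type) (_ : Fintype A) (M : A → Matrix (Fin d) (Fin n) ℝ) (r : A → ℝ),
        (∀ α, 0 < r α) ∧ (∀ α, fr (M α) ≤ r α ^ 2) ∧
        ∑ α, (∑ k, σ k * ∑ i, M α i (e k) ^ 2) / r α ^ 2 * (fr (M α) / r α ^ 2) ^ 5 ≤ C * B ∧
        ∀ θ : Fin n → ℝ, (∀ α, sq (M α *ᵥ θ) ≤ r α ^ 2) → ∀ m ≤ N, sq (Y m *ᵥ θ) ≤ C * d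

/-- The certificate for a lossless linear system. -/
def FlagStmt : Prop := ∃ C : ℝ, 0 < C ∧
    ∀ (d N n : ℕ) (e : Fin N → Fin n) (σ : Fin N → ℝ) (Z : ℕ → Matrix (Fin d) (Fin n) ℝ)
      (T : Fin N → Matrix (Fin d) (Fin d) ℝ) (w : Fin N → Fin d → ℝ),
      (∀ k, 0 ≤ σ k) → ∑ k, σ k = 1 → Function.Injective e →
      Z 0 * (Z 0)ᵀ = 1 → (∀ k i, Z 0 i (e k) = 0) →
      (∀ k : Fin N, Z (k + 1) = T k * Z k + vecMulVec (w k) (Pi.single (e k) (1 : ℝ))) →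
      (∀ k, T k * (T k)ᵀ + vecMulVec (w k) (w k) = 1) → (∀ k, sq (w k) ≤ 1 / 4) →
      ∃ (A : Type) (_ : Fintype A) (M : A → Matrix (Fin d) (Fin n) ℝ) (r : A → ℝ),
        (∀ α, 0 < r α) ∧ (∀ α, fr (M α) ≤ r α ^ 2) ∧
        ∑ α, (∑ k, σ k * ∑ i, M α i (e k) ^ 2) / r α ^ 2 * (fr (M α) / r α ^ 2) ^ 5 ≤ C ∧
        ∀ θ : Fin n → ℝ, (∀ α, sq (M α *ᵥ θ) ≤ r α ^ 2) → ∀ m ≤ N, sq (Z m *ᵥ θ) ≤ C * d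

/-- The statement of S0370. -/
def MainStmt : Prop :=
    ∃ C : ℝ, ∀ (d N : ℕ) (v : Fin N → EuclideanSpace ℝ (Fin d)),
      (∀ i, ‖v i‖ ≤ 1) →
      ∃ ε : Fin N → ℤ, (∀ i, ε i = 1 ∨ ε i = -1) ∧
        ∀ k : ℕ, k ≤ N →
          ‖∑ i ∈ Finset.univ.filter (fun i : Fin N => (i : ℕ) < k), (ε i : ℝ) • v i‖ ≤
            C * Real.sqrt d

end Crest.Agent.R239
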