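import Crest.Agent.R239.Step4
import Crest.Agent.R239.Stmts

/-! The flag process and the certificate for a lossless system (row 239). -/

set_option autoImplicit false
set_option linter.unusedSectionVars false

open Matrix Finset

namespace Crest.Agent.R239

theorem exists_seq {S : Type*} (N : ℕ) (P : ℕ → S → Prop) (R : ℕ → S → S → Prop) (s0 : S)
    (h0 : P 0 s0) (hs : ∀ m < N, ∀ s, P m s → ∃ s', P (m + 1) s' ∧ R m s s') :
    ∃ f : ℕ → S, f 0 = s0 ∧ (∀ m ≤ N, P m (f m)) ∧ ∀ m < N, R m (f m) (f (m + 1)) := by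
  classical
  let g : ℕ → S → S := fun m s => if h : m < N ∧ P m s then (hs m h.1 s h.2).choose else s
  let f : ℕ → S := fun m => Nat.rec s0 g m
  have hf : ∀ m, f (m + 1) = g m (f m) := fun _ => rfl
  have hg : ∀ m < N, ∀ s, P m s → P (m + 1) (g m s) ∧ R m s (g m s) := by
    intro m hm s h
    have : g m s = (hs m hm s h).choose := dif_pos ⟨hm, h⟩
    rw [this]; exact (hs m hm s h).choose_spec
  have hP : ∀ m ≤ N, P m (f m) := by
    intro m
    induction m with
    | zero => exact fun _ => h0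
    | succ m ih => exact fun hm => (hg m hm _ (ih (by omega))).1
  exact ⟨f, rfl, hP, fun m hm => (hg m hm _ (hP m hm.le)).2⟩

theorem gram_step {d n : ℕ} (T : Matrix (Fin d) (Fin d) ℝ) (X : Matrix (Fin d) (Fin n) ℝ)
    (D : Matrix (Fin n) (Fin n) ℝ) (w : Fin d → ℝ) (u : Fin n → ℝ) (s : ℝ) (hD : Dᵀ = D)
    (hDu : D *ᵥ u = s • u) (hu : u ⬝ᵥ u = 1) (hX : X *ᵥ u = 0) :
    (T * X + vecMulVec w u) * D * (T * X + vecMulVec w u)ᵀ =
      T * (X * D * Xᵀ) * Tᵀ + s • vecMulVec w w := by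
  have e1 : vecMulVec w u * D = s • vecMulVec w u := by
    rw [vecMulVec_mul, ← mulVec_transpose, hD, hDu, vecMulVec_smul]
  have e2 : T * X * D * vecMulVec u w = 0 := by
    rw [mul_vecMulVec, ← mulVec_mulVec, hDu, mulVec_smul, ← mulVec_mulVec, hX]; simp
  have e3 : vecMulVec w u * (T * X)ᵀ = 0 := by
    rw [vecMulVec_mul, vecMul_transpose, ← mulVec_mulVec, hX]; simp
  have e4 : vecMulVec w u * vecMulVec u w = vecMulVec w w := by
    rw [vecMulVec_mul_vecMulVec, hu]; simp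
  rw [transpose_add, transpose_vecMulVec, Matrix.add_mul, e1, Matrix.add_mul, Matrix.mul_add,
    Matrix.mul_add, e2, Matrix.smul_mul, Matrix.smul_mul, e3, e4, transpose_mul]
  simp [Matrix.mul_assoc]

theorem sq_T_mulVec {d n : ℕ} {X : Matrix (Fin d) (Fin n) ℝ} (h : X * Xᵀ = 1) (z : Fin d → ℝ) :
    sq (Xᵀ *ᵥ z) = sq z := by
  rw [sq_mulVec, transpose_transpose, h, one_mulVec, sq_eq]

theorem qf_conj' {d n : ℕ} (X : Matrix (Fin d) (Fin n) ℝ) (D : Matrix (Fin n) (Fin n) ℝ)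
    (z : Fin d → ℝ) : qf (X * D * Xᵀ) z = qf D (Xᵀ *ᵥ z) := by
  simp only [qf]
  rw [← mulVec_mulVec, ← mulVec_mulVec, dot_mulVec_comm]

theorem inv0_init (d Lv : ℕ) : Inv0 (d := d) Lv 0 (fun _ => Lv) 1 where
  sym := transpose_zero
  psd z := by simp [qf]
  le _ := le_rfl
  U i _ z _ := by
    have := lam_pos i; have := sq_nonneg' z
    simp only [qf, zero_mulVec, dotProduct_zero]; positivity
  Lo i hi z _ := by
    have : band (fun _ : Fin d => Lv) i = ∅ := by ext r; simp [band, hi.ne']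
    simp [this, qf]
  supp _ _ h := absurd rfl h
  contr i z := by
    refine le_trans (le_of_eq ?_) (Finset.sum_le_sum_of_subset_of_nonneg
      (subset_univ (band (fun _ : Fin d => Lv) i)) fun a _ _ => sq_nonneg (z a))
    refine Finset.sum_congr rfl fun r _ => ?_
    have : (1 : Matrix (Fin d) (Fin d) ℝ) r ⬝ᵥ z = z r := congrFun (one_mulVec z) r
    rw [this]

theorem clock_init (d Lv i : ℕ) : clock (d := d) (fun _ => Lv) 1 i = 0 :=
  Finset.sum_eq_zero fun r _ => by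
    have : (1 : Matrix (Fin d) (Fin d) ℝ) r = Pi.single r 1 := by
      ext c; simp [one_apply, Pi.single_apply, eq_comm]
    rw [this]; simp [sq_eq]

theorem theta_init (d Lv : ℕ) : Theta (d := d) Lv 0 (fun _ => Lv) 1 = 0 := by
  have h : ∀ i ∈ range (Lv + 1), term (d := d) 0 (fun _ => Lv) i = 0 := by
    intro i hi
    have hi' := Nat.lt_succ_iff.mp (mem_range.mp hi)
    simp [term, Pge, hi', fr]
  simp only [Theta, clock_init, mul_zero, Finset.sum_const_zero, add_zero]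
  rw [Finset.sum_eq_zero h, mul_zero]

theorem sq_le_two {d Lv : ℕ} {G L : Matrix (Fin d) (Fin d) ℝ} {lev : Fin d → ℕ}
    (h : Inv0 Lv G lev L) (hc : ∀ i, clock lev L i ≤ 1 / 2) (x : Fin d → ℝ) :
    sq x ≤ 2 * sq (L *ᵥ x) := by
  rw [← sum_sq_bp h.le x, sq, ← sum_band h.le, Finset.mul_sum]
  refine Finset.sum_le_sum fun i _ => ?_
  have h1 := band_lower h.supp h.contr i x
  have h2 := hc i
  have h3 := sq_nonneg' (bp lev i x)
  have h4 : ∑ a ∈ band lev i, (L *ᵥ x) a ^ 2 = ∑ r ∈ band lev i, (L r ⬝ᵥ x) ^ 2 := rfl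
  rw [h4]; nlinarith

theorem flag_of (hcert : CertStmt) : FlagStmt := by
  classical
  obtain ⟨C, hC, hcert⟩ := hcert
  refine ⟨60131 * C, by positivity, ?_⟩
  intro d N n e σ Z T w hσ hσ1 he hZ0 hZe hZ hT hw
  set u : Fin N → Fin n → ℝ := fun k => Pi.single (e k) 1 with hu
  have huu : ∀ k, u k ⬝ᵥ u k = 1 := fun k => by simp [hu]
  have hXu : ∀ (X : Matrix (Fin d) (Fin n) ℝ) k, (∀ i, X i (e k) = 0) → X *ᵥ u k = 0 := by
    intro X k h; ext i; simp [hu, h i]
  have hcol : ∀ m ≤ N, ∀ k : Fin N, m ≤ k → ∀ i, Z m i (e k) = 0 := by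
    intro m
    induction m with
    | zero => exact fun _ k _ i => hZe k i
    | succ m ih =>
      intro hm k hk i
      have h1 : Z (m + 1) = _ := hZ ⟨m, hm⟩
      have h2 : e k ≠ e ⟨m, hm⟩ := fun h => by
        have := congrArg Fin.val (he h); simp at this; omega
      rw [h1, Matrix.add_apply, mul_apply, vecMulVec_apply, Pi.single_eq_of_ne h2]
      simp [ih (by omega) k (by omega)]
  have hZZ : ∀ m ≤ N, Z m * (Z m)ᵀ = 1 := by
    intro m
    induction m with
    | zero => exact fun _ => hZ0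
    | succ m ih =>
      intro hm
      have h1 : Z (m + 1) = _ := hZ ⟨m, hm⟩
      have := gram_step (T ⟨m, hm⟩) (Z m) 1 (w ⟨m, hm⟩) (u ⟨m, hm⟩) 1 transpose_one (by simp)
        (huu _) (hXu _ _ (hcol m (by omega) _ le_rfl))
      rw [Matrix.mul_one, Matrix.mul_one, ih (by omega), Matrix.mul_one, one_smul, hT] at this
      rw [h1]; exact this
  set D : Matrix (Fin n) (Fin n) ℝ := ∑ k, σ k • vecMulVec (u k) (u k) with hD
  have hDs : Dᵀ = D := by simp [hD, transpose_sum, transpose_vecMulVec]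
  have hDq : ∀ y, qf D y = ∑ k, σ k * y (e k) ^ 2 := by
    intro y
    rw [qf, hD, Matrix.sum_mulVec, dotProduct_sum]
    refine Finset.sum_congr rfl fun k _ => ?_
    have := qf_vv (σ k) (u k) y
    rw [qf] at this
    rw [this]; simp [hu]
  have hDu : ∀ k, D *ᵥ u k = σ k • u k := by
    intro k
    rw [hD, Matrix.sum_mulVec, Finset.sum_eq_single k]
    · rw [smul_mulVec, vv_mulVec, huu, one_smul]
    · intro j _ hj
      have : u j ⬝ᵥ u k = 0 := by simp [hu, Pi.single_eq_of_ne (he.ne hj.symm)]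
      rw [smul_mulVec, vv_mulVec, this, zero_smul, smul_zero]
    · simp
  have hDle : ∀ y, qf D y ≤ sq y := by
    intro y
    rw [hDq, ← one_mul (sq y), ← hσ1, Finset.sum_mul]
    exact Finset.sum_le_sum fun k _ => mul_le_mul_of_nonneg_left
      (Finset.single_le_sum (f := fun j => y j ^ 2) (fun _ _ => sq_nonneg _) (mem_univ _)) (hσ k)
  have hXX : ∀ m ≤ N, ∀ O : Matrix (Fin d) (Fin d) ℝ, O * Oᵀ = 1 → O * Z m * (O * Z m)ᵀ = 1 := by
    intro m hm O hO
    rw [transpose_mul, Matrix.mul_assoc, ← Matrix.mul_assoc (Z m), hZZ m hm, Matrix.one_mul, hO]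
  have hZD : Z 0 * D = 0 := by
    rw [hD, Matrix.mul_sum]
    refine Finset.sum_eq_zero fun k _ => ?_
    rw [Matrix.mul_smul, mul_vecMulVec, hXu _ _ (hZe k)]; simp
  set σ' : ℕ → ℝ := fun m => if h : m < N then σ ⟨m, h⟩ else 0 with hσ'
  obtain ⟨f, hf0, hP, hR⟩ := exists_seq
    (S := Matrix (Fin d) (Fin d) ℝ × (Fin d → ℕ) × Matrix (Fin d) (Fin d) ℝ × ℕ) N
    (fun m s => s.1 * s.1ᵀ = 1 ∧ Inv0 N (s.1 * Z m * D * (s.1 * Z m)ᵀ) s.2.1 s.2.2.1 ∧
      ∀ i, clock s.2.1 s.2.2.1 i ≤ 1 / 2)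
    (fun m s s' => (∀ r i, i < s'.2.2.2 → (s'.2.1 r = i ↔ s.2.1 r = i)) ∧
      (∀ r, s.2.1 r < s'.2.2.2 → ∀ y : Fin n → ℝ, (∀ k : Fin N, m ≤ k → y (e k) = 0) →
        Pge s.2.1 (s.2.1 r) *ᵥ ((s.1 * Z m) *ᵥ y) = s.2.2.1 r →
        Pge s'.2.1 (s.2.1 r) *ᵥ ((s'.1 * Z (m + 1)) *ᵥ y) = s'.2.2.1 r) ∧
      lam s'.2.2.2 / 2 ≤ Theta N (s.1 * Z m * D * (s.1 * Z m)ᵀ) s.2.1 s.2.2.1 -
        Theta N (s'.1 * Z (m + 1) * D * (s'.1 * Z (m + 1))ᵀ) s'.2.1 s'.2.2.1 +
        30000 * σ' m + 65 * lam N)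
    (1, fun _ => N, 1, 0) (by
    simp only [Matrix.one_mul, hZD, Matrix.zero_mul, transpose_one, true_and, clock_init]
    exact ⟨inv0_init d N, fun _ => by norm_num⟩) (by
    rintro m hm ⟨O, lev, L, c⟩ ⟨hO, hI, hc⟩
    simp only at hO hI hc
    have hO' : Oᵀ * O = 1 := mul_eq_one_comm.mp hO
    set k : Fin N := ⟨m, hm⟩ with hk
    have h1 : Z (m + 1) = T k * Oᵀ * (O * Z m) + vecMulVec (w k) (u k) := by
      rw [Matrix.mul_assoc, ← Matrix.mul_assoc Oᵀ, hO', Matrix.one_mul]; exact hZ k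
    have h2 : (O * Z m) *ᵥ u k = 0 := by
      rw [← mulVec_mulVec, hXu _ _ (hcol m hm.le k le_rfl), mulVec_zero]
    have h3 := gram_step (T k * Oᵀ) (O * Z m) D (w k) (u k) (σ k) hDs (hDu k) (huu k) h2
    rw [← h1] at h3
    have h4 : T k * Oᵀ * (T k * Oᵀ)ᵀ + vecMulVec (w k) (w k) = 1 := by
      rw [transpose_mul, transpose_transpose, Matrix.mul_assoc, ← Matrix.mul_assoc Oᵀ, hO',
        Matrix.one_mul, hT]
    obtain ⟨W, lev', L', c', a1, a2, a3, a4, a5, a6⟩ := step hI hc h4 (hw k) (hσ k) (fun z => by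
      rw [← h3, qf_conj']
      have := hDle ((Z (m + 1))ᵀ *ᵥ z)
      rw [sq_T_mulVec (hZZ _ hm)] at this
      linarith [sq_nonneg' z])
    have h5 : W * (Z (m + 1) * D * (Z (m + 1))ᵀ) * Wᵀ =
        W * Z (m + 1) * D * (W * Z (m + 1))ᵀ := by
      rw [transpose_mul]; simp only [Matrix.mul_assoc]
    rw [← h3, h5] at a2 a6
    refine ⟨(W, lev', L', c'), ⟨a1, a2, a3⟩, a4, fun r hr y hy h => ?_, ?_⟩
    · have := a5 r hr _ h
      simp only
      rw [← this, ← mulVec_mulVec y W, h1, add_mulVec, vecMulVec_mulVec]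
      have : u k ⬝ᵥ y = 0 := by simp [hu, hy k le_rfl]
      simp [this, mulVec_mulVec, Matrix.mul_assoc]
    · have : σ' m = σ k := dif_pos hm
      rw [this]; exact a6)
  set X : ℕ → Matrix (Fin d) (Fin n) ℝ := fun m => (f m).1 * Z m with hX
  set lev : ℕ → Fin d → ℕ := fun m => (f m).2.1 with hlev
  set L : ℕ → Matrix (Fin d) (Fin d) ℝ := fun m => (f m).2.2.1 with hL
  set casc : ℕ → ℕ := fun m => (f m).2.2.2 with hcasc
  have hI : ∀ m ≤ N, Inv0 N (X m * D * (X m)ᵀ) (lev m) (L m) := fun m hm => (hP m hm).2.1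
  have hXX' : ∀ m ≤ N, X m * (X m)ᵀ = 1 := fun m hm => hXX m hm _ (hP m hm).1
  have hY : ∀ m r, (L m * X m) r = (X m)ᵀ *ᵥ L m r := fun m r => by
    rw [mulVec_transpose]; rfl
  have hsq : ∀ m ≤ N, ∀ r, sq ((L m * X m) r) = sq (L m r) := fun m hm r => by
    rw [hY, sq_T_mulVec (hXX' m hm)]
  have hcross : ∀ a r m, a ≤ m → m ≤ N → (∀ t, a < t → t ≤ m → lev a r < casc t) →
      lev m r = lev a r ∧ Pge (lev m) (lev a r) *ᵥ (X m *ᵥ (L a * X a) r) = L m r := by
    intro a r m ham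
    induction m, ham using Nat.le_induction with
    | base =>
      intro hm _
      refine ⟨rfl, ?_⟩
      rw [hY, mulVec_mulVec (L a r) (X a), hXX' a hm, one_mulVec, Pge_row (hI a hm).supp r le_rfl]
    | succ m ham ih =>
      intro hm ht
      obtain ⟨i1, i2⟩ := ih (by omega) fun t h1 h2 => ht t h1 (by omega)
      obtain ⟨r1, r2, -⟩ := hR m hm
      have h1 : lev a r < casc (m + 1) := ht _ (by omega) le_rfl
      refine ⟨(r1 r _ h1).mpr i1, ?_⟩
      rw [← i1] at h1 i2 ⊢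
      refine r2 r h1 _ (fun k hk => ?_) i2
      rw [mul_apply]
      refine Finset.sum_eq_zero fun b _ => ?_
      simp only [hX, mul_apply, hcol a (by omega) k (by omega), mul_zero, Finset.sum_const_zero]
  obtain ⟨A, hA, M, r, c1, c2, c3, c4⟩ := hcert d n N N N e σ (fun m => L m * X m) lev casc 60131
    hσ (by simp only [hcasc, hf0]) (fun m hm => (hI m hm).le) (fun m hm => (hR m hm).1)
    (fun a m ham hm r ht => by
      obtain ⟨i1, i2⟩ := hcross a r m ham hm ht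
      have : (L m * X m) r ⬝ᵥ (L a * X a) r = sq ((L m * X m) r) := by
        rw [hsq m hm, hY m, ← dot_mulVec_comm, sq_eq]
        conv_lhs => rw [← Pge_row (hI m hm).supp r i1.ge, ← dot_Pge, i2]
      rw [sq_eq, sq_eq ((L a * X a) r)]
      simp only [sub_dotProduct, dotProduct_sub]
      rw [dotProduct_comm ((L a * X a) r) ((L m * X m) r), this, ← sq_eq]; ring)
    (fun m hm r => by rw [hsq m hm]; exact sq_row_le (hI m hm).contr r)
    (fun m hm i => by simp only [hsq m hm]; exact (hP m hm).2.2 i)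
    (fun m hm r => by
      have h1 := (hI m hm).U _ ((hI m hm).le r) _ (Pge_row (hI m hm).supp r le_rfl)
      rw [qf_conj', hDq, ← hY] at h1
      have h2 := sq_row_le (hI m hm).contr r
      have h3 := lam_pos (lev m r)
      refine h1.trans ?_
      change _ ≤ 2 * lam (lev m r)
      nlinarith)
    (by
      have h1 := Finset.sum_le_sum fun m (hm : m ∈ range N) => (hR m (mem_range.mp hm)).2.2
      rw [Finset.sum_add_distrib, Finset.sum_add_distrib, Finset.sum_range_sub'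
        (fun m => Theta N (X m * D * (X m)ᵀ) (lev m) (L m)), ← Finset.mul_sum,
        ← Finset.sum_div, Finset.sum_const, card_range, nsmul_eq_mul] at h1
      have h2 : ∑ m ∈ range N, σ' m = 1 := by
        rw [← hσ1, ← Fin.sum_univ_eq_sum_range]
        exact Finset.sum_congr rfl fun k _ => dif_pos k.2
      have h3 := Theta_nonneg (hI N le_rfl)
      have h4 : Theta N (X 0 * D * (X 0)ᵀ) (lev 0) (L 0) = 0 := by
        simp only [hX, hlev, hL, hf0, Matrix.one_mul, hZD, Matrix.zero_mul, theta_init]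
      have h5 : (N : ℝ) * lam N ≤ 1 := by
        have : (N : ℝ) ≤ 2 ^ N := by exact_mod_cast (Nat.lt_two_pow_self (n := N)).le
        rw [lam, one_div, inv_pow, ← div_eq_mul_inv, div_le_one (by positivity)]; exact this
      rw [Finset.sum_range_succ']
      have h6 : casc 0 = 0 := by simp only [hcasc, hf0]
      rw [h6, pow_zero]
      change ∑ m ∈ range N, lam (f (m + 1)).2.2.2 + 1 ≤ _
      linarith)
  refine ⟨A, hA, M, r, c1, c2, c3.trans (le_of_eq (mul_comm _ _)), fun θ hθ m hm => ?_⟩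
  have h1 := c4 θ hθ m hm
  have h2 := sq_le_two (hI m hm) (hP m hm).2.2 (X m *ᵥ θ)
  rw [mulVec_mulVec] at h2
  have h3 : sq (X m *ᵥ θ) = sq (Z m *ᵥ θ) := by
    simp only [hX]; rw [← mulVec_mulVec, sq_orth (hP m hm).1]
  have h4 : (0 : ℝ) ≤ C * d := by positivity
  linarith

end Crest.Agent.R239
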