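import Crest.Agent.R239.Stmts

set_option autoImplicit false

open MeasureTheory Matrix Finset
open scoped ENNReal

namespace Crest.Agent.R239

namespace KL

variable {n : ℕ}

/-- `y` is `m` times a point of `K` -/
def In (m : ℝ) (K : Set (Fin n → ℝ)) (y : Fin n → ℝ) : Prop := ∃ z, (m ≠ 0 → z ∈ K) ∧ y = m • z

lemma In.add {K : Set (Fin n → ℝ)} (hK : Convex ℝ K) {m m' : ℝ} (hm : 0 ≤ m) (hm' : 0 ≤ m')
    {y y' : Fin n → ℝ} (h : In m K y) (h' : In m' K y') : In (m + m') K (y + y') := by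
  obtain ⟨z, hz, rfl⟩ := h
  obtain ⟨z', hz', rfl⟩ := h'
  by_cases e : m = 0
  · subst e; exact ⟨z', by simpa using hz', by simp⟩
  by_cases e' : m' = 0
  · subst e'; exact ⟨z, by simpa using hz, by simp⟩
  have hp : 0 < m + m' := add_pos_of_pos_of_nonneg (lt_of_le_of_ne hm (Ne.symm e)) hm'
  refine ⟨(m / (m + m')) • z + (m' / (m + m')) • z', fun _ => hK (hz e) (hz' e') (by positivity)
    (by positivity) (by field_simp), ?_⟩
  rw [smul_add, smul_smul, smul_smul, mul_div_cancel₀ _ hp.ne', mul_div_cancel₀ _ hp.ne']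

lemma four (a b a' b' : ℝ≥0∞) :
    min a a' + min b b' ≤ min (max a b) (max a' b') + min (min a b) (min a' b') := by
  rcases le_total (min a a') (min b b') with h | h
  · rw [add_comm]
    refine add_le_add (le_min ((min_le_left _ _).trans (le_max_right _ _))
      ((min_le_right _ _).trans (le_max_right _ _))) ?_
    exact le_min (le_min (min_le_left _ _) (h.trans (min_le_left _ _)))
      (le_min (min_le_right _ _) (h.trans (min_le_right _ _)))
  · refine add_le_add (le_min ((min_le_left _ _).trans (le_max_left _ _))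
      ((min_le_right _ _).trans (le_max_left _ _))) ?_
    exact le_min (le_min (h.trans (min_le_left _ _)) (min_le_left _ _))
      (le_min (h.trans (min_le_right _ _)) (min_le_right _ _))

/-- the two halves -/
noncomputable def half (P : (Fin n → ℝ) → ℝ≥0∞) (V : Fin n → ℝ) (b : Bool) (x : Fin n → ℝ) : ℝ≥0∞ :=
  2⁻¹ * if b then max (P (x + V)) (P (x - V)) else min (P (x + V)) (P (x - V))

lemma meas_half {P : (Fin n → ℝ) → ℝ≥0∞} (hP : Measurable P) (V : Fin n → ℝ) (b : Bool) :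
    Measurable (half P V b) := by
  unfold half; cases b <;> simp only [if_true, Bool.false_eq_true, if_false] <;> fun_prop

lemma two_half (m : ℝ≥0∞) : 2⁻¹ * (m + m) = m := by
  rw [← two_mul, ← mul_assoc, ENNReal.inv_mul_cancel (by norm_num) (by norm_num), one_mul]

lemma mass_half {P : (Fin n → ℝ) → ℝ≥0∞} (hP : Measurable P) (V : Fin n → ℝ) :
    (∫⁻ x, half P V true x) + ∫⁻ x, half P V false x = ∫⁻ x, P x := by
  rw [← lintegral_add_left (meas_half hP V true)]
  simp only [half, if_true, Bool.false_eq_true, if_false, ← mul_add, max_add_min]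
  rw [lintegral_const_mul _ (by fun_prop), lintegral_add_left (by fun_prop),
    lintegral_add_right_eq_self, lintegral_sub_right_eq_self, two_half]

lemma mass_false {P : (Fin n → ℝ) → ℝ≥0∞} (hP : Measurable P) (V : Fin n → ℝ) :
    ∫⁻ x, half P V false x = 2⁻¹ * ovl P V := by
  simp only [half, Bool.false_eq_true, if_false]
  rw [lintegral_const_mul _ (by fun_prop), ovl]

lemma ovl_half {P : (Fin n → ℝ) → ℝ≥0∞} (hP : Measurable P) (V u : Fin n → ℝ) :
    ovl P u ≤ ovl (half P V true) u + ovl (half P V false) u := by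
  have h1 := meas_half hP V true
  have e1 : ∫⁻ x, min (P (x + V + u)) (P (x + V - u)) = ovl P u :=
    lintegral_add_right_eq_self (fun x => min (P (x + u)) (P (x - u))) V
  have e2 : ∫⁻ x, min (P (x - V + u)) (P (x - V - u)) = ovl P u :=
    lintegral_sub_right_eq_self (fun x => min (P (x + u)) (P (x - u))) V
  rw [← two_half (ovl P u)]
  nth_rw 1 [← e1]
  rw [← e2, ← lintegral_add_left (by fun_prop), ← lintegral_const_mul _ (by fun_prop)]
  unfold ovl
  rw [← lintegral_add_left (by fun_prop)]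
  refine lintegral_mono fun x => ?_
  simp only [half, if_true, Bool.false_eq_true, if_false, ← mul_min, ← mul_add]
  refine mul_le_mul_right ?_ _
  have a1 : x + V + u = x + u + V := by abel
  have a2 : x + V - u = x - u + V := by abel
  have a3 : x - V + u = x + u - V := by abel
  have a4 : x - V - u = x - u - V := by abel
  rw [a1, a2, a3, a4]
  exact four _ _ _ _

theorem fam (N : ℕ) : ∀ (U a : Fin N → Fin n → ℝ) (Ω : Type) [Fintype Ω]
    (K : Ω → Set (Fin n → ℝ)) (P : Ω → (Fin n → ℝ) → ℝ≥0∞), (∀ ω, Convex ℝ (K ω)) →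
    (∀ ω, ∀ x ∈ K ω, -x ∈ K ω) → (∀ ω, Measurable (P ω)) → (∀ ω x, P ω x ≠ 0 → x ∈ K ω) →
    ∑ ω, ∫⁻ x, P ω x = 1 → (∀ k, ENNReal.ofReal (7 / 8) ≤ ∑ ω, ovl (P ω) ((4 : ℝ) • U k)) →
    (∀ k ω, ∀ x ∈ K ω, |a k ⬝ᵥ x| ≤ 1 / 2) → (∀ k j, k ≤ j → a k ⬝ᵥ U j = 0) →
    ∃ (θ : Fin N → ℝ) (y : Ω → Fin n → ℝ), (∀ ω, In (∫⁻ x, P ω x).toReal (K ω) (y ω)) ∧
      ∑ ω, y ω = ∑ k, θ k • U k ∧
      ∀ k, θ k + a k ⬝ᵥ (∑ j, θ j • U j) = 1 ∨ θ k + a k ⬝ᵥ (∑ j, θ j • U j) = -1 := by
  induction N with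
  | zero =>
    intro U a Ω _ K P hK hs hP hsup _ _ _ _
    refine ⟨fun _ => 0, fun _ => 0, fun ω => ⟨0, fun h => ?_, by simp⟩, by simp, fun k => k.elim0⟩
    obtain ⟨x, hx⟩ : ∃ x, P ω x ≠ 0 := by
      by_contra h'
      push Not at h'
      simp [h'] at h
    have := hK ω (hsup ω x hx) (hs ω x (hsup ω x hx)) (a := 1 / 2) (b := 1 / 2) (by norm_num)
      (by norm_num) (by norm_num)
    simpa using this
  | succ N ih =>
    intro U a Ω _ K P hK hs hP hsup hm ho ha hz
    set V := U (Fin.last N) with hV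
    have haV : ∀ k, a k ⬝ᵥ V = 0 := fun k => hz k _ (Fin.le_last k)
    let K' : Ω × Bool → Set (Fin n → ℝ) := fun p =>
      if p.2 then {x | ∃ s : ℝ, |s| ≤ 4 ∧ x + s • V ∈ K p.1}
      else {x | x + (4 : ℝ) • V ∈ K p.1 ∧ x - (4 : ℝ) • V ∈ K p.1}
    have ha' : ∀ k p, ∀ x ∈ K' p, |a k ⬝ᵥ x| ≤ 1 / 2 := by
      rintro k ⟨ω, _ | _⟩ x hx
      · have := ha k ω _ hx.1
        rwa [dotProduct_add, dotProduct_smul, haV, smul_zero, add_zero] at this
      · obtain ⟨s, -, hx⟩ := hx
        have := ha k ω _ hx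
        rwa [dotProduct_add, dotProduct_smul, haV, smul_zero, add_zero] at this
    have hm' : ∑ p : Ω × Bool, ∫⁻ x, half (P p.1) ((4 : ℝ) • V) p.2 x = 1 := by
      rw [Fintype.sum_prod_type, ← hm]
      exact sum_congr rfl fun ω _ => by rw [Fintype.sum_bool, mass_half (hP ω)]
    obtain ⟨θ, y, h1, h2, h3⟩ := ih (fun k => U k.castSucc) (fun k => a k.castSucc) (Ω × Bool) K'
      (fun p => half (P p.1) ((4 : ℝ) • V) p.2) (by
        rintro ⟨ω, _ | _⟩
        · intro x hx x' hx' s t hs0 ht0 hst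
          refine ⟨?_, ?_⟩
          · convert hK ω hx.1 hx'.1 hs0 ht0 hst using 1
            rw [smul_add, smul_add, add_add_add_comm, ← add_smul s t, hst, one_smul]
          · convert hK ω hx.2 hx'.2 hs0 ht0 hst using 1
            rw [smul_sub, smul_sub, ← add_sub_add_comm, ← add_smul s t, hst, one_smul]
        · rintro x ⟨c, hc, hx⟩ x' ⟨c', hc', hx'⟩ s t hs0 ht0 hst
          refine ⟨s * c + t * c', ?_, ?_⟩
          · rw [abs_le] at *; constructor <;> nlinarith
          · convert hK ω hx hx' hs0 ht0 hst using 1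
            module) (by
        rintro ⟨ω, _ | _⟩ x hx
        · refine ⟨?_, ?_⟩
          · convert hs ω _ hx.2 using 1; abel
          · convert hs ω _ hx.1 using 1; abel
        · obtain ⟨c, hc, hx⟩ := hx
          refine ⟨-c, by rwa [abs_neg], ?_⟩
          convert hs ω _ hx using 1; module)
      (fun p => meas_half (hP _) _ _) (by
        rintro ⟨ω, _ | _⟩ x hx
        · simp only [half, Bool.false_eq_true, if_false, ne_eq, mul_eq_zero, not_or, min_eq_zero] at hx
          exact ⟨hsup _ _ hx.2.1, hsup _ _ hx.2.2⟩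
        · simp only [half, if_true, ne_eq, mul_eq_zero, not_or, max_eq_zero, not_and_or] at hx
          rcases hx.2 with h | h
          · exact ⟨4, by norm_num, hsup _ _ h⟩
          · exact ⟨-4, by norm_num, by simpa [sub_eq_add_neg] using hsup _ _ h⟩) hm'
      (fun k => (ho k.castSucc).trans (by
        rw [Fintype.sum_prod_type]
        exact sum_le_sum fun ω _ => by rw [Fintype.sum_bool]; exact ovl_half (hP ω) _ _))
      (fun k => ha' _) (fun k j h => hz _ _ (Fin.castSucc_le_castSucc_iff.2 h))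
    set m : Ω × Bool → ℝ := fun p => (∫⁻ x, half (P p.1) ((4 : ℝ) • V) p.2 x).toReal with hmdef
    have hfin : ∀ p : Ω × Bool, ∫⁻ x, half (P p.1) ((4 : ℝ) • V) p.2 x ≠ ⊤ := fun p =>
      ne_top_of_le_ne_top ENNReal.one_ne_top (hm' ▸ single_le_sum
        (f := fun p : Ω × Bool => ∫⁻ x, half (P p.1) ((4 : ℝ) • V) p.2 x)
        (fun _ _ => zero_le) (mem_univ p))
    have m0 : ∀ p, 0 ≤ m p := fun p => ENNReal.toReal_nonneg
    have m1 : ∑ p, m p = 1 := by
      simp only [hmdef]; rw [← ENNReal.toReal_sum fun p _ => hfin p, hm', ENNReal.toReal_one]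
    have mω : ∀ ω, m (ω, true) + m (ω, false) = (∫⁻ x, P ω x).toReal := fun ω => by
      simp only [hmdef]
      rw [← ENNReal.toReal_add (hfin (ω, true)) (hfin (ω, false)), mass_half (hP ω)]
    set β := ∑ ω, m (ω, false) with hβ
    have hβ0 : 7 / 16 ≤ β := by
      have e1 : β = (∑ ω, ∫⁻ x, half (P ω) ((4 : ℝ) • V) false x).toReal :=
        (ENNReal.toReal_sum fun ω _ => hfin (ω, false)).symm
      have e2 : ENNReal.ofReal (7 / 16) ≤ ∑ ω, ∫⁻ x, half (P ω) ((4 : ℝ) • V) false x := by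
        simp only [fun ω => mass_false (hP ω) ((4 : ℝ) • V), ← mul_sum]
        refine le_trans (le_of_eq ?_) (mul_le_mul_right (ho (Fin.last N)) _)
        rw [show (7 / 16 : ℝ) = 2⁻¹ * (7 / 8) by norm_num, ENNReal.ofReal_mul (by norm_num),
          ENNReal.ofReal_inv_of_pos (by norm_num)]
        simp
      rw [e1]
      exact (ENNReal.ofReal_le_iff_le_toReal (ENNReal.sum_ne_top.2 fun ω _ => hfin (ω, false))).1 e2
    have m2 : ∑ ω, m (ω, true) = 1 - β := by
      rw [← m1, Fintype.sum_prod_type]; simp only [Fintype.sum_bool, sum_add_distrib]; ring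
    choose z hz1 hz2 using h1
    have hs' : ∀ ω, ∃ s : ℝ, |s| ≤ 4 ∧ (m (ω, true) ≠ 0 → z (ω, true) + s • V ∈ K ω) := fun ω => by
      by_cases e : m (ω, true) = 0
      · exact ⟨0, by norm_num, fun h => absurd e h⟩
      · obtain ⟨s, h1, h2⟩ := hz1 (ω, true) e
        exact ⟨s, h1, fun _ => h2⟩
    choose s s1 s2 using hs'
    set sb := ∑ ω, m (ω, true) * s ω with hsb
    have hsb1 : |sb| ≤ 4 * (1 - β) := by
      rw [← m2, mul_sum]
      refine (abs_sum_le_sum_abs _ _).trans (sum_le_sum fun ω _ => ?_)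
      rw [abs_mul, abs_of_nonneg (m0 _), mul_comm]
      exact mul_le_mul_of_nonneg_right (s1 ω) (m0 _)
    set Y := ∑ k : Fin N, θ k • U k.castSucc with hY
    have hc : |a (Fin.last N) ⬝ᵥ Y| ≤ 1 / 2 := by
      rw [← h2, dotProduct_sum, show (1 / 2 : ℝ) = 1 / 2 * ∑ p, m p by rw [m1, mul_one], mul_sum]
      refine (abs_sum_le_sum_abs _ _).trans (sum_le_sum fun p _ => ?_)
      rw [hz2 p, dotProduct_smul, smul_eq_mul, abs_mul, abs_of_nonneg (m0 _), mul_comm]
      by_cases e : m p = 0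
      · change _ * m p ≤ _; simp [e]
      · exact mul_le_mul_of_nonneg_right (ha' _ p _ (hz1 p e)) (m0 _)
    obtain ⟨c, hc1, hc2⟩ : ∃ c : ℝ, |c - sb| ≤ 4 * β ∧
        (c + a (Fin.last N) ⬝ᵥ Y = 1 ∨ c + a (Fin.last N) ⬝ᵥ Y = -1) := by
      rw [abs_le] at hc hsb1
      rcases le_total 0 sb with h | h
      · exact ⟨1 - a (Fin.last N) ⬝ᵥ Y, abs_le.2 ⟨by linarith, by linarith⟩, Or.inl (by ring)⟩
      · exact ⟨-1 - a (Fin.last N) ⬝ᵥ Y, abs_le.2 ⟨by linarith, by linarith⟩, Or.inr (by ring)⟩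
    have hβp : 0 < β := by linarith
    set t := (c - sb) / β with ht
    have ht1 : |t| ≤ 4 := by rw [ht, abs_div, abs_of_pos hβp, div_le_iff₀ hβp]; exact hc1
    have hsum : ∑ k, (Fin.snoc θ c : Fin (N + 1) → ℝ) k • U k = Y + c • V := by
      rw [Fin.sum_univ_castSucc]; simp [hY, hV]
    refine ⟨Fin.snoc θ c, fun ω => m (ω, true) • (z (ω, true) + s ω • V) +
      m (ω, false) • (z (ω, false) + t • V), fun ω => ?_, ?_, fun k => ?_⟩
    · rw [← mω]
      refine In.add (hK ω) (m0 _) (m0 _) ⟨_, s2 ω, rfl⟩ ⟨_, fun e => ?_, rfl⟩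
      obtain ⟨g1, g2⟩ := hz1 (ω, false) e
      rw [abs_le] at ht1
      convert hK ω g1 g2 (a := (4 + t) / 8) (b := (4 - t) / 8) (by linarith) (by linarith)
        (by ring) using 1
      module
    · rw [hsum, ← h2, Fintype.sum_prod_type]
      have : c = sb + β * t := by rw [ht]; field_simp; ring
      rw [this, hsb, hβ, sum_mul, ← sum_add_distrib, sum_smul, ← sum_add_distrib]
      refine sum_congr rfl fun ω _ => ?_
      rw [Fintype.sum_bool, hz2, hz2]
      change _ = m (ω, true) • _ + m (ω, false) • _ + _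
      module
    · rw [hsum, dotProduct_add, dotProduct_smul, haV, smul_zero, add_zero]
      refine Fin.lastCases ?_ (fun k => ?_) k
      · simpa using hc2
      · simpa using h3 k

lemma ovl_le {P : (Fin n → ℝ) → ℝ≥0∞} (h : ∫⁻ x, P x = 1) (u : Fin n → ℝ) : ovl P u ≤ 1 := by
  rw [← h, ← lintegral_add_right_eq_self P u]
  exact lintegral_mono fun x => min_le_left _ _

end KL

open KL

theorem kl : KLStmt := by
  intro n N U a K hK hs P hP _ hsup hm ho ha hz
  obtain ⟨θ, y, h1, h2, h3⟩ := fam N U a Unit (fun _ => K) (fun _ => P) (fun _ => hK) (fun _ => hs)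
    (fun _ => hP) (fun _ => hsup) (by simpa using hm)
    (fun k => by simpa using ENNReal.ofReal_le_of_le_toReal (ho k)) (fun k _ => ha k) hz
  refine ⟨θ, ?_, h3⟩
  obtain ⟨z, hz1, hz2⟩ := h1 ()
  rw [hm] at hz1 hz2
  rw [← h2]
  simpa [hz2] using hz1

theorem minimax : MinimaxStmt := by
  intro n N hN u K h
  by_contra hcon
  let T : Set (Fin N → ℝ) := {t | ∃ P : (Fin n → ℝ) → ℝ≥0∞, Measurable P ∧ (∀ x, P (-x) = P x) ∧
    (∀ x, P x ≠ 0 → x ∈ K) ∧ ∫⁻ x, P x = 1 ∧ ∀ k, 1 - (ovl P (u k)).toReal ≤ t k}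
  let O : Set (Fin N → ℝ) := Set.pi Set.univ fun _ => Set.Iio (1 / 8)
  have hT : Convex ℝ T := by
    rintro t ⟨P, p1, p2, p3, p4, p5⟩ t' ⟨Q, q1, q2, q3, q4, q5⟩ a b ha hb hab
    have e1 : ∫⁻ x, ENNReal.ofReal a * P x + ENNReal.ofReal b * Q x = 1 := by
      rw [lintegral_add_left (by fun_prop), lintegral_const_mul _ p1, lintegral_const_mul _ q1, p4, q4,
        mul_one, mul_one, ← ENNReal.ofReal_add ha hb, hab, ENNReal.ofReal_one]
    refine ⟨fun x => ENNReal.ofReal a * P x + ENNReal.ofReal b * Q x, by fun_prop,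
      fun x => by simp only [p2, q2], fun x hx => ?_, e1, fun k => ?_⟩
    · by_contra h'
      have g1 : P x = 0 := by by_contra g; exact h' (p3 x g)
      have g2 : Q x = 0 := by by_contra g; exact h' (q3 x g)
      simp [g1, g2] at hx
    · have e2 : ENNReal.ofReal a * ovl P (u k) + ENNReal.ofReal b * ovl Q (u k) ≤
          ovl (fun x => ENNReal.ofReal a * P x + ENNReal.ofReal b * Q x) (u k) := by
        unfold ovl
        rw [← lintegral_const_mul _ (by fun_prop), ← lintegral_const_mul _ (by fun_prop),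
          ← lintegral_add_left (by fun_prop)]
        exact lintegral_mono fun x => le_min
          (add_le_add (mul_le_mul_right (min_le_left _ _) _) (mul_le_mul_right (min_le_left _ _) _))
          (add_le_add (mul_le_mul_right (min_le_right _ _) _) (mul_le_mul_right (min_le_right _ _) _))
      have f1 := ne_top_of_le_ne_top ENNReal.one_ne_top (ovl_le p4 (u k))
      have f2 := ne_top_of_le_ne_top ENNReal.one_ne_top (ovl_le q4 (u k))
      have e3 := ENNReal.toReal_mono (ne_top_of_le_ne_top ENNReal.one_ne_top (ovl_le e1 (u k))) e2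
      rw [ENNReal.toReal_add (ENNReal.mul_ne_top ENNReal.ofReal_ne_top f1)
        (ENNReal.mul_ne_top ENNReal.ofReal_ne_top f2), ENNReal.toReal_mul, ENNReal.toReal_mul,
        ENNReal.toReal_ofReal ha, ENNReal.toReal_ofReal hb] at e3
      simp only [Pi.add_apply, Pi.smul_apply, smul_eq_mul]
      nlinarith [mul_le_mul_of_nonneg_left (p5 k) ha, mul_le_mul_of_nonneg_left (q5 k) hb]
  obtain ⟨f, c, f1, f2⟩ := geometric_hahn_banach_open (s := O) (t := T)
    (convex_pi fun _ _ => convex_Iio _) (isOpen_set_pi Set.finite_univ fun _ _ => isOpen_Iio) hT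
    (Set.disjoint_left.2 fun t ht ⟨P, p1, p2, p3, p4, p5⟩ => hcon ⟨P, p1, p2, p3, p4, fun k => by
      have := ht k (Set.mem_univ k)
      simp only [Set.mem_Iio] at this
      linarith [p5 k]⟩)
  set σ : Fin N → ℝ := fun k => f (Pi.single k 1) with hσ
  have hf : ∀ t, f t = ∑ k, σ k * t k := fun t => by
    conv_lhs => rw [pi_eq_sum_univ' t, map_sum]
    exact sum_congr rfl fun k _ => by rw [map_smul, smul_eq_mul, mul_comm]
  have c0 : 0 < c := by simpa using f1 0 fun k _ => by simp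
  have σ0 : ∀ k, 0 ≤ σ k := fun k => by
    by_contra h'
    push Not at h'
    have := f1 ((c / σ k) • Pi.single k 1) fun j _ => by
      have : c / σ k < 0 := div_neg_of_pos_of_neg c0 h'
      simp only [Pi.smul_apply, smul_eq_mul, Set.mem_Iio, Pi.single_apply]
      split_ifs <;> linarith
    rw [map_smul, smul_eq_mul] at this
    change c / σ k * σ k < c at this
    rw [div_mul_cancel₀ _ h'.ne] at this
    exact lt_irrefl _ this
  have mem : ∀ τ : Fin N → ℝ, (∀ k, 0 ≤ τ k) → ∑ k, τ k = 1 → ∃ t : Fin N → ℝ,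
      c ≤ ∑ k, σ k * t k ∧ ∑ k, τ k * t k ≤ 1 / 16 := fun τ h0 h1 => by
    obtain ⟨P, p1, p2, p3, p4, p5⟩ := h τ h0 h1
    exact ⟨_, hf _ ▸ f2 _ ⟨P, p1, p2, p3, p4, fun k => le_rfl⟩, p5⟩
  set S := ∑ k, σ k with hS
  have S0 : 0 < S := by
    refine lt_of_le_of_ne (sum_nonneg fun k _ => σ0 k) fun e => ?_
    have := (sum_eq_zero_iff_of_nonneg fun k _ => σ0 k).1 e.symm
    obtain ⟨t, t1, -⟩ := mem (Pi.single ⟨0, hN⟩ 1)
      (fun k => by simp only [Pi.single_apply]; split_ifs <;> norm_num) (by simp)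
    rw [sum_eq_zero fun k hk => by rw [this k hk, zero_mul]] at t1
    linarith
  obtain ⟨t, t1, t2⟩ := mem (fun k => σ k / S) (fun k => div_nonneg (σ0 k) S0.le)
    (by rw [← sum_div, div_self S0.ne'])
  have := f1 (fun _ => 3 / 32) fun k _ => by simp only [Set.mem_Iio]; norm_num
  rw [hf, ← sum_mul] at this
  simp only [div_mul_eq_mul_div, ← sum_div] at t2
  rw [div_le_iff₀ S0] at t2
  linarith

end Crest.Agent.R239
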