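import Crest.Agent.R239.Lin2

/-! Contractions and quadratic forms for row 239. -/

set_option autoImplicit false
set_option linter.unusedSectionVars false

open Matrix Finset

namespace Crest.Agent.R239

variable {n : Type*} [Fintype n] [DecidableEq n]

/-- Quadratic form of a matrix. -/
def qf (G : Matrix n n ℝ) (z : n → ℝ) : ℝ := z ⬝ᵥ (G *ᵥ z)

theorem bil_symm {G : Matrix n n ℝ} (hG : Gᵀ = G) (x y : n → ℝ) :
    x ⬝ᵥ (G *ᵥ y) = y ⬝ᵥ (G *ᵥ x) := by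
  rw [dot_mulVec_comm, hG, dotProduct_comm]

theorem qf_add {G : Matrix n n ℝ} (hG : Gᵀ = G) (x y : n → ℝ) :
    qf G (x + y) = qf G x + 2 * (x ⬝ᵥ (G *ᵥ y)) + qf G y := by
  simp only [qf, mulVec_add, add_dotProduct, dotProduct_add]
  rw [bil_symm hG y x]; ring

theorem qf_sub {G : Matrix n n ℝ} (hG : Gᵀ = G) (x y : n → ℝ) :
    qf G (x - y) = qf G x - 2 * (x ⬝ᵥ (G *ᵥ y)) + qf G y := by
  simp only [qf, mulVec_sub, sub_dotProduct, dotProduct_sub]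
  rw [bil_symm hG y x]; ring

theorem qf_smul (G : Matrix n n ℝ) (c : ℝ) (x : n → ℝ) : qf G (c • x) = c ^ 2 * qf G x := by
  simp only [qf, mulVec_smul, smul_dotProduct, dotProduct_smul, smul_eq_mul]; ring

theorem qf_add_le {G : Matrix n n ℝ} (hG : Gᵀ = G) (hp : ∀ z, 0 ≤ qf G z) (x y : n → ℝ) :
    qf G (x + y) ≤ 3 * qf G x + 3 / 2 * qf G y := by
  have h := hp ((2 : ℝ) • x - y)
  rw [qf_sub hG, qf_smul, smul_dotProduct, smul_eq_mul] at h
  rw [qf_add hG]; linarith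

theorem qf_conj (B G : Matrix n n ℝ) (z : n → ℝ) : qf (B * G * Bᵀ) z = qf G (Bᵀ *ᵥ z) := by
  simp only [qf]
  rw [← mulVec_mulVec, ← mulVec_mulVec, dot_mulVec_comm]

theorem qf_madd (G H : Matrix n n ℝ) (z : n → ℝ) : qf (G + H) z = qf G z + qf H z := by
  simp only [qf, add_mulVec, dotProduct_add]

theorem qf_msub (G H : Matrix n n ℝ) (z : n → ℝ) : qf (G - H) z = qf G z - qf H z := by
  simp only [qf, sub_mulVec, dotProduct_sub]

theorem qf_vv (c : ℝ) (w z : n → ℝ) : qf (c • vecMulVec w w) z = c * (w ⬝ᵥ z) ^ 2 := by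
  simp only [qf, smul_mulVec, vv_mulVec, dotProduct_smul, smul_eq_mul]
  rw [dotProduct_comm z w]; ring

theorem qf_diag (μ z : n → ℝ) : qf (diagonal μ) z = ∑ a, μ a * z a ^ 2 := by
  simp only [qf, dotProduct, mulVec_diagonal]
  exact Finset.sum_congr rfl fun a _ => by ring

theorem qf_single (G : Matrix n n ℝ) (a : n) : qf G (Pi.single a 1) = G a a := by
  simp [qf]

theorem qf_le_trace {M : Matrix n n ℝ} (hM : Mᵀ = M) (hp : ∀ z, 0 ≤ qf M z) (z : n → ℝ) :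
    qf M z ≤ trace M * sq z := by
  obtain ⟨V, hV, -, hD⟩ := exists_blockdiag M hM (fun _ => True)
  have hV' : Vᵀ * V = 1 := mul_eq_one_comm.mp hV
  set μ : n → ℝ := fun a => (V * M * Vᵀ) a a with hμ
  have hd : V * M * Vᵀ = diagonal μ := by
    ext a b
    by_cases h : a = b
    · subst h; simp [hμ]
    · rw [diagonal_apply_ne _ h]; exact hD a b trivial trivial h
  have hμ0 : ∀ a, 0 ≤ μ a := fun a => by
    have := hp (Vᵀ *ᵥ Pi.single a 1)
    rwa [← qf_conj, qf_single] at this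
  have h1 : qf M z = ∑ a, μ a * (V *ᵥ z) a ^ 2 := by
    rw [← qf_diag, ← hd, qf_conj, mulVec_mulVec, hV', one_mulVec]
  have h2 : trace M = ∑ a, μ a := by
    have : trace (V * M * Vᵀ) = trace M := by
      rw [trace_mul_comm, ← Matrix.mul_assoc, hV', Matrix.one_mul]
    rw [← this, hd, trace_diagonal]
  rw [h1, h2, ← sq_orth hV z, Finset.sum_mul]
  refine Finset.sum_le_sum fun a _ => mul_le_mul_of_nonneg_left ?_ (hμ0 a)
  exact Finset.single_le_sum (f := fun i => (V *ᵥ z) i ^ 2) (fun i _ => sq_nonneg _) (mem_univ a)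

/-- A lossless step is a contraction, with the loss seen along `w`. -/
theorem contr_v {B P : Matrix n n ℝ} {w : n → ℝ} (h : B * Bᵀ = P - vecMulVec w w)
    (hP : P * B = B) (u : n → ℝ) : sq (B *ᵥ u) + (w ⬝ᵥ (B *ᵥ u)) ^ 2 ≤ sq u := by
  set u' := B *ᵥ u with hu'
  have h1 : sq (Bᵀ *ᵥ u') = sq u' - (w ⬝ᵥ u') ^ 2 := by
    rw [sq_mulVec, transpose_transpose, h, sub_mulVec, vv_mulVec, dotProduct_sub, dotProduct_smul,
      hu', mulVec_mulVec, hP, ← hu', sq_eq, dotProduct_comm u' w, smul_eq_mul]; ring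
  have h2 : sq u' = u ⬝ᵥ (Bᵀ *ᵥ u') := by
    rw [sq_eq, dot_mulVec_comm Bᵀ, transpose_transpose]
  have h3 := two_dot_le u (Bᵀ *ᵥ u')
  linarith

theorem fr_mul_cols (B D : Matrix n n ℝ) : fr (B * D) = ∑ j, sq (B *ᵥ (Dᵀ j)) := by
  rw [← fr_transpose, fr_eq_rows]
  refine Finset.sum_congr rfl fun j _ => ?_
  congr 1

theorem fr_drop {B P C : Matrix n n ℝ} {w : n → ℝ} (h : B * Bᵀ = P - vecMulVec w w)
    (hP : P * B = B) (hC : Cᵀ = C) :
    fr (B * C * Bᵀ) + sq ((B * C * Bᵀ) *ᵥ w) ≤ fr C := by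
  have h1 : fr (B * C) ≤ fr C := by
    rw [fr_mul_cols, ← fr_transpose C, fr_eq_rows]
    exact Finset.sum_le_sum fun j _ => by
      have := contr_v h hP (Cᵀ j); nlinarith [sq_nonneg (w ⬝ᵥ (B *ᵥ Cᵀ j))]
  have h2 : fr (C * Bᵀ) = fr (B * C) := by
    rw [← fr_transpose, transpose_mul, transpose_transpose, hC]
  have h3 : sq ((B * C * Bᵀ) *ᵥ w) = ∑ j, (w ⬝ᵥ (B *ᵥ ((C * Bᵀ)ᵀ j))) ^ 2 := by
    have hs : (B * C * Bᵀ)ᵀ = B * C * Bᵀ := by
      simp [transpose_mul, hC, Matrix.mul_assoc]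
    rw [← hs, sq]
    refine Finset.sum_congr rfl fun j _ => ?_
    congr 1
    rw [Matrix.mul_assoc, dotProduct_comm]
    rfl
  rw [h3, Matrix.mul_assoc, fr_mul_cols, ← Finset.sum_add_distrib]
  calc _ ≤ ∑ j, sq ((C * Bᵀ)ᵀ j) := Finset.sum_le_sum fun j _ => contr_v h hP _
    _ = fr (C * Bᵀ) := by rw [← fr_eq_rows, fr_transpose]
    _ ≤ fr C := h2 ▸ h1

theorem loss_le {B : Matrix n n ℝ} {w : n → ℝ} (h : B * Bᵀ = 1 - vecMulVec w w)
    (hw : sq w ≤ 1 / 4) (u : n → ℝ) : 3 * (sq u - sq (B *ᵥ u)) ≤ 4 * (w ⬝ᵥ (B *ᵥ u)) ^ 2 := by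
  have hBB : ∀ f, sq (Bᵀ *ᵥ f) = sq f - (w ⬝ᵥ f) ^ 2 := fun f => by
    rw [sq_mulVec, transpose_transpose, h, sub_mulVec, vv_mulVec, one_mulVec, dotProduct_sub,
      dotProduct_smul, sq_eq, dotProduct_comm f w, smul_eq_mul]; ring
  have hinj : Function.Injective (Matrix.toLin' Bᵀ) := by
    rw [← LinearMap.ker_eq_bot, LinearMap.ker_eq_bot']
    intro f hf
    rw [Matrix.toLin'_apply] at hf
    have h1 := hBB f
    rw [hf] at h1
    have h2 := dot_sq_le w f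
    have h3 : sq (0 : n → ℝ) = 0 := by simp [sq]
    have h4 := sq_nonneg' f
    have h5 : sq f = 0 := by nlinarith
    rw [sq_eq] at h5
    exact dotProduct_self_eq_zero.mp h5
  obtain ⟨f, hf⟩ := (LinearMap.injective_iff_surjective.mp hinj) u
  rw [Matrix.toLin'_apply] at hf
  have hBu : B *ᵥ u = f - (w ⬝ᵥ f) • w := by
    rw [← hf, mulVec_mulVec, h, sub_mulVec, one_mulVec, vv_mulVec]
  have h1 : sq u = sq f - (w ⬝ᵥ f) ^ 2 := by rw [← hf, hBB]
  have h2 : sq (B *ᵥ u) = sq f - 2 * (w ⬝ᵥ f) ^ 2 + (w ⬝ᵥ f) ^ 2 * sq w := by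
    rw [hBu, sq_eq, sq_eq, sq_eq]
    simp only [sub_dotProduct, dotProduct_sub, smul_dotProduct, dotProduct_smul, smul_eq_mul]
    rw [dotProduct_comm f w]; ring
  have h3 : w ⬝ᵥ (B *ᵥ u) = (w ⬝ᵥ f) * (1 - sq w) := by
    rw [hBu, sq_eq]
    simp only [dotProduct_sub, dotProduct_smul, smul_eq_mul]; ring
  rw [h1, h2, h3]
  have h4 := sq_nonneg' w
  have h5 := sq_nonneg (w ⬝ᵥ f)
  have h6 : 3 * (1 - sq w) ≤ 4 * (1 - sq w) ^ 2 := by nlinarith
  nlinarith [mul_le_mul_of_nonneg_left h6 h5]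

end Crest.Agent.R239
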