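import Crest.Agent.R239.Lin3

/-! State, invariants and potential of the flag process (row 239). -/

set_option autoImplicit false
set_option linter.unusedSectionVars false

open Matrix Finset

namespace Crest.Agent.R239

variable {d : ℕ}

noncomputable def lam (i : ℕ) : ℝ := (1 / 2 : ℝ) ^ i

theorem lam_pos (i : ℕ) : 0 < lam i := by unfold lam; positivity

theorem lam_succ (i : ℕ) : lam (i + 1) = lam i / 2 := by unfold lam; ring

theorem lam_anti {i j : ℕ} (h : i ≤ j) : lam j ≤ lam i :=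
  pow_le_pow_of_le_one (by norm_num) (by norm_num) h

/-- Projection onto the coordinates of level at least `i`. -/
def Pge (lev : Fin d → ℕ) (i : ℕ) : Matrix (Fin d) (Fin d) ℝ :=
  diagonal fun a => if i ≤ lev a then 1 else 0

def band (lev : Fin d → ℕ) (i : ℕ) : Finset (Fin d) := univ.filter fun r => lev r = i

/-- Band part of a vector. -/
def bp (lev : Fin d → ℕ) (i : ℕ) (z : Fin d → ℝ) : Fin d → ℝ :=
  fun a => if lev a = i then z a else 0

def clock (lev : Fin d → ℕ) (L : Matrix (Fin d) (Fin d) ℝ) (i : ℕ) : ℝ :=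
  ∑ r ∈ band lev i, (1 - sq (L r))

noncomputable def term (G : Matrix (Fin d) (Fin d) ℝ) (lev : Fin d → ℕ) (i : ℕ) : ℝ :=
  fr (Pge lev i * G * Pge lev i) / lam i + lam i * (d - trace (Pge lev i))

noncomputable def Theta (Lv : ℕ) (G : Matrix (Fin d) (Fin d) ℝ) (lev : Fin d → ℕ)
    (L : Matrix (Fin d) (Fin d) ℝ) : ℝ :=
  768 * ∑ i ∈ range (Lv + 1), term G lev i + ∑ i ∈ range Lv, lam i * clock lev L i

/-- Upper bound of the compression to levels `≥ i`. -/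
def UB (G : Matrix (Fin d) (Fin d) ℝ) (lev : Fin d → ℕ) (i : ℕ) : Prop :=
  ∀ z, Pge lev i *ᵥ z = z → qf G z ≤ 2 * lam i * sq z

structure Inv0 (Lv : ℕ) (G : Matrix (Fin d) (Fin d) ℝ) (lev : Fin d → ℕ)
    (L : Matrix (Fin d) (Fin d) ℝ) : Prop where
  sym : Gᵀ = G
  psd : ∀ z, 0 ≤ qf G z
  le : ∀ a, lev a ≤ Lv
  U : ∀ i ≤ Lv, UB G lev i
  Lo : ∀ i < Lv, ∀ z, Pge lev i *ᵥ z = z →
    lam (i + 1) * ∑ r ∈ band lev i, (L r ⬝ᵥ z) ^ 2 ≤ qf G z
  supp : ∀ r c, lev c ≠ lev r → L r c = 0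
  contr : ∀ i z, ∑ r ∈ band lev i, (L r ⬝ᵥ z) ^ 2 ≤ sq z

theorem mem_band {lev : Fin d → ℕ} {i : ℕ} {r : Fin d} : r ∈ band lev i ↔ lev r = i := by
  simp [band]

theorem Pge_apply (lev : Fin d → ℕ) (i : ℕ) (z : Fin d → ℝ) (a : Fin d) :
    (Pge lev i *ᵥ z) a = if i ≤ lev a then z a else 0 := by
  simp [Pge, mulVec_diagonal]

theorem Pge_T (lev : Fin d → ℕ) (i : ℕ) : (Pge lev i)ᵀ = Pge lev i := diagonal_transpose _

theorem Pge_mul {lev : Fin d → ℕ} {i j : ℕ} (h : i ≤ j) : Pge lev i * Pge lev j = Pge lev j := by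
  simp only [Pge, diagonal_mul_diagonal]
  congr 1; ext a
  by_cases h1 : j ≤ lev a
  · simp [h1, h.trans h1]
  · simp [h1]

theorem Pge_idem (lev : Fin d → ℕ) (i : ℕ) : Pge lev i * Pge lev i = Pge lev i := Pge_mul le_rfl

theorem Pge_Pge (lev : Fin d → ℕ) (i : ℕ) (z : Fin d → ℝ) :
    Pge lev i *ᵥ (Pge lev i *ᵥ z) = Pge lev i *ᵥ z := by rw [mulVec_mulVec, Pge_idem]

theorem Pge_fix {lev : Fin d → ℕ} {i : ℕ} {z : Fin d → ℝ} :
    Pge lev i *ᵥ z = z ↔ ∀ a, lev a < i → z a = 0 := by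
  constructor
  · intro h a ha
    rw [← h, Pge_apply, if_neg (by omega)]
  · intro h; ext a
    rw [Pge_apply]
    split_ifs with h1
    · rfl
    · exact (h a (by omega)).symm

theorem sq_Pge_le (lev : Fin d → ℕ) (i : ℕ) (z : Fin d → ℝ) : sq (Pge lev i *ᵥ z) ≤ sq z :=
  Finset.sum_le_sum fun a _ => by
    rw [Pge_apply]; split_ifs
    · exact le_rfl
    · simpa using sq_nonneg (z a)

theorem dot_Pge (lev : Fin d → ℕ) (i : ℕ) (x y : Fin d → ℝ) :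
    x ⬝ᵥ (Pge lev i *ᵥ y) = (Pge lev i *ᵥ x) ⬝ᵥ y := by rw [dot_mulVec_comm, Pge_T]

theorem Pge_bp (lev : Fin d → ℕ) (i : ℕ) (z : Fin d → ℝ) :
    Pge lev i *ᵥ bp lev i z = bp lev i z :=
  Pge_fix.mpr fun a ha => by simp [bp, ha.ne]

theorem Pge_succ (lev : Fin d → ℕ) (i : ℕ) (z : Fin d → ℝ) :
    Pge lev i *ᵥ z = bp lev i z + Pge lev (i + 1) *ᵥ z := by
  ext a
  simp only [Pge_apply, bp, Pi.add_apply]
  split_ifs <;> first | omega | simp

theorem Pge_top {lev : Fin d → ℕ} {Lv : ℕ} (h : ∀ a, lev a ≤ Lv) (z : Fin d → ℝ) :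
    Pge lev (Lv + 1) *ᵥ z = 0 := by
  ext a; have := h a
  rw [Pge_apply, if_neg (by omega)]; rfl

theorem sq_bp (lev : Fin d → ℕ) (i : ℕ) (z : Fin d → ℝ) :
    sq (bp lev i z) = ∑ a ∈ band lev i, z a ^ 2 := by
  simp only [sq, bp, band, Finset.sum_filter]
  exact Finset.sum_congr rfl fun a _ => by split_ifs <;> simp

theorem sum_band {lev : Fin d → ℕ} {Lv : ℕ} (h : ∀ a, lev a ≤ Lv) (f : Fin d → ℝ) :
    ∑ i ∈ range (Lv + 1), ∑ a ∈ band lev i, f a = ∑ a, f a :=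
  Finset.sum_fiberwise_of_maps_to (fun a _ => mem_range.mpr (Nat.lt_succ_of_le (h a))) f

theorem sum_sq_bp {lev : Fin d → ℕ} {Lv : ℕ} (h : ∀ a, lev a ≤ Lv) (z : Fin d → ℝ) :
    ∑ i ∈ range (Lv + 1), sq (bp lev i z) = sq z := by
  simp only [sq_bp]; exact sum_band h _

theorem sq_bp_le (lev : Fin d → ℕ) (i : ℕ) (z : Fin d → ℝ) : sq (bp lev i z) ≤ sq z := by
  rw [sq_bp]
  exact Finset.sum_le_sum_of_subset_of_nonneg (subset_univ _) fun _ _ _ => sq_nonneg _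

theorem trace_Pge_le (lev : Fin d → ℕ) (i : ℕ) : trace (Pge lev i) ≤ d := by
  rw [Pge, trace_diagonal]
  calc _ ≤ ∑ _a : Fin d, (1 : ℝ) := Finset.sum_le_sum fun a _ => by split_ifs <;> norm_num
    _ = d := by simp

theorem term_nonneg (G : Matrix (Fin d) (Fin d) ℝ) (lev : Fin d → ℕ) (i : ℕ) :
    0 ≤ term G lev i :=
  add_nonneg (div_nonneg (fr_nonneg _) (lam_pos i).le)
    (mul_nonneg (lam_pos i).le (sub_nonneg.mpr (trace_Pge_le lev i)))

section L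
variable {lev : Fin d → ℕ} {L : Matrix (Fin d) (Fin d) ℝ}

theorem dot_bp (hs : ∀ r c, lev c ≠ lev r → L r c = 0) (r : Fin d) (z : Fin d → ℝ) :
    L r ⬝ᵥ bp lev (lev r) z = L r ⬝ᵥ z := by
  refine Finset.sum_congr rfl fun c _ => ?_
  by_cases h : lev c = lev r
  · simp [bp, h]
  · simp [hs r c h]

theorem Pge_row (hs : ∀ r c, lev c ≠ lev r → L r c = 0) (r : Fin d) {i : ℕ} (hi : i ≤ lev r) :
    Pge lev i *ᵥ L r = L r :=
  Pge_fix.mpr fun a ha => hs r a (by omega)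

theorem contr_bp (hs : ∀ r c, lev c ≠ lev r → L r c = 0)
    (hc : ∀ i z, ∑ r ∈ band lev i, (L r ⬝ᵥ z) ^ 2 ≤ sq z) (i : ℕ) (z : Fin d → ℝ) :
    ∑ r ∈ band lev i, (L r ⬝ᵥ z) ^ 2 ≤ sq (bp lev i z) := by
  refine le_trans (le_of_eq ?_) (hc i (bp lev i z))
  refine Finset.sum_congr rfl fun r hr => ?_
  rw [← mem_band.mp hr, dot_bp hs]

theorem sq_row_le (hc : ∀ i z, ∑ r ∈ band lev i, (L r ⬝ᵥ z) ^ 2 ≤ sq z) (r : Fin d) :
    sq (L r) ≤ 1 := by
  have h1 := hc (lev r) (L r)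
  have h2 : (L r ⬝ᵥ L r) ^ 2 ≤ ∑ r' ∈ band lev (lev r), (L r' ⬝ᵥ L r) ^ 2 :=
    Finset.single_le_sum (f := fun r' => (L r' ⬝ᵥ L r) ^ 2) (fun _ _ => sq_nonneg _)
      (mem_band.mpr rfl)
  rw [← sq_eq] at h2
  nlinarith [sq_nonneg' (L r)]

theorem clock_nonneg (hc : ∀ i z, ∑ r ∈ band lev i, (L r ⬝ᵥ z) ^ 2 ≤ sq z) (i : ℕ) :
    0 ≤ clock lev L i :=
  Finset.sum_nonneg fun r _ => sub_nonneg.mpr (sq_row_le hc r)

theorem band_lower (hs : ∀ r c, lev c ≠ lev r → L r c = 0)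
    (hc : ∀ i z, ∑ r ∈ band lev i, (L r ⬝ᵥ z) ^ 2 ≤ sq z) (i : ℕ) (z : Fin d → ℝ) :
    (1 - clock lev L i) * sq (bp lev i z) ≤ ∑ r ∈ band lev i, (L r ⬝ᵥ z) ^ 2 := by
  set M : Matrix (Fin d) (Fin d) ℝ := diagonal (fun a => if lev a = i then 1 else 0) -
    ∑ r ∈ band lev i, vecMulVec (L r) (L r) with hM
  have hq : ∀ y, qf M y = sq (bp lev i y) - ∑ r ∈ band lev i, (L r ⬝ᵥ y) ^ 2 := by
    intro y
    rw [hM, qf_msub, qf_diag]
    congr 1
    · simp only [sq, bp]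
      exact Finset.sum_congr rfl fun a _ => by split_ifs <;> simp
    · rw [qf, Matrix.sum_mulVec, dotProduct_sum]
      refine Finset.sum_congr rfl fun r _ => ?_
      rw [vv_mulVec, dotProduct_smul, dotProduct_comm y, smul_eq_mul, pow_two]
  have hsym : Mᵀ = M := by
    rw [hM, transpose_sub, diagonal_transpose, transpose_sum]
    simp [transpose_vecMulVec]
  have htr : trace M = clock lev L i := by
    rw [hM, trace_sub, trace_diagonal, trace_sum, clock, Finset.sum_sub_distrib]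
    congr 1
    · rw [band, Finset.sum_filter]
    · exact Finset.sum_congr rfl fun r _ => by rw [trace_vecMulVec, sq_eq]
  have h := qf_le_trace hsym (fun y => by rw [hq]; exact sub_nonneg.mpr (contr_bp hs hc i y))
    (bp lev i z)
  have hbb : bp lev i (bp lev i z) = bp lev i z := by
    ext a; simp only [bp]; split_ifs <;> rfl
  have h2 : ∑ r ∈ band lev i, (L r ⬝ᵥ bp lev i z) ^ 2 = ∑ r ∈ band lev i, (L r ⬝ᵥ z) ^ 2 :=
    Finset.sum_congr rfl fun r hr => by rw [← mem_band.mp hr, dot_bp hs]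
  rw [hq, hbb, h2, htr] at h
  linarith

end L

theorem Theta_nonneg {Lv : ℕ} {G : Matrix (Fin d) (Fin d) ℝ} {lev : Fin d → ℕ}
    {L : Matrix (Fin d) (Fin d) ℝ} (h : Inv0 Lv G lev L) : 0 ≤ Theta Lv G lev L :=
  add_nonneg (mul_nonneg (by norm_num) (Finset.sum_nonneg fun i _ => term_nonneg G lev i))
    (Finset.sum_nonneg fun i _ => mul_nonneg (lam_pos i).le (clock_nonneg h.contr i))

end Crest.Agent.R239
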