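import Crest.Agent.R239.Step0

/-! The transport half-step of the flag process (row 239). -/

set_option autoImplicit false
set_option linter.unusedSectionVars false

open Matrix Finset

namespace Crest.Agent.R239

variable {d : ℕ}

/-- Co-moving transport of the band frames. -/
def tL (lev : Fin d → ℕ) (T L : Matrix (Fin d) (Fin d) ℝ) : Matrix (Fin d) (Fin d) ℝ :=
  Matrix.of fun r => Pge lev (lev r) *ᵥ (T *ᵥ L r)

theorem tL_row (lev : Fin d → ℕ) (T L : Matrix (Fin d) (Fin d) ℝ) (r : Fin d) :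
    tL lev T L r = Pge lev (lev r) *ᵥ (T *ᵥ L r) := rfl

section
variable {lev : Fin d → ℕ} {T : Matrix (Fin d) (Fin d) ℝ} {w : Fin d → ℝ}

theorem tri_Pge (hT : ∀ a b, lev b < lev a → T a b = 0) (i : ℕ) :
    Pge lev i * T * Pge lev i = Pge lev i * T := by
  ext a b
  simp only [Pge, mul_diagonal, diagonal_mul]
  split_ifs with h1 h2 h2
  · simp
  · rw [hT a b (by omega)]; simp
  · simp
  · simp

theorem tri_fix (hT : ∀ a b, lev b < lev a → T a b = 0) {i : ℕ} {z : Fin d → ℝ}
    (hz : Pge lev i *ᵥ z = z) : Pge lev i *ᵥ (Tᵀ *ᵥ z) = Tᵀ *ᵥ z := by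
  have h := congrArg transpose (tri_Pge hT i)
  simp only [transpose_mul, Pge_T] at h
  conv_rhs => rw [← hz, mulVec_mulVec, ← h]
  rw [← mulVec_mulVec, ← mulVec_mulVec, hz]

theorem sq_T_le (hTT : T * Tᵀ + vecMulVec w w = 1) (z : Fin d → ℝ) : sq (Tᵀ *ᵥ z) ≤ sq z := by
  have h : T * Tᵀ = 1 - vecMulVec w w := eq_sub_of_add_eq hTT
  rw [sq_mulVec, transpose_transpose, h, sub_mulVec, one_mulVec, vv_mulVec, dotProduct_sub,
    dotProduct_smul, dotProduct_comm z w, smul_eq_mul, sq_eq]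
  nlinarith [mul_self_nonneg (w ⬝ᵥ z)]

theorem BBT (hTT : T * Tᵀ + vecMulVec w w = 1) (i : ℕ) :
    (Pge lev i * T) * (Pge lev i * T)ᵀ =
      Pge lev i - vecMulVec (Pge lev i *ᵥ w) (Pge lev i *ᵥ w) := by
  have h : T * Tᵀ = 1 - vecMulVec w w := eq_sub_of_add_eq hTT
  rw [transpose_mul, Pge_T, Matrix.mul_assoc, ← Matrix.mul_assoc T, h, Matrix.sub_mul,
    Matrix.mul_sub, Matrix.one_mul, Pge_idem, vv_mul, mul_vv, Pge_T]

theorem tL_dot {L : Matrix (Fin d) (Fin d) ℝ} (r : Fin d) (z : Fin d → ℝ) :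
    tL lev T L r ⬝ᵥ z = L r ⬝ᵥ (Tᵀ *ᵥ (Pge lev (lev r) *ᵥ z)) := by
  rw [tL_row, ← dot_Pge, dot_mulVec_comm Tᵀ, transpose_transpose]

end

section
variable {Lv : ℕ} {G L T : Matrix (Fin d) (Fin d) ℝ} {lev : Fin d → ℕ} {w : Fin d → ℝ}

theorem transport_inv (h : Inv0 Lv G lev L) (hT : ∀ a b, lev b < lev a → T a b = 0)
    (hTT : T * Tᵀ + vecMulVec w w = 1) : Inv0 Lv (T * G * Tᵀ) lev (tL lev T L) where
  sym := by simp [transpose_mul, h.sym, Matrix.mul_assoc]
  psd z := by rw [qf_conj]; exact h.psd _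
  le := h.le
  U i hi z hz := by
    rw [qf_conj]
    refine (h.U i hi _ (tri_fix hT hz)).trans ?_
    exact mul_le_mul_of_nonneg_left (sq_T_le hTT z) (by have := lam_pos i; positivity)
  Lo i hi z hz := by
    rw [qf_conj]
    refine le_trans (le_of_eq ?_) (h.Lo i hi _ (tri_fix hT hz))
    congr 1
    refine Finset.sum_congr rfl fun r hr => ?_
    rw [tL_dot, mem_band.mp hr, hz]
  supp r c hc := by
    rw [tL_row, Pge_apply]
    split_ifs with h1
    · show ∑ b, T c b * L r b = 0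
      refine Finset.sum_eq_zero fun b _ => ?_
      by_cases hb : lev b = lev r
      · rw [hT c b (by omega), zero_mul]
      · rw [h.supp r b hb, mul_zero]
    · rfl
  contr i z := by
    refine le_trans (le_of_eq ?_) ((h.contr i (Tᵀ *ᵥ (Pge lev i *ᵥ z))).trans
      ((sq_T_le hTT _).trans (sq_Pge_le lev i z)))
    refine Finset.sum_congr rfl fun r hr => ?_
    rw [tL_dot, mem_band.mp hr]

theorem transport_clock (h : Inv0 Lv G lev L) (hT : ∀ a b, lev b < lev a → T a b = 0)
    (hTT : T * Tᵀ + vecMulVec w w = 1) (hw : sq w ≤ 1 / 4) (i : ℕ) :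
    clock lev (tL lev T L) i ≤ clock lev L i + 4 / 3 * sq (bp lev i w) := by
  have h' := transport_inv h hT hTT
  set P := Pge lev i with hP
  have hB : (P * T + (1 - P)) * (P * T + (1 - P))ᵀ = 1 - vecMulVec (P *ᵥ w) (P *ᵥ w) := by
    have e1 : P * T * (1 - P) = 0 := by
      rw [Matrix.mul_sub, Matrix.mul_one, hP, tri_Pge hT, sub_self]
    have e2 : (1 - P) * (P * T)ᵀ = 0 := by
      have := congrArg transpose e1
      rwa [transpose_mul, transpose_sub, transpose_one, hP, Pge_T, transpose_zero] at this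
    have e3 : (1 - P) * (1 - P) = 1 - P := by
      rw [Matrix.mul_sub, Matrix.mul_one, Matrix.sub_mul, Matrix.one_mul, hP, Pge_idem, sub_self,
        sub_zero]
    have e4 : (1 - P)ᵀ = 1 - P := by rw [transpose_sub, transpose_one, hP, Pge_T]
    rw [transpose_add, e4, Matrix.add_mul, Matrix.mul_add, Matrix.mul_add, e1, e2, e3, hP,
      BBT hTT]
    abel
  have hw' : sq (P *ᵥ w) ≤ 1 / 4 := (sq_Pge_le lev i w).trans hw
  have key : ∀ r ∈ band lev i,
      3 * (sq (L r) - sq (tL lev T L r)) ≤ 4 * (tL lev T L r ⬝ᵥ w) ^ 2 := by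
    intro r hr
    have hr' := mem_band.mp hr
    have e : (P * T + (1 - P)) *ᵥ L r = tL lev T L r := by
      rw [add_mulVec, sub_mulVec, one_mulVec, hP, Pge_row h.supp r hr'.ge, sub_self, add_zero,
        tL_row, hr', mulVec_mulVec]
    have := loss_le hB hw' (L r)
    rw [e, dotProduct_comm, hP, dot_Pge, Pge_row h'.supp r hr'.ge] at this
    exact this
  have hs := Finset.sum_le_sum key
  rw [← Finset.mul_sum, ← Finset.mul_sum, Finset.sum_sub_distrib] at hs
  have hc := contr_bp h'.supp h'.contr i w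
  simp only [clock, Finset.sum_sub_distrib]
  linarith

theorem transport_drop (h : Inv0 Lv G lev L) (hT : ∀ a b, lev b < lev a → T a b = 0)
    (hTT : T * Tᵀ + vecMulVec w w = 1) (i : ℕ) :
    term (T * G * Tᵀ) lev i +
      sq ((Pge lev i * (T * G * Tᵀ) * Pge lev i) *ᵥ (Pge lev i *ᵥ w)) / lam i ≤ term G lev i := by
  set P := Pge lev i with hP
  have hC : (P * G * P)ᵀ = P * G * P := by
    simp [transpose_mul, hP, Pge_T, h.sym, Matrix.mul_assoc]
  have h1 := fr_drop (BBT (lev := lev) hTT i)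
    (by rw [← Matrix.mul_assoc, Pge_idem]) hC
  have e : P * T * (P * G * P) * (P * T)ᵀ = P * (T * G * Tᵀ) * P := by
    have t1 := tri_Pge hT i
    have t2 := congrArg transpose t1
    simp only [transpose_mul, Pge_T] at t2
    rw [← hP] at t1 t2
    calc P * T * (P * G * P) * (P * T)ᵀ = (P * T * P) * G * (P * (Tᵀ * P)) := by
          simp only [transpose_mul, hP, Pge_T, Matrix.mul_assoc]
      _ = _ := by rw [t1, t2]; simp only [Matrix.mul_assoc]
  rw [← hP, e] at h1
  have := div_le_div_of_nonneg_right h1 (lam_pos i).le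
  rw [add_div] at this
  simp only [term, ← hP]
  linarith

theorem transport_theta (h : Inv0 Lv G lev L) (hclk : ∀ i, clock lev L i ≤ 1 / 2)
    (hT : ∀ a b, lev b < lev a → T a b = 0)
    (hTT : T * Tᵀ + vecMulVec w w = 1) (hw : sq w ≤ 1 / 4) :
    Theta Lv (T * G * Tᵀ) lev (tL lev T L) ≤ Theta Lv G lev L + 64 * lam Lv := by
  have h' := transport_inv h hT hTT
  set G' := T * G * Tᵀ with hG'
  set L' := tL lev T L with hL'
  set D : ℕ → ℝ := fun i => sq ((Pge lev i * G' * Pge lev i) *ᵥ (Pge lev i *ᵥ w)) / lam i with hD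
  set q : ℕ → ℝ := fun i => qf G' (Pge lev i *ᵥ w) with hq
  set x : ℕ → ℝ := fun i => lam i * sq (bp lev i w) with hx
  have hD0 : ∀ i, 0 ≤ D i := fun i => div_nonneg (sq_nonneg' _) (lam_pos i).le
  have h1 : ∀ i ∈ range Lv, x i / 24 ≤ (q (i + 1) - q i) + 24 * D i := by
    intro i hi
    have hi' := mem_range.mp hi
    set a := bp lev i w with ha
    set u := (Pge lev i * G' * Pge lev i) *ᵥ (Pge lev i *ᵥ w) with hu
    have hl := lam_pos i
    have e1 : Pge lev (i + 1) *ᵥ w = Pge lev i *ᵥ w - a := by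
      rw [Pge_succ lev i w, ← ha]; abel
    have e2 : q (i + 1) = q i - 2 * (a ⬝ᵥ u) + qf G' a := by
      simp only [hq]
      rw [e1, qf_sub h'.sym, bil_symm h'.sym, hu, ← mulVec_mulVec _ (Pge lev i * G'),
        ← mulVec_mulVec _ (Pge lev i) G', Pge_Pge, dot_Pge lev i a, ha, Pge_bp]
    have e3 : 2 * (a ⬝ᵥ u) ≤ x i / 24 + 24 * D i := by
      have := two_dot_le ((lam i / 24) • a) u
      have e : sq ((lam i / 24) • a) = (lam i / 24) ^ 2 * sq a := by
        simp only [sq, Pi.smul_apply, smul_eq_mul, mul_pow, Finset.mul_sum]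
      rw [e, smul_dotProduct, smul_eq_mul] at this
      have h24 : 0 < lam i / 24 := by positivity
      have e' : x i / 24 + 24 * D i = ((lam i / 24) ^ 2 * sq a + sq u) / (lam i / 24) := by
        simp only [hx, hD, ← ha, ← hu]; field_simp
      rw [e', le_div_iff₀ h24]; linarith
    have e4 : x i / 12 ≤ qf G' a := by
      have b1 := h'.Lo i hi' a (Pge_bp lev i w)
      have b2 := band_lower h'.supp h'.contr i a
      have b3 : bp lev i a = a := by ext c; simp only [ha, bp]; split_ifs <;> rfl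
      have b4 := transport_clock h hT hTT hw i
      have b5 := hclk i
      have b6 := (sq_bp_le lev i w).trans hw
      rw [b3] at b2
      rw [lam_succ] at b1
      have b7 : sq a / 6 ≤ ∑ r ∈ band lev i, (L' r ⬝ᵥ a) ^ 2 := by
        have : 1 / 6 ≤ 1 - clock lev L' i := by linarith
        nlinarith [sq_nonneg' a]
      simp only [hx, ← ha]
      nlinarith
    linarith
  have h2 := Finset.sum_le_sum h1
  rw [Finset.sum_add_distrib, Finset.sum_range_sub, ← Finset.sum_div, ← Finset.mul_sum] at h2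
  have h3 : q Lv ≤ 2 * lam Lv := by
    have := h'.U Lv le_rfl _ (Pge_Pge lev Lv w)
    have h4 := (sq_Pge_le lev Lv w).trans hw
    have := lam_pos Lv
    simp only [hq]; nlinarith
  have h4 : 0 ≤ q 0 := h'.psd _
  have h5 : ∑ i ∈ range (Lv + 1), (term G' lev i + D i) ≤ ∑ i ∈ range (Lv + 1), term G lev i :=
    Finset.sum_le_sum fun i _ => transport_drop h hT hTT i
  rw [Finset.sum_add_distrib, Finset.sum_range_succ D] at h5
  have h6 : ∑ i ∈ range Lv, lam i * clock lev L' i ≤
      ∑ i ∈ range Lv, (lam i * clock lev L i + 4 / 3 * x i) :=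
    Finset.sum_le_sum fun i _ => by
      have := mul_le_mul_of_nonneg_left (transport_clock h hT hTT hw i) (lam_pos i).le
      simp only [hx]; linarith
  rw [Finset.sum_add_distrib, ← Finset.mul_sum] at h6
  have h7 := hD0 Lv
  simp only [Theta]
  linarith

/-- The injected direction has bounded total weight. -/
theorem sum_q_le (h : Inv0 Lv G lev L) (w : Fin d → ℝ) :
    ∑ i ∈ range (Lv + 1), qf G (Pge lev i *ᵥ w) / lam i ≤ 24 * sq w := by
  set y : ℕ → ℝ := fun i => qf G (Pge lev i *ᵥ w) / lam i with hy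
  have h1 : ∀ i ∈ range (Lv + 1), y i ≤ 3 / 4 * y (i + 1) + 6 * sq (bp lev i w) := by
    intro i hi
    have hl := lam_pos i
    have a1 := qf_add_le h.sym h.psd (bp lev i w) (Pge lev (i + 1) *ᵥ w)
    have a2 := h.U i (Nat.lt_succ_iff.mp (mem_range.mp hi)) _ (Pge_bp lev i w)
    rw [← Pge_succ] at a1
    simp only [hy, lam_succ]
    rw [div_le_iff₀ hl]
    have e : (3 / 4 * (qf G (Pge lev (i + 1) *ᵥ w) / (lam i / 2)) + 6 * sq (bp lev i w)) * lam i
        = 3 / 2 * qf G (Pge lev (i + 1) *ᵥ w) + 3 * (2 * lam i * sq (bp lev i w)) := by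
      field_simp; ring
    rw [e]; linarith
  have h2 := Finset.sum_le_sum h1
  rw [Finset.sum_add_distrib, ← Finset.mul_sum, ← Finset.mul_sum, sum_sq_bp h.le] at h2
  have h3 := Finset.sum_range_succ' y (Lv + 1)
  rw [Finset.sum_range_succ y] at h3
  have h4 : y (Lv + 1) = 0 := by simp [hy, Pge_top h.le, qf]
  have h5 : 0 ≤ y 0 := div_nonneg (h.psd _) (lam_pos 0).le
  linarith

end

end Crest.Agent.R239
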