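import Crest.Agent.R239.Step1

/-! The relabelling half-step of the flag process (row 239): invariants. -/

set_option autoImplicit false
set_option linter.unusedSectionVars false

open Matrix Finset

namespace Crest.Agent.R239

variable {d : ℕ}

open Classical in
noncomputable def nlev (Lv c : ℕ) (lev : Fin d → ℕ) (μ : Fin d → ℝ) (a : Fin d) : ℕ :=
  if lev a < c then lev a else Nat.findGreatest (fun i => i = c ∨ μ a ≤ lam i) Lv

def nL (c : ℕ) (lev : Fin d → ℕ) (L : Matrix (Fin d) (Fin d) ℝ) : Matrix (Fin d) (Fin d) ℝ :=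
  Matrix.of fun r => if lev r < c then L r else Pi.single r 1

section nl
variable {Lv c : ℕ} {lev : Fin d → ℕ} {μ : Fin d → ℝ} {L : Matrix (Fin d) (Fin d) ℝ}

theorem nL_lt {r : Fin d} (h : lev r < c) : nL c lev L r = L r := by
  show (if lev r < c then L r else Pi.single r 1) = _
  rw [if_pos h]

theorem nL_ge {r : Fin d} (h : c ≤ lev r) : nL c lev L r = Pi.single r 1 := by
  show (if lev r < c then L r else Pi.single r 1) = _
  rw [if_neg (by omega)]

theorem nlev_lt {a : Fin d} (h : lev a < c) : nlev Lv c lev μ a = lev a := by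
  simp [nlev, h]

theorem nlev_ge (hc : c ≤ Lv) {a : Fin d} (h : c ≤ lev a) : c ≤ nlev Lv c lev μ a := by
  classical
  rw [nlev, if_neg (by omega)]
  exact Nat.le_findGreatest hc (Or.inl rfl)

theorem nlev_le (hl : ∀ a, lev a ≤ Lv) (a : Fin d) : nlev Lv c lev μ a ≤ Lv := by
  classical
  rw [nlev]; split_ifs
  · exact hl a
  · exact Nat.findGreatest_le _

theorem nlev_iff (hc : c ≤ Lv) {a : Fin d} (h : c ≤ lev a) {i : ℕ} (h1 : c < i) (h2 : i ≤ Lv) :
    i ≤ nlev Lv c lev μ a ↔ μ a ≤ lam i := by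
  classical
  rw [nlev, if_neg (by omega)]
  constructor
  · intro h3
    have := Nat.findGreatest_spec (P := fun i => i = c ∨ μ a ≤ lam i) hc (Or.inl rfl)
    rcases this with h4 | h4
    · omega
    · exact h4.trans (lam_anti h3)
  · intro h3
    exact Nat.le_findGreatest h2 (Or.inr h3)

theorem nlev_ge_iff (hc : c ≤ Lv) (a : Fin d) {i : ℕ} (hi : i ≤ c) :
    i ≤ nlev Lv c lev μ a ↔ i ≤ lev a := by
  by_cases h : lev a < c
  · rw [nlev_lt h]
  · have := nlev_ge (μ := μ) hc (not_lt.mp h); omega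

theorem nlev_eq_iff (hc : c ≤ Lv) (a : Fin d) {i : ℕ} (hi : i < c) :
    nlev Lv c lev μ a = i ↔ lev a = i := by
  by_cases h : lev a < c
  · rw [nlev_lt h]
  · have := nlev_ge (μ := μ) hc (not_lt.mp h); omega

theorem nlev_Pge (hc : c ≤ Lv) {i : ℕ} (hi : i ≤ c) : Pge (nlev Lv c lev μ) i = Pge lev i := by
  simp only [Pge, nlev_ge_iff hc _ hi]

theorem nlev_band (hc : c ≤ Lv) {i : ℕ} (hi : i < c) : band (nlev Lv c lev μ) i = band lev i := by
  simp only [band, nlev_eq_iff hc _ hi]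

theorem band_ge (hc : c ≤ Lv) {i : ℕ} (hi : c ≤ i) {r : Fin d}
    (hr : r ∈ band (nlev Lv c lev μ) i) : c ≤ lev r :=
  (nlev_ge_iff hc r le_rfl).mp (by rw [mem_band.mp hr]; exact hi)

theorem nclock_ge (hc : c ≤ Lv) {i : ℕ} (hi : c ≤ i) :
    clock (nlev Lv c lev μ) (nL c lev L) i = 0 :=
  Finset.sum_eq_zero fun r hr => by
    rw [nL_ge (band_ge hc hi hr)]; simp [sq_eq]

theorem nclock_lt (hc : c ≤ Lv) {i : ℕ} (hi : i < c) :
    clock (nlev Lv c lev μ) (nL c lev L) i = clock lev L i := by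
  rw [clock, nlev_band hc hi]
  exact Finset.sum_congr rfl fun r hr => by rw [nL_lt (by rw [mem_band.mp hr]; exact hi)]

end nl

section V
variable {c : ℕ} {lev : Fin d → ℕ} {V : Matrix (Fin d) (Fin d) ℝ}

theorem V_comm (hV : ∀ a b, (¬ c ≤ lev a ∨ ¬ c ≤ lev b) → V a b = if a = b then 1 else 0)
    {i : ℕ} (hi : i ≤ c) : Pge lev i * V = V * Pge lev i := by
  ext a b
  simp only [Pge, mul_diagonal, diagonal_mul]
  by_cases h : c ≤ lev a ∧ c ≤ lev b
  · rw [if_pos (hi.trans h.1), if_pos (hi.trans h.2)]; ring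
  · rw [hV a b (not_and_or.mp h)]
    by_cases hab : a = b
    · subst hab; simp
    · simp [hab]

theorem V_comm' (hV : ∀ a b, (¬ c ≤ lev a ∨ ¬ c ≤ lev b) → V a b = if a = b then 1 else 0)
    {i : ℕ} (hi : i ≤ c) : Pge lev i * Vᵀ = Vᵀ * Pge lev i := by
  have := congrArg transpose (V_comm hV hi)
  simpa only [transpose_mul, Pge_T] using this.symm

theorem V_fix (hV : ∀ a b, (¬ c ≤ lev a ∨ ¬ c ≤ lev b) → V a b = if a = b then 1 else 0)
    {z : Fin d → ℝ} (hz : ∀ a, c ≤ lev a → z a = 0) : V *ᵥ z = z := by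
  ext a
  show ∑ b, V a b * z b = z a
  rw [Finset.sum_congr rfl (g := fun b => if a = b then z b else 0)]
  · simp
  · intro b _
    by_cases hb : c ≤ lev b
    · simp [hz b hb]
    · rw [hV a b (Or.inr hb)]; simp

theorem block_diag {H : Matrix (Fin d) (Fin d) ℝ}
    (hH : ∀ a b, c ≤ lev a → c ≤ lev b → a ≠ b → H a b = 0) (μ : Fin d → ℝ)
    (hμ : ∀ a, c ≤ lev a → μ a = H a a) :
    Pge lev c * H * Pge lev c = Pge lev c * diagonal μ * Pge lev c := by
  ext a b
  rw [Pge, mul_diagonal, mul_diagonal, diagonal_mul, diagonal_mul]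
  by_cases h : c ≤ lev a ∧ c ≤ lev b
  · by_cases hab : a = b
    · subst hab; simp [h.1, hμ a h.1]
    · rw [hH a b h.1 h.2 hab, diagonal_apply_ne _ hab]
  · rcases not_and_or.mp h with h1 | h1
    · rw [if_neg h1]; simp
    · rw [if_neg h1]; simp

theorem qf_block {H : Matrix (Fin d) (Fin d) ℝ}
    (hH : ∀ a b, c ≤ lev a → c ≤ lev b → a ≠ b → H a b = 0) {z : Fin d → ℝ}
    (hz : Pge lev c *ᵥ z = z) : qf H z = ∑ a, H a a * z a ^ 2 := by
  have h := block_diag hH (fun a => H a a) (fun _ _ => rfl)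
  have e : ∀ M : Matrix (Fin d) (Fin d) ℝ, qf (Pge lev c * M * Pge lev c) z = qf M z := by
    intro M
    conv_lhs => rw [← Pge_T lev c]
    rw [Pge_T lev c]
    have := qf_conj (Pge lev c) M z
    rwa [Pge_T, hz] at this
  rw [← e H, h, e, qf_diag]

end V

theorem relabel_inv {Lv c : ℕ} {G H L V : Matrix (Fin d) (Fin d) ℝ} {lev : Fin d → ℕ}
    (h : Inv0 Lv G lev L) (hc : c ≤ Lv) (hHs : Hᵀ = H) (hGH : ∀ z, qf G z ≤ qf H z)
    (hU : ∀ i ≤ c, UB H lev i) (hO : V * Vᵀ = 1)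
    (hV : ∀ a b, (¬ c ≤ lev a ∨ ¬ c ≤ lev b) → V a b = if a = b then 1 else 0)
    (hD : ∀ a b, c ≤ lev a → c ≤ lev b → a ≠ b → (V * H * Vᵀ) a b = 0) :
    Inv0 Lv (V * H * Vᵀ) (nlev Lv c lev fun a => (V * H * Vᵀ) a a) (nL c lev L) := by
  set μ : Fin d → ℝ := fun a => (V * H * Vᵀ) a a with hμ
  have hpsd : ∀ z, 0 ≤ qf (V * H * Vᵀ) z := fun z => by
    rw [qf_conj]; exact (h.psd _).trans (hGH _)
  have hμ0 : ∀ a, 0 ≤ μ a := fun a => by
    have := hpsd (Pi.single a 1); rwa [qf_single] at this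
  have hfix : ∀ {i : ℕ} {z : Fin d → ℝ}, i ≤ c → Pge lev i *ᵥ z = z →
      Pge lev i *ᵥ (Vᵀ *ᵥ z) = Vᵀ *ᵥ z := fun hi hz => by
    rw [mulVec_mulVec, V_comm' hV hi, ← mulVec_mulVec, hz]
  have hblk : ∀ {i : ℕ} {z : Fin d → ℝ}, c ≤ i → Pge (nlev Lv c lev μ) i *ᵥ z = z →
      qf (V * H * Vᵀ) z = ∑ a, μ a * z a ^ 2 := fun {i z} hi hz =>
    qf_block hD (Pge_fix.mpr fun a ha => Pge_fix.mp hz a (by rw [nlev_lt ha]; omega))
  have hsing : ∀ {i : ℕ} (z : Fin d → ℝ), c ≤ i →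
      ∑ r ∈ band (nlev Lv c lev μ) i, (nL c lev L r ⬝ᵥ z) ^ 2 =
        ∑ r ∈ band (nlev Lv c lev μ) i, z r ^ 2 := fun z hi =>
    Finset.sum_congr rfl fun r hr => by rw [nL_ge (band_ge hc hi hr)]; simp
  have hold : ∀ {i : ℕ} (z : Fin d → ℝ), i < c →
      ∑ r ∈ band (nlev Lv c lev μ) i, (nL c lev L r ⬝ᵥ z) ^ 2 =
        ∑ r ∈ band lev i, (L r ⬝ᵥ z) ^ 2 := fun z hi => by
    rw [nlev_band hc hi]
    exact Finset.sum_congr rfl fun r hr => by rw [nL_lt (by rw [mem_band.mp hr]; exact hi)]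
  refine ⟨by simp [transpose_mul, hHs, Matrix.mul_assoc], hpsd, nlev_le h.le, ?_, ?_, ?_, ?_⟩
  · intro i hi z hz
    by_cases hic : i ≤ c
    · rw [nlev_Pge hc hic] at hz
      rw [qf_conj, ← sq_orth' hO z]
      exact hU i hic _ (hfix hic hz)
    · rw [hblk (by omega) hz, sq, Finset.mul_sum]
      refine Finset.sum_le_sum fun a _ => ?_
      by_cases ha : nlev Lv c lev μ a < i
      · simp [Pge_fix.mp hz a ha]
      · have h1 : c ≤ lev a := (nlev_ge_iff (μ := μ) hc a le_rfl).mp (by omega)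
        have h2 := (nlev_iff (μ := μ) hc h1 (not_le.mp hic) hi).mp (not_lt.mp ha)
        have := lam_pos i
        exact mul_le_mul_of_nonneg_right (by linarith) (sq_nonneg _)
  · intro i hi z hz
    by_cases hic : i < c
    · rw [nlev_Pge hc hic.le] at hz
      rw [hold z hic, qf_conj]
      refine le_trans (le_of_eq ?_) ((h.Lo i hi _ (hfix hic.le hz)).trans (hGH _))
      congr 1
      refine Finset.sum_congr rfl fun r hr => ?_
      rw [dot_mulVec_comm, transpose_transpose,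
        V_fix hV fun a ha => h.supp r a (by rw [mem_band.mp hr]; omega)]
    · have hic' := not_lt.mp hic
      rw [hblk hic' hz, hsing z hic', Finset.mul_sum]
      refine le_trans (Finset.sum_le_sum fun a ha => ?_)
        (Finset.sum_le_sum_of_subset_of_nonneg (subset_univ _)
          fun a _ _ => mul_nonneg (hμ0 a) (sq_nonneg _))
      have h1 := band_ge hc hic' ha
      have h2 := (nlev_iff (μ := μ) hc h1 (Nat.lt_succ_of_le hic') hi).not.mp
        (by rw [mem_band.mp ha]; omega)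
      exact mul_le_mul_of_nonneg_right (not_le.mp h2).le (sq_nonneg _)
  · intro r a ha
    by_cases hr : lev r < c
    · rw [nL_lt hr]
      refine h.supp r a fun h1 => ha ?_
      rw [nlev_lt hr, nlev_lt (by omega), h1]
    · rw [nL_ge (not_lt.mp hr), Pi.single_eq_of_ne]
      rintro rfl; exact ha rfl
  · intro i z
    by_cases hic : i < c
    · rw [hold z hic]; exact h.contr i z
    · rw [hsing z (not_lt.mp hic)]
      exact Finset.sum_le_sum_of_subset_of_nonneg (subset_univ _) fun _ _ _ => sq_nonneg _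

end Crest.Agent.R239
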