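import Crest.Agent.R239.Step2

/-! The relabelling half-step of the flag process (row 239): potential. -/

set_option autoImplicit false
set_option linter.unusedSectionVars false

open Matrix Finset

namespace Crest.Agent.R239

variable {d : ℕ}

theorem fr_inject (C : Matrix (Fin d) (Fin d) ℝ) (σ : ℝ) (u : Fin d → ℝ) :
    fr (C + σ • vecMulVec u u) = fr C + 2 * σ * qf C u + σ ^ 2 * sq u ^ 2 := by
  have e1 : qf C u = ∑ a, ∑ b, C a b * (u a * u b) := by
    simp only [qf, dotProduct, mulVec, Finset.mul_sum]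
    exact Finset.sum_congr rfl fun a _ => Finset.sum_congr rfl fun b _ => by ring
  have e2 : sq u ^ 2 = ∑ a, ∑ b, (u a * u b) ^ 2 := by
    rw [pow_two, sq, Finset.sum_mul_sum]
    exact Finset.sum_congr rfl fun a _ => Finset.sum_congr rfl fun b _ => by ring
  rw [e1, e2]
  simp only [fr, Finset.mul_sum, ← Finset.sum_add_distrib, Matrix.add_apply, Matrix.smul_apply,
    vecMulVec_apply, smul_eq_mul]
  exact Finset.sum_congr rfl fun a _ => Finset.sum_congr rfl fun b _ => by ring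

theorem proj_inject {Q : Matrix (Fin d) (Fin d) ℝ} (hQ : Qᵀ = Q) (G : Matrix (Fin d) (Fin d) ℝ)
    (σ : ℝ) (w : Fin d → ℝ) :
    Q * (G + σ • vecMulVec w w) * Q = Q * G * Q + σ • vecMulVec (Q *ᵥ w) (Q *ᵥ w) := by
  rw [Matrix.mul_add, Matrix.add_mul, Matrix.mul_smul, Matrix.smul_mul, mul_vv, vv_mul, hQ]

theorem fr_P_inject (lev : Fin d → ℕ) (i : ℕ) (G : Matrix (Fin d) (Fin d) ℝ) (σ : ℝ)
    (w : Fin d → ℝ) :
    fr (Pge lev i * (G + σ • vecMulVec w w) * Pge lev i) = fr (Pge lev i * G * Pge lev i) +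
      2 * σ * qf G (Pge lev i *ᵥ w) + σ ^ 2 * sq (Pge lev i *ᵥ w) ^ 2 := by
  rw [proj_inject (Pge_T lev i), fr_inject]
  have := qf_conj (Pge lev i) G (Pge lev i *ᵥ w)
  rw [Pge_T, Pge_Pge] at this
  rw [this]

noncomputable def Fx (σ : ℝ) (i : ℕ) : ℝ := 24 * σ * lam i / (lam i + σ)

theorem extra_le {σ x : ℝ} (hσ : 0 ≤ σ) (i : ℕ) (h1 : x ≤ 4 * lam i) (h2 : x * lam i ≤ σ ^ 2) :
    x ≤ Fx σ i - Fx σ (i + 1) := by
  have hl := lam_pos i
  have e : Fx σ i - Fx σ (i + 1) = 24 * σ ^ 2 * lam i / ((lam i + σ) * (lam i + 2 * σ)) := by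
    simp only [Fx, lam_succ]; field_simp; ring
  rw [e, le_div_iff₀ (by positivity)]
  set l := lam i
  by_cases h : σ ≤ l
  · have h3 : (l + σ) * (l + 2 * σ) ≤ 24 * l ^ 2 := by nlinarith
    by_cases hx : 0 ≤ x
    · calc x * ((l + σ) * (l + 2 * σ)) ≤ x * (24 * l ^ 2) := mul_le_mul_of_nonneg_left h3 hx
        _ = 24 * l * (x * l) := by ring
        _ ≤ 24 * l * σ ^ 2 := mul_le_mul_of_nonneg_left h2 (by positivity)
        _ = _ := by ring
    · have : x * ((l + σ) * (l + 2 * σ)) ≤ 0 :=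
        mul_nonpos_of_nonpos_of_nonneg (not_le.mp hx).le (by positivity)
      have : 0 ≤ 24 * σ ^ 2 * l := by positivity
      linarith
  · have h' := (not_le.mp h).le
    have h3 : (l + σ) * (l + 2 * σ) ≤ 6 * σ ^ 2 := by nlinarith
    calc x * ((l + σ) * (l + 2 * σ)) ≤ 4 * l * ((l + σ) * (l + 2 * σ)) :=
          mul_le_mul_of_nonneg_right h1 (by positivity)
      _ ≤ 4 * l * (6 * σ ^ 2) := mul_le_mul_of_nonneg_left h3 (by positivity)
      _ = _ := by ring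

theorem sum_Fx {σ : ℝ} (hσ : 0 ≤ σ) (k : ℕ) :
    ∑ i ∈ range k, (Fx σ i - Fx σ (i + 1)) ≤ 24 * σ := by
  rw [Finset.sum_range_sub']
  have h1 : 0 ≤ Fx σ k := by have := lam_pos k; unfold Fx; positivity
  have h2 : Fx σ 0 ≤ 24 * σ := by
    have := lam_pos 0
    rw [Fx, div_le_iff₀ (by positivity)]; nlinarith [mul_nonneg hσ hσ]
  linarith

section
variable {G : Matrix (Fin d) (Fin d) ℝ} {lev : Fin d → ℕ} {w : Fin d → ℝ} {σ : ℝ} {i : ℕ}

theorem term_low (hp : ∀ z, 0 ≤ qf G z) (hσ : 0 ≤ σ) (hw : sq w ≤ 1)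
    (hU : UB (G + σ • vecMulVec w w) lev i) :
    term (G + σ • vecMulVec w w) lev i ≤
      term G lev i + 2 * σ * (qf G (Pge lev i *ᵥ w) / lam i) + (Fx σ i - Fx σ (i + 1)) := by
  have hl := lam_pos i
  set s := sq (Pge lev i *ᵥ w) with hs
  have hs0 : 0 ≤ s := sq_nonneg' _
  have hs1 : s ≤ 1 := (sq_Pge_le lev i w).trans hw
  have h1 := hU _ (Pge_Pge lev i w)
  have e : w ⬝ᵥ (Pge lev i *ᵥ w) = s := by
    rw [hs, sq_eq, ← dot_Pge lev i w, Pge_Pge]
  rw [qf_madd, qf_vv, e, ← hs] at h1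
  have h2 : σ * s ^ 2 ≤ 2 * lam i * s := by linarith [hp (Pge lev i *ᵥ w)]
  have h3 : σ * s ≤ 2 * lam i := by
    rcases hs0.eq_or_lt with h | h
    · rw [← h]; linarith
    · exact le_of_mul_le_mul_right (by nlinarith) h
  have h4 := extra_le (x := σ ^ 2 * s ^ 2 / lam i) hσ i
    (by rw [div_le_iff₀ hl]; nlinarith [mul_nonneg hσ hs0])
    (by rw [div_mul_cancel₀ _ hl.ne']; exact mul_le_of_le_one_right (sq_nonneg σ) (pow_le_one₀ hs0 hs1))
  simp only [term, fr_P_inject, ← hs, add_div]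
  rw [mul_div_assoc]
  linarith

variable {tn : ℝ}

theorem term_high_a (hgen : ∀ Q : Matrix (Fin d) (Fin d) ℝ, Qᵀ = Q → Q * Q = Q →
      Pge lev i * Q = Q → lam i * tn ≤ fr (Q * (G + σ • vecMulVec w w) * Q) +
        lam i ^ 2 * (d - trace Q)) :
    tn ≤ term G lev i + 2 * σ * (qf G (Pge lev i *ᵥ w) / lam i) +
      σ ^ 2 * sq (Pge lev i *ᵥ w) ^ 2 / lam i := by
  have hl := lam_pos i
  have h := hgen _ (Pge_T lev i) (Pge_idem lev i) (Pge_idem lev i)
  rw [fr_P_inject] at h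
  refine le_of_mul_le_mul_left (h.trans (le_of_eq ?_)) hl
  simp only [term]; field_simp; ring

theorem term_high_b (hG : Gᵀ = G) (hgen : ∀ Q : Matrix (Fin d) (Fin d) ℝ, Qᵀ = Q → Q * Q = Q →
      Pge lev i * Q = Q → lam i * tn ≤ fr (Q * (G + σ • vecMulVec w w) * Q) +
        lam i ^ 2 * (d - trace Q)) :
    tn ≤ term G lev i + lam i := by
  have hl := lam_pos i
  rcases (sq_nonneg' (Pge lev i *ᵥ w)).eq_or_lt with h0 | h0
  · have h := term_high_a hgen
    have h1 : Pge lev i *ᵥ w = 0 := by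
      rw [sq_eq] at h0; exact dotProduct_self_eq_zero.mp h0.symm
    rw [h1] at h
    simp only [qf, sq, mulVec_zero, dotProduct_zero, Pi.zero_apply] at h
    simp at h
    linarith
  · obtain ⟨Q, h1, h2, h3, h4, h5, h6⟩ :=
      exists_remove (Pge_T lev i) (Pge_idem lev i) _ (Pge_Pge lev i w) h0
    have h := hgen Q h1 h2 h3
    have h7 : Q *ᵥ w = 0 := by
      have := congrArg transpose h3
      rw [transpose_mul, h1, Pge_T] at this
      rw [← this, ← mulVec_mulVec, h5]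
    rw [proj_inject h1, h7, h4] at h
    have h8 := h6 G hG
    have h9 : vecMulVec (0 : Fin d → ℝ) (0 : Fin d → ℝ) = 0 := by ext a b; simp [vecMulVec_apply]
    rw [h9, smul_zero, add_zero] at h
    refine le_of_mul_le_mul_left (h.trans ?_) hl
    have e : lam i * (term G lev i + lam i) =
        fr (Pge lev i * G * Pge lev i) + lam i ^ 2 * (d - (trace (Pge lev i) - 1)) := by
      simp only [term]; field_simp; ring
    rw [e]
    nlinarith [sq_nonneg ((Pge lev i *ᵥ w) ⬝ᵥ (G *ᵥ (Pge lev i *ᵥ w)) / sq (Pge lev i *ᵥ w))]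

theorem term_high (hG : Gᵀ = G) (hp : ∀ z, 0 ≤ qf G z) (hσ : 0 ≤ σ) (hw : sq w ≤ 1)
    (hgen : ∀ Q : Matrix (Fin d) (Fin d) ℝ, Qᵀ = Q → Q * Q = Q →
      Pge lev i * Q = Q → lam i * tn ≤ fr (Q * (G + σ • vecMulVec w w) * Q) +
        lam i ^ 2 * (d - trace Q)) :
    tn ≤ term G lev i + 2 * σ * (qf G (Pge lev i *ᵥ w) / lam i) + (Fx σ i - Fx σ (i + 1)) := by
  have hl := lam_pos i
  have ha := term_high_a hgen
  have hb := term_high_b hG hgen
  set s := sq (Pge lev i *ᵥ w) with hs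
  have hs0 : 0 ≤ s := sq_nonneg' _
  have hs1 : s ≤ 1 := (sq_Pge_le lev i w).trans hw
  have hq : 0 ≤ 2 * σ * (qf G (Pge lev i *ᵥ w) / lam i) :=
    mul_nonneg (by positivity) (div_nonneg (hp _) hl.le)
  have h4 := extra_le (x := min (lam i) (σ ^ 2 * s ^ 2 / lam i)) hσ i
    ((min_le_left _ _).trans (by linarith))
    ((mul_le_mul_of_nonneg_right (min_le_right _ _) hl.le).trans
      (by rw [div_mul_cancel₀ _ hl.ne']; exact mul_le_of_le_one_right (sq_nonneg σ) (pow_le_one₀ hs0 hs1)))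
  rcases min_cases (lam i) (σ ^ 2 * s ^ 2 / lam i) with h | h <;> rw [h.1] at h4 <;> linarith

theorem term_viol (hG : Gᵀ = G) (hp : ∀ z, 0 ≤ qf G z) (hσ : 0 ≤ σ) (hw : sq w ≤ 1)
    (hgen : ∀ Q : Matrix (Fin d) (Fin d) ℝ, Qᵀ = Q → Q * Q = Q →
      Pge lev i * Q = Q → lam i * tn ≤ fr (Q * (G + σ • vecMulVec w w) * Q) +
        lam i ^ 2 * (d - trace Q)) (hv : ¬ UB (G + σ • vecMulVec w w) lev i) :
    tn ≤ term G lev i + 2 * σ * (qf G (Pge lev i *ᵥ w) / lam i) + (Fx σ i - Fx σ (i + 1))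
      - 3 * lam i + 3 * σ := by
  have hl := lam_pos i
  by_cases hc : lam i ≤ σ
  · have := term_high hG hp hσ hw hgen; linarith
  have hc' := (not_le.mp hc).le
  set s := sq (Pge lev i *ᵥ w) with hs
  have hs0 : 0 ≤ s := sq_nonneg' _
  have hs1 : s ≤ 1 := (sq_Pge_le lev i w).trans hw
  have hss : σ ^ 2 * s ^ 2 ≤ σ ^ 2 := by exact mul_le_of_le_one_right (sq_nonneg σ) (pow_le_one₀ hs0 hs1)
  have h4 := extra_le (x := σ ^ 2 * s ^ 2 / lam i) hσ i
    (by rw [div_le_iff₀ hl]; nlinarith)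
    (by rw [div_mul_cancel₀ _ hl.ne']; exact hss)
  simp only [UB, not_forall, not_le] at hv
  obtain ⟨z, hz, hv⟩ := hv
  have h0 : 0 < sq z := by
    rcases (sq_nonneg' z).eq_or_lt with h0 | h0
    · have h1 : z = 0 := by rw [sq_eq] at h0; exact dotProduct_self_eq_zero.mp h0.symm
      rw [h1] at hv; simp [qf, sq] at hv
    · exact h0
  obtain ⟨Q, h1, h2, h3, h5, -, h6⟩ := exists_remove (Pge_T lev i) (Pge_idem lev i) z hz h0
  have h := hgen Q h1 h2 h3
  have h8 := h6 (G + σ • vecMulVec w w) (by simp [hG, transpose_vecMulVec])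
  have h9 : 2 * lam i ≤ z ⬝ᵥ ((G + σ • vecMulVec w w) *ᵥ z) / sq z := by
    rw [le_div_iff₀ h0]; exact hv.le
  rw [fr_P_inject, ← hs] at h8
  rw [h5] at h
  have h10 : tn ≤ term G lev i + 2 * σ * (qf G (Pge lev i *ᵥ w) / lam i) +
      σ ^ 2 * s ^ 2 / lam i - 3 * lam i := by
    refine le_of_mul_le_mul_left (h.trans ?_) hl
    have e : lam i * (term G lev i + 2 * σ * (qf G (Pge lev i *ᵥ w) / lam i) +
        σ ^ 2 * s ^ 2 / lam i - 3 * lam i) = fr (Pge lev i * G * Pge lev i) +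
          2 * σ * qf G (Pge lev i *ᵥ w) + σ ^ 2 * s ^ 2 - (2 * lam i) ^ 2 +
          lam i ^ 2 * (d - (trace (Pge lev i) - 1)) := by
      simp only [term]; field_simp; ring
    rw [e]
    nlinarith
  linarith

end

end Crest.Agent.R239
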