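import Crest.Agent.R239.Step3

/-! One full step of the flag process (row 239). -/

set_option autoImplicit false
set_option linter.unusedSectionVars false

open Matrix Finset

namespace Crest.Agent.R239

variable {d : ℕ}

theorem fr_diagonal (f : Fin d → ℝ) : fr (diagonal f) = ∑ a, f a ^ 2 := by
  refine Finset.sum_congr rfl fun a _ => ?_
  rw [Finset.sum_eq_single a]
  · simp
  · intro b _ hb; rw [diagonal_apply_ne _ hb.symm]; simp
  · simp

theorem term_high_gen {Lv c i : ℕ} {H V : Matrix (Fin d) (Fin d) ℝ} {lev : Fin d → ℕ}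
    (hc : c ≤ Lv) (hci : c < i) (hi : i ≤ Lv) (hp : ∀ z, 0 ≤ qf H z) (hO : V * Vᵀ = 1)
    (hV : ∀ a b, (¬ c ≤ lev a ∨ ¬ c ≤ lev b) → V a b = if a = b then 1 else 0)
    (hD : ∀ a b, c ≤ lev a → c ≤ lev b → a ≠ b → (V * H * Vᵀ) a b = 0)
    (Q : Matrix (Fin d) (Fin d) ℝ) (h1 : Qᵀ = Q) (h2 : Q * Q = Q) (h3 : Pge lev i * Q = Q) :
    lam i * term (V * H * Vᵀ) (nlev Lv c lev fun a => (V * H * Vᵀ) a a) i ≤
      fr (Q * H * Q) + lam i ^ 2 * (d - trace Q) := by
  have hl := lam_pos i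
  have hO' : Vᵀ * V = 1 := mul_eq_one_comm.mp hO
  set K := V * H * Vᵀ with hK
  set μ : Fin d → ℝ := fun a => K a a with hμ
  set ν : Fin d → ℝ := fun a => if c ≤ lev a then μ a else lam i with hν
  set lev' := nlev Lv c lev μ with hlev'
  have hμ0 : ∀ a, 0 ≤ μ a := fun a => by
    have := hp (Vᵀ *ᵥ Pi.single a 1); rwa [← qf_conj, qf_single] at this
  have hν0 : ∀ a, 0 ≤ ν a := fun a => by
    simp only [hν]; split_ifs
    · exact hμ0 a
    · exact hl.le
  have hb := block_diag hD ν (fun a ha => by simp [hν, ha, hμ])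
  have hsand : ∀ R : Matrix (Fin d) (Fin d) ℝ, Rᵀ = R → Pge lev c * R = R →
      R * K * R = R * diagonal ν * R := by
    intro R r1 r2
    have r3 : R * Pge lev c = R := by
      have := congrArg transpose r2
      rwa [transpose_mul, r1, Pge_T] at this
    calc R * K * R = (R * Pge lev c) * K * (Pge lev c * R) := by rw [r2, r3]
      _ = R * (Pge lev c * K * Pge lev c) * R := by simp only [Matrix.mul_assoc]
      _ = (R * Pge lev c) * diagonal ν * (Pge lev c * R) := by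
          rw [hb]; simp only [Matrix.mul_assoc]
      _ = _ := by rw [r2, r3]
  -- the left-hand side
  have e1 : lam i * term K lev' i = ∑ a, min (ν a) (lam i) ^ 2 := by
    have a1 : Pge lev c * Pge lev' i = Pge lev' i := by
      rw [← nlev_Pge (μ := μ) hc le_rfl]; exact Pge_mul hci.le
    have a2 : lam i * term K lev' i =
        fr (Pge lev' i * K * Pge lev' i) + lam i ^ 2 * (d - trace (Pge lev' i)) := by
      simp only [term]; field_simp
    rw [a2, hsand _ (Pge_T _ _) a1, Pge, diagonal_mul_diagonal, diagonal_mul_diagonal,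
      fr_diagonal, trace_diagonal]
    have a3 : (d : ℝ) = ∑ _a : Fin d, (1 : ℝ) := by simp
    rw [a3, ← Finset.sum_sub_distrib, Finset.mul_sum, ← Finset.sum_add_distrib]
    refine Finset.sum_congr rfl fun a _ => ?_
    by_cases ha : c ≤ lev a
    · have := nlev_iff (μ := μ) hc ha hci hi
      by_cases hb : i ≤ lev' a
      · simp only [hν, ha, hb, if_true]
        rw [min_eq_left (this.mp hb)]; ring
      · simp only [hν, ha, hb, if_true, if_false]
        rw [min_eq_right (not_le.mp (this.not.mp hb)).le]; ring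
    · have hb : ¬ i ≤ lev' a := by rw [hlev', nlev_lt (not_le.mp ha)]; omega
      simp only [hν, ha, hb, if_false, min_self]; ring
  -- the compression inequality
  have s1 : (V * Q * Vᵀ)ᵀ = V * Q * Vᵀ := by simp [transpose_mul, h1, Matrix.mul_assoc]
  have s2 : V * Q * Vᵀ * (V * Q * Vᵀ) = V * Q * Vᵀ := by
    calc _ = V * (Q * (Vᵀ * V) * Q) * Vᵀ := by simp only [Matrix.mul_assoc]
      _ = _ := by rw [hO', Matrix.mul_one, h2]
  have s3 : Pge lev c * (V * Q * Vᵀ) = V * Q * Vᵀ := by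
    rw [← Matrix.mul_assoc, ← Matrix.mul_assoc, V_comm hV le_rfl, Matrix.mul_assoc V]
    conv_lhs => rw [← h3, ← Matrix.mul_assoc (Pge lev c), Pge_mul hci.le, h3]
  have s4 := min_sq_le ν hν0 (lam i) hl.le s1 s2
  have s5 : V * Q * Vᵀ * K * (V * Q * Vᵀ) = V * (Q * H * Q) * Vᵀ := by
    calc _ = V * (Q * (Vᵀ * V) * H * (Vᵀ * V) * Q) * Vᵀ := by simp only [hK, Matrix.mul_assoc]
      _ = _ := by rw [hO', Matrix.mul_one, Matrix.mul_one]
  have s6 : trace (V * Q * Vᵀ) = trace Q := by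
    rw [trace_mul_comm, ← Matrix.mul_assoc, hO', Matrix.one_mul]
  rw [← hsand _ s1 s3, s5, fr_conj hO, s6, Fintype.card_fin] at s4
  rw [e1]; exact s4

theorem relabel {Lv : ℕ} {G L : Matrix (Fin d) (Fin d) ℝ} {lev : Fin d → ℕ}
    (h : Inv0 Lv G lev L) {w : Fin d → ℝ} (hw : sq w ≤ 1 / 4) {σ : ℝ} (hσ : 0 ≤ σ)
    (hU0 : ∀ z, qf (G + σ • vecMulVec w w) z ≤ 2 * sq z) :
    ∃ (V : Matrix (Fin d) (Fin d) ℝ) (lev' : Fin d → ℕ) (L' : Matrix (Fin d) (Fin d) ℝ) (c : ℕ),
      V * Vᵀ = 1 ∧ Inv0 Lv (V * (G + σ • vecMulVec w w) * Vᵀ) lev' L' ∧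
      (∀ i, clock lev' L' i ≤ 1 / 2) ∧ (∀ r i, i < c → (lev' r = i ↔ lev r = i)) ∧
      (∀ i ≤ c, Pge lev' i = Pge lev i ∧ Pge lev i * V = V * Pge lev i) ∧
      (∀ r, lev r < c → L' r = L r ∧ V *ᵥ L r = L r) ∧
      lam c / 2 ≤ Theta Lv G lev L - Theta Lv (V * (G + σ • vecMulVec w w) * Vᵀ) lev' L' +
        30000 * σ + lam Lv := by
  classical
  set H := G + σ • vecMulVec w w with hH
  have hex : ∃ i, i = Lv ∨ 1 / 2 < clock lev L i ∨ ¬ UB H lev (i + 1) := ⟨Lv, Or.inl rfl⟩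
  set c := Nat.find hex with hcdef
  have hc : c ≤ Lv := Nat.find_min' hex (Or.inl rfl)
  have hmin : ∀ i < c, clock lev L i ≤ 1 / 2 ∧ UB H lev (i + 1) := fun i hi => by
    have := Nat.find_min hex hi
    simp only [not_or, not_lt, not_not] at this
    exact this.2
  have hspec := Nat.find_spec hex
  rw [← hcdef] at hspec
  have hHs : Hᵀ = H := by simp [hH, h.sym, transpose_vecMulVec]
  have hGH : ∀ z, qf G z ≤ qf H z := fun z => by
    rw [hH, qf_madd, qf_vv]; nlinarith [mul_nonneg hσ (sq_nonneg (w ⬝ᵥ z))]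
  have hHp : ∀ z, 0 ≤ qf H z := fun z => (h.psd z).trans (hGH z)
  have hU : ∀ i ≤ c, UB H lev i := fun i hi => by
    cases i with
    | zero => intro z _; simpa [lam] using hU0 z
    | succ j => exact (hmin j hi).2
  obtain ⟨V, hO, hV, hD⟩ := exists_blockdiag H hHs (fun a => c ≤ lev a)
  set μ : Fin d → ℝ := fun a => (V * H * Vᵀ) a a with hμ
  have hw1 : sq w ≤ 1 := by linarith
  refine ⟨V, nlev Lv c lev μ, nL c lev L, c, hO, relabel_inv h hc hHs hGH hU hO hV hD, ?_,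
    fun r i hi => nlev_eq_iff hc r hi, fun i hi => ⟨nlev_Pge hc hi, V_comm hV hi⟩,
    fun r hr => ⟨nL_lt hr, V_fix hV fun a ha => h.supp r a (by omega)⟩, ?_⟩
  · intro i
    by_cases hi : i < c
    · rw [nclock_lt hc hi]; exact (hmin i hi).1
    · rw [nclock_ge hc (not_lt.mp hi)]; norm_num
  set tn : ℕ → ℝ := fun i => term (V * H * Vᵀ) (nlev Lv c lev μ) i with htn
  set b : ℕ → ℝ := fun i =>
    term G lev i + 2 * σ * (qf G (Pge lev i *ᵥ w) / lam i) + (Fx σ i - Fx σ (i + 1)) with hb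
  have h1 : ∀ i ∈ range (Lv + 1), tn i ≤ b i := by
    intro i hi
    have hi' := Nat.lt_succ_iff.mp (mem_range.mp hi)
    by_cases hic : i ≤ c
    · refine le_trans (le_of_eq ?_) (term_low h.psd hσ hw1 (hU i hic))
      simp only [htn, term, nlev_Pge hc hic, ← hH]
      congr 2
      rw [← fr_conj hO (Pge lev i * H * Pge lev i)]
      congr 1
      calc _ = (Pge lev i * V) * H * (Vᵀ * Pge lev i) := by simp only [Matrix.mul_assoc]
        _ = _ := by rw [V_comm hV hic, ← V_comm' hV hic]; simp only [Matrix.mul_assoc]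
    · exact term_high h.sym h.psd hσ hw1 (term_high_gen hc (not_le.mp hic) hi' hHp hO hV hD)
  have h2 : ∑ i ∈ range (Lv + 1), b i ≤ ∑ i ∈ range (Lv + 1), term G lev i + 36 * σ := by
    simp only [hb]
    rw [Finset.sum_add_distrib, Finset.sum_add_distrib, ← Finset.mul_sum]
    have a1 := sum_Fx hσ (Lv + 1)
    have a2 := mul_le_mul_of_nonneg_left ((sum_q_le h w).trans (show 24 * sq w ≤ 6 by linarith))
      (show 0 ≤ 2 * σ by positivity)
    linarith
  have h3 : ∀ i ∈ range Lv,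
      lam i * clock (nlev Lv c lev μ) (nL c lev L) i ≤ lam i * clock lev L i := by
    intro i _
    refine mul_le_mul_of_nonneg_left ?_ (lam_pos i).le
    by_cases hi : i < c
    · rw [nclock_lt hc hi]
    · rw [nclock_ge hc (not_lt.mp hi)]; exact clock_nonneg h.contr i
  have h4 := Finset.sum_le_sum h1
  have h5 := Finset.sum_le_sum h3
  have hL := lam_pos Lv
  have hlc := lam_pos c
  simp only [Theta]
  by_cases hcL : c = Lv
  · rw [hcL] at hlc ⊢
    rw [hcL] at h5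
    simp only [htn, hcL] at h4
    linarith
  have hcL' : c < Lv := lt_of_le_of_ne hc hcL
  rcases hspec with h6 | h6 | h6
  · exact absurd h6 hcL
  · have h7 := Finset.single_le_sum (f := fun i => lam i * clock lev L i -
      lam i * clock (nlev Lv c lev μ) (nL c lev L) i) (fun i hi => sub_nonneg.mpr (h3 i hi))
      (mem_range.mpr hcL')
    rw [Finset.sum_sub_distrib, nclock_ge hc le_rfl] at h7
    have h8 := mul_le_mul_of_nonneg_left h6.le hlc.le
    simp only [htn] at h4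
    linarith
  · have h7 := Finset.single_le_sum (f := fun i => b i - tn i)
      (fun i hi => sub_nonneg.mpr (h1 i hi)) (mem_range.mpr (Nat.succ_lt_succ hcL'))
    have h8 : tn (c + 1) ≤ b (c + 1) - 3 * lam (c + 1) + 3 * σ :=
      term_viol h.sym h.psd hσ hw1 (term_high_gen hc (Nat.lt_succ_self c) hcL' hHp hO hV hD) h6
    rw [Finset.sum_sub_distrib] at h7
    rw [lam_succ] at h8
    simp only [htn] at h7 h8
    linarith

/-- One step of the process. -/
theorem step {Lv : ℕ} {G L T : Matrix (Fin d) (Fin d) ℝ} {lev : Fin d → ℕ} {w : Fin d → ℝ}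
    (h : Inv0 Lv G lev L) (hclk : ∀ i, clock lev L i ≤ 1 / 2)
    (hTT : T * Tᵀ + vecMulVec w w = 1) (hw : sq w ≤ 1 / 4) {σ : ℝ} (hσ : 0 ≤ σ)
    (hU0 : ∀ z, qf (T * G * Tᵀ + σ • vecMulVec w w) z ≤ 2 * sq z) :
    ∃ (W : Matrix (Fin d) (Fin d) ℝ) (lev' : Fin d → ℕ) (L' : Matrix (Fin d) (Fin d) ℝ) (c : ℕ),
      W * Wᵀ = 1 ∧ Inv0 Lv (W * (T * G * Tᵀ + σ • vecMulVec w w) * Wᵀ) lev' L' ∧
      (∀ i, clock lev' L' i ≤ 1 / 2) ∧ (∀ r i, i < c → (lev' r = i ↔ lev r = i)) ∧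
      (∀ r, lev r < c → ∀ x, Pge lev (lev r) *ᵥ x = L r →
        Pge lev' (lev r) *ᵥ ((W * T) *ᵥ x) = L' r) ∧
      lam c / 2 ≤ Theta Lv G lev L -
        Theta Lv (W * (T * G * Tᵀ + σ • vecMulVec w w) * Wᵀ) lev' L' + 30000 * σ + 65 * lam Lv := by
  obtain ⟨O, hO, hT⟩ := exists_qr T lev
  have hTT' : O * T * (O * T)ᵀ + vecMulVec (O *ᵥ w) (O *ᵥ w) = 1 := by
    have : O * (T * Tᵀ + vecMulVec w w) * Oᵀ = 1 := by rw [hTT, Matrix.mul_one, hO]
    rw [← this, Matrix.mul_add, Matrix.add_mul, mul_vv, vv_mul, transpose_transpose, transpose_mul]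
    simp only [Matrix.mul_assoc]
  have hw' : sq (O *ᵥ w) ≤ 1 / 4 := by rwa [sq_orth hO]
  have e : O * T * G * (O * T)ᵀ + σ • vecMulVec (O *ᵥ w) (O *ᵥ w) =
      O * (T * G * Tᵀ + σ • vecMulVec w w) * Oᵀ := by
    rw [Matrix.mul_add, Matrix.add_mul, Matrix.mul_smul, Matrix.smul_mul, mul_vv, vv_mul,
      transpose_transpose, transpose_mul]
    simp only [Matrix.mul_assoc]
  obtain ⟨V, lev', L', c, h1, h2, h3, h4, h5, h6, h7⟩ :=
    relabel (transport_inv h hT hTT') hw' hσ (fun z => by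
      rw [e, qf_conj, ← sq_orth' hO z]; exact hU0 _)
  have e' : V * (O * T * G * (O * T)ᵀ + σ • vecMulVec (O *ᵥ w) (O *ᵥ w)) * Vᵀ =
      V * O * (T * G * Tᵀ + σ • vecMulVec w w) * (V * O)ᵀ := by
    rw [e, transpose_mul]; simp only [Matrix.mul_assoc]
  rw [e'] at h2 h7
  refine ⟨V * O, lev', L', c, ?_, h2, h3, h4, ?_, ?_⟩
  · rw [transpose_mul, Matrix.mul_assoc, ← Matrix.mul_assoc O, hO, Matrix.one_mul, h1]
  · intro r hr x hx
    obtain ⟨a1, a2⟩ := h5 _ hr.le
    obtain ⟨a3, a4⟩ := h6 r hr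
    rw [a1, a3, ← a4, tL_row, ← hx, mulVec_mulVec, Matrix.mul_assoc V, ← Matrix.mul_assoc, a2,
      Matrix.mul_assoc, ← tri_Pge hT]
    simp only [mulVec_mulVec, Matrix.mul_assoc]
  · have := transport_theta h hclk hT hTT' hw'
    linarith

end Crest.Agent.R239
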